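import Vale.Agent.P353.AN.LOW.Stmt
import Vale.Agent.P353.AN.G.AvgG

/-! # P353, all `N`, block LOW, LOW4: averages with a direction field -/

open MeasureTheory Filter Topology
open scoped ContDiff

namespace Vale.Agent.P353.AN.LW

open Vale.Agent.P353.Z Vale.Agent.P353.Z.U Vale.Agent.P353.AN.G

universe w

variable {N d : ℕ} {F : Type w} [NormedAddCommGroup F] [InnerProductSpace ℂ F]

/-- Cauchy–Schwarz on a space of finite measure -/
theorem avb_cs {α : Type*} [MeasurableSpace α] (μ : Measure α) [IsFiniteMeasure μ] (f : α → ℝ)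
    (hf : Integrable f μ) (hf2 : Integrable (fun x => f x ^ 2) μ) :
    (∫ x, f x ∂μ) ^ 2 ≤ μ.real Set.univ * ∫ x, f x ^ 2 ∂μ := by
  have hq : ∀ t : ℝ, 0 ≤ (∫ x, f x ^ 2 ∂μ) - 2 * t * (∫ x, f x ∂μ) + t ^ 2 * μ.real Set.univ := by
    intro t
    have h1 : 0 ≤ ∫ x, (f x - t) ^ 2 ∂μ := integral_nonneg fun x => sq_nonneg _
    have h2 : ∫ x, (f x - t) ^ 2 ∂μ =
        (∫ x, f x ^ 2 ∂μ) - 2 * t * (∫ x, f x ∂μ) + t ^ 2 * μ.real Set.univ := by
      have e1 : (fun x => (f x - t) ^ 2) = fun x => (f x ^ 2 - 2 * t * f x) + t ^ 2 := by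
        funext x
        ring
      have i1 : Integrable (fun x => f x ^ 2 - 2 * t * f x) μ := hf2.sub (hf.const_mul _)
      have e2 : ∫ x, ((f x ^ 2 - 2 * t * f x) + t ^ 2) ∂μ =
          (∫ x, (f x ^ 2 - 2 * t * f x) ∂μ) + ∫ _x, t ^ 2 ∂μ := integral_add i1 (integrable_const _)
      have e3 : ∫ x, (f x ^ 2 - 2 * t * f x) ∂μ = (∫ x, f x ^ 2 ∂μ) - ∫ x, 2 * t * f x ∂μ :=
        integral_sub hf2 (hf.const_mul _)
      rw [e1, e2, e3, integral_const_mul, integral_const, smul_eq_mul,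
        mul_comm (μ.real Set.univ)]
    rwa [h2] at h1
  rcases eq_or_lt_of_le (measureReal_nonneg (μ := μ) (s := Set.univ)) with h0 | h0
  · have h1 : μ = 0 := by
      have h2 : μ Set.univ = 0 := by
        rcases (ENNReal.toReal_eq_zero_iff _).1 h0.symm with h | h
        · exact h
        · exact absurd h (measure_ne_top _ _)
      exact Measure.measure_univ_eq_zero.1 h2
    rw [h1]
    simp
  · have h1 := hq ((∫ x, f x ∂μ) / μ.real Set.univ)
    have h2 : (∫ x, f x ^ 2 ∂μ) - 2 * ((∫ x, f x ∂μ) / μ.real Set.univ) * (∫ x, f x ∂μ) +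
        ((∫ x, f x ∂μ) / μ.real Set.univ) ^ 2 * μ.real Set.univ =
        (∫ x, f x ^ 2 ∂μ) - (∫ x, f x ∂μ) ^ 2 / μ.real Set.univ := by
      field_simp
      ring
    rw [h2, sub_nonneg, div_le_iff₀ h0] at h1
    rwa [mul_comm]

/-- pointwise lower bound -/
theorem avb_pt [FiniteDimensional ℂ F] (M : BFSS.Model N d F) (h22 : ActStmt M)
    (φ : Cfg d → ℝ) (Om Z : Cfg d → F) (hφ : Continuous φ) (h0 : ∀ x, 0 ≤ φ x)
    (hZe : ∀ x, Z x = ((φ x : ℝ) : ℂ) • Om x) (hZ : Continuous Z) (hone : ∀ x, φ x ≠ 0 → ‖Om x‖ = 1)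
    (hhalf : ∀ U x, φ x ≠ 0 → φ (M.act U x) ≠ 0 →
      1 / 2 ≤ (inner ℂ (Om (M.act U x)) (M.S U (Om x))).re) (x : Cfg d) :
    1 / 2 * avs M φ x ≤ ‖avg M Z x‖ := by
  have hc : Continuous fun U : BFSS.SU N => φ (M.act U⁻¹ x) := by
    have h1 := (AvgG.act_cont M h22).comp
      ((continuous_id.prodMk continuous_const : Continuous fun U : BFSS.SU N => (U, x)))
    exact hφ.comp h1
  by_cases hex : ∃ U₀, φ (M.act U₀⁻¹ x) ≠ 0
  · obtain ⟨U₀, hU₀⟩ := hex
    set w : F := M.S U₀ (Om (M.act U₀⁻¹ x)) with hw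
    have hkey : ∀ U, 1 / 2 * φ (M.act U⁻¹ x) ≤ (inner ℂ w (M.S U (Z (M.act U⁻¹ x)))).re := by
      intro U
      have e1 : (inner ℂ w (M.S U (Z (M.act U⁻¹ x)))).re =
          φ (M.act U⁻¹ x) * (inner ℂ w (M.S U (Om (M.act U⁻¹ x)))).re := by
        rw [hZe, map_smul, inner_smul_right, Complex.re_ofReal_mul]
      rw [e1]
      rcases eq_or_ne (φ (M.act U⁻¹ x)) 0 with h | h
      · rw [h]
        simp
      · have h1 : M.act (U₀⁻¹ * U) (M.act U⁻¹ x) = M.act U₀⁻¹ x := by
          rw [← h22.1, mul_assoc, mul_inv_cancel, mul_one]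
        have h1' : φ (M.act (U₀⁻¹ * U) (M.act U⁻¹ x)) ≠ 0 := by
          rw [h1]
          exact hU₀
        have h2 := hhalf (U₀⁻¹ * U) (M.act U⁻¹ x) h h1'
        rw [h1] at h2
        have h3 : inner ℂ (Om (M.act U₀⁻¹ x)) (M.S (U₀⁻¹ * U) (Om (M.act U⁻¹ x))) =
            inner ℂ w (M.S U (Om (M.act U⁻¹ x))) := by
          rw [hw, ← AvgG.inner_S M U₀, ← M.S_mul, ← mul_assoc, mul_inv_cancel, one_mul]
        rw [h3] at h2
        nlinarith [h0 (M.act U⁻¹ x)]
    have hir : Integrable (fun U : BFSS.SU N => 1 / 2 * φ (M.act U⁻¹ x)) (hm N) :=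
      (continuous_const.mul hc).integrable_of_hasCompactSupport
        (HasCompactSupport.of_compactSpace _)
    have hci : Continuous fun U : BFSS.SU N => (inner ℂ w (M.S U (Z (M.act U⁻¹ x))) : ℂ) :=
      continuous_const.inner (AvgG.tr_cont_left M h22 hZ x)
    have hii : Integrable (fun U : BFSS.SU N => (inner ℂ w (M.S U (Z (M.act U⁻¹ x))) : ℂ))
        (hm N) := hci.integrable_of_hasCompactSupport (HasCompactSupport.of_compactSpace _)
    have h2 : (inner ℂ w (avg M Z x)).re =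
        ∫ U, (inner ℂ w (M.S U (Z (M.act U⁻¹ x)))).re ∂(hm N) := by
      rw [AvgG.self_eq M h22 hZ x w]
      exact (integral_re hii).symm
    have h3 : 1 / 2 * avs M φ x ≤ (inner ℂ w (avg M Z x)).re := by
      rw [h2]
      unfold avs
      rw [← integral_const_mul]
      exact integral_mono hir hii.re hkey
    refine h3.trans ((Complex.re_le_norm _).trans ((norm_inner_le_norm _ _).trans ?_))
    rw [hw, M.S_isometry, hone _ hU₀, one_mul]
  · push Not at hex
    have : avs M φ x = 0 := by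
      unfold avs
      simp only [hex, integral_zero]
    rw [this, mul_zero]
    exact norm_nonneg _

/-- joint integrability -/
theorem avb_int (M : BFSS.Model N d F) (h22 : ActStmt M)
    (φ : Cfg d → ℝ) (hφ : Continuous φ) (R : ℝ) (hR : ∀ x, R < ‖x‖ → φ x = 0) :
    Integrable (fun p : BFSS.SU N × Cfg d => φ (M.act p.1⁻¹ p.2))
      ((hm N).prod (volume : Measure (Cfg d))) := by
  have h2 : Continuous fun p : BFSS.SU N × Cfg d => φ (M.act p.1⁻¹ p.2) :=
    hφ.comp (AvgG.act_cont M h22)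
  refine h2.integrable_of_hasCompactSupport ?_
  refine HasCompactSupport.intro (isCompact_univ.prod (isCompact_closedBall (0 : Cfg d) R))
    fun p hp => ?_
  refine hR _ ?_
  rw [h22.2.2.2.2.1]
  by_contra hcon
  exact hp ⟨Set.mem_univ _, by simpa using not_lt.1 hcon⟩

/-- `∫_G avs φ = ∫_G φ` for an invariant set `G` -/
theorem avb_fub (M : BFSS.Model N d F) (h22 : ActStmt M)
    (φ : Cfg d → ℝ) (hφ : Continuous φ) (R : ℝ) (hR : ∀ x, R < ‖x‖ → φ x = 0)
    (G : Set (Cfg d)) (hG : MeasurableSet G) (hGi : ∀ U x, x ∈ G ↔ M.act U x ∈ G) :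
    ∫ x in G, avs M φ x = ∫ x in G, φ x := by
  have hI := avb_int M h22 φ hφ R hR
  have hI2 : Integrable (fun p : BFSS.SU N × Cfg d => G.indicator (fun x => φ (M.act p.1⁻¹ x)) p.2)
      ((hm N).prod (volume : Measure (Cfg d))) := by
    have h1 := hI.indicator (s := Prod.snd ⁻¹' G) (measurable_snd hG)
    refine h1.congr (ae_of_all _ fun p => ?_)
    beta_reduce
    by_cases hp : p.2 ∈ G
    · have h2 : p ∈ (Prod.snd ⁻¹' G : Set (BFSS.SU N × Cfg d)) := hp
      rw [Set.indicator_of_mem h2, Set.indicator_of_mem hp]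
    · have h2 : p ∉ (Prod.snd ⁻¹' G : Set (BFSS.SU N × Cfg d)) := hp
      rw [Set.indicator_of_notMem h2, Set.indicator_of_notMem hp]
  have hsw := integral_integral_swap (f := fun (U : BFSS.SU N) (x : Cfg d) =>
    G.indicator (fun x => φ (M.act U⁻¹ x)) x) hI2
  have hL : ∫ x in G, avs M φ x = ∫ x, ∫ U, G.indicator (fun x => φ (M.act U⁻¹ x)) x ∂(hm N) := by
    rw [← integral_indicator hG]
    refine integral_congr_ae (ae_of_all _ fun x => ?_)
    by_cases hx : x ∈ G
    · simp only [Set.indicator_of_mem hx]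
      rfl
    · simp only [Set.indicator_of_notMem hx, integral_zero]
  have hRr : ∀ U : BFSS.SU N, ∫ x, G.indicator (fun x => φ (M.act U⁻¹ x)) x = ∫ x in G, φ x := by
    intro U
    rw [← integral_indicator hG]
    have h1 : (fun x => G.indicator (fun x => φ (M.act U⁻¹ x)) x) =
        fun x => (G.indicator φ) (AvgG.actE M h22 U⁻¹ x) := by
      funext x
      show G.indicator (fun x => φ (M.act U⁻¹ x)) x = G.indicator φ (M.act U⁻¹ x)
      by_cases hx : x ∈ G
      · rw [Set.indicator_of_mem hx, Set.indicator_of_mem ((hGi U⁻¹ x).1 hx)]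
      · rw [Set.indicator_of_notMem hx, Set.indicator_of_notMem fun h => hx ((hGi U⁻¹ x).2 h)]
    rw [h1]
    exact (AvgG.actE M h22 U⁻¹).measurePreserving.integral_comp
      (AvgG.actE M h22 U⁻¹).toHomeomorph.measurableEmbedding (G.indicator φ)
  rw [hL, ← hsw]
  simp only [hRr]
  simp

/-- **LOW4 AVB** -/
theorem avb (M : BFSS.Model N d F) : AvbStmt M := by
  intro hfd h22 φ Om hφ hcs h0 hZ hone hhalf G hG hGi hvol
  have hcF : CompleteSpace F := FiniteDimensional.complete ℂ F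
  obtain ⟨R, hR⟩ := hcs.isCompact.isBounded.exists_norm_le
  have hR' : ∀ x, R < ‖x‖ → φ x = 0 := fun x hx =>
    image_eq_zero_of_notMem_tsupport fun h => absurd (hR x h) (not_le.2 hx)
  obtain ⟨B, hB⟩ := hφ.bounded_above_of_compact_support hcs
  have hB0 : 0 ≤ B := (norm_nonneg _).trans (hB 0)
  set Z : Cfg d → F := fun x => ((φ x : ℝ) : ℂ) • Om x with hZdef
  have hZn : ∀ x, ‖Z x‖ = φ x := by
    intro x
    simp only [hZdef]
    rw [norm_smul, Complex.norm_real, Real.norm_of_nonneg (h0 x)]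
    rcases eq_or_ne (φ x) 0 with h | h
    · rw [h, zero_mul]
    · rw [hone x h, mul_one]
  have hpt := avb_pt M h22 φ Om Z hφ h0 (fun _ => rfl) hZ hone hhalf
  have hav0 : ∀ x, 0 ≤ avs M φ x := fun x => integral_nonneg fun U => h0 _
  -- integrability of `avs φ`
  have hI := avb_int M h22 φ hφ R hR'
  have hIs : Integrable (avs M φ) (volume : Measure (Cfg d)) := hI.integral_prod_right
  have havB : ∀ x, avs M φ x ≤ B := by
    intro x
    unfold avs
    have h1 : ‖∫ U, φ (M.act U⁻¹ x) ∂(hm N)‖ ≤ B * (hm N).real Set.univ :=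
      norm_integral_le_of_norm_le_const (ae_of_all _ fun U => hB _)
    rw [probReal_univ, mul_one] at h1
    exact (le_abs_self _).trans h1
  have hIs2 : Integrable (fun x => avs M φ x ^ 2) (volume : Measure (Cfg d)) := by
    refine Integrable.mono' (hIs.const_mul B) (hIs.aestronglyMeasurable.pow 2)
      (ae_of_all _ fun x => ?_)
    rw [Real.norm_of_nonneg (sq_nonneg _), sq]
    exact mul_le_mul_of_nonneg_right (havB x) (hav0 x)
  -- integrability of `‖avg Z‖²`
  have hsm : StronglyMeasurable (avg M Z) := by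
    have h1 : StronglyMeasurable fun p : Cfg d × BFSS.SU N => M.S p.2 (Z (M.act p.2⁻¹ p.1)) :=
      ((AvgG.tr_cont M h22 hZ).comp continuous_swap).stronglyMeasurable
    exact h1.integral_prod_right
  have hnle : ∀ x, ‖avg M Z x‖ ≤ avs M φ x := by
    intro x
    refine (norm_integral_le_integral_norm _).trans (le_of_eq ?_)
    unfold avs
    refine integral_congr_ae (ae_of_all _ fun U => ?_)
    show ‖M.S U (Z (M.act U⁻¹ x))‖ = φ (M.act U⁻¹ x)
    rw [M.S_isometry, hZn]
  have hIn : Integrable (fun x => ‖avg M Z x‖ ^ 2) (volume : Measure (Cfg d)) := by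
    refine Integrable.mono' hIs2 ((hsm.norm.aestronglyMeasurable).pow 2) (ae_of_all _ fun x => ?_)
    rw [Real.norm_of_nonneg (sq_nonneg _)]
    exact pow_le_pow_left₀ (norm_nonneg _) (hnle x) 2
  have : IsFiniteMeasure ((volume : Measure (Cfg d)).restrict G) :=
    ⟨by rw [Measure.restrict_apply_univ]; exact lt_top_iff_ne_top.2 hvol⟩
  have hcsw := avb_cs ((volume : Measure (Cfg d)).restrict G) (avs M φ) hIs.integrableOn
    hIs2.integrableOn
  rw [avb_fub M h22 φ hφ R hR' G hG hGi] at hcsw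
  have hreal : ((volume : Measure (Cfg d)).restrict G).real Set.univ = (volume G).toReal := by
    rw [measureReal_def, Measure.restrict_apply_univ]
  rw [hreal] at hcsw
  refine hcsw.trans ?_
  have h1 : ∫ x in G, avs M φ x ^ 2 ≤ 4 * nsq (avg M Z) := by
    have h2 : ∫ x in G, avs M φ x ^ 2 ≤ ∫ x, avs M φ x ^ 2 :=
      setIntegral_le_integral hIs2 (ae_of_all _ fun x => sq_nonneg _)
    have h3 : ∫ x, avs M φ x ^ 2 ≤ ∫ x, 4 * ‖avg M Z x‖ ^ 2 := by
      refine integral_mono hIs2 (hIn.const_mul 4) fun x => ?_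
      have h4 := hpt x
      have h5 := hav0 x
      show avs M φ x ^ 2 ≤ 4 * ‖avg M Z x‖ ^ 2
      nlinarith [norm_nonneg (avg M Z x)]
    refine h2.trans (h3.trans (le_of_eq ?_))
    rw [integral_const_mul]
    rfl
  calc (volume G).toReal * ∫ x in G, avs M φ x ^ 2 ≤ (volume G).toReal * (4 * nsq (avg M Z)) :=
        mul_le_mul_of_nonneg_left h1 ENNReal.toReal_nonneg
    _ = _ := by ring

end Vale.Agent.P353.AN.LW
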