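import Vale.Agent.P353.AN.LOW.Stmt
import Vale.Agent.P353.AN.F.Gss

/-! # P353, all `N`, block LOW: `ChiStmt` (LOW8), cutoffs in `η` (helper593) -/

open MeasureTheory Filter Topology
open scoped ContDiff

namespace Vale.Agent.P353.AN.LW

open Vale.Agent.P353.Z Vale.Agent.P353.Z.U Vale.Agent.P353.Z.AN Vale.Agent.P353.AN.G Vale.Agent.P353.Z.AF

namespace Chi

lemma integrable_gss_sq (r : ℕ) : Integrable (fun η : Cfg r => gss η ^ 2) := by
  have h := (memLp_gss (r := r) (K := ℂ) 1).integrable_norm_pow (p := 2) (by norm_num)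
  refine h.congr (Eventually.of_forall fun x => ?_)
  simp [Complex.norm_real, abs_of_pos (gss_pos x)]

end Chi

theorem chi (r : ℕ) : ChiStmt r := by
  intro hCut Lc hLc hclosed z₀ r₁ hr₁ hball ε hε
  obtain ⟨η, hηs, hη01, hηd, hη1, hae, -⟩ := hCut Lc hLc
  -- the bump around `z₀`
  have hsub : Metric.closedBall z₀ r₁ ⊆ (Coll Lc)ᶜ := fun x hx => hball x (by
    rwa [Metric.mem_closedBall, dist_eq_norm] at hx)
  obtain ⟨δ, hδ, hδs⟩ := (isCompact_closedBall z₀ r₁).exists_cthickening_subset_open
    hclosed.isOpen_compl hsub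
  have hthick : Metric.closedBall z₀ (r₁ + δ) ⊆ (Coll Lc)ᶜ := by
    intro x hx
    apply hδs
    rw [cthickening_closedBall hδ.le hr₁.le]
    rwa [add_comm] at hx
  let B0 : ContDiffBump z₀ := ⟨r₁, r₁ + δ, hr₁, by linarith⟩
  let c : ℕ → ContDiffBump (0 : Cfg r) := fun n =>
    ⟨(n : ℝ) + 1, (n : ℝ) + 2, by positivity, by linarith⟩
  let χ : ℕ → Cfg r → ℝ := fun n y => 1 - (1 - η n y * c n y) * (1 - B0 y)
  have hχs : ∀ n, ContDiff ℝ ∞ (χ n) := fun n =>
    contDiff_const.sub ((contDiff_const.sub ((hηs n).mul (c n).contDiff)).mul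
      (contDiff_const.sub B0.contDiff))
  have hsupp : ∀ n y, χ n y ≠ 0 → y ∈ tsupport (η n) ∩ Metric.closedBall 0 ((n : ℝ) + 2) ∪
      Metric.closedBall z₀ (r₁ + δ) := by
    intro n y hy
    by_contra hcon
    apply hy
    rw [Set.mem_union, not_or] at hcon
    have h1 : B0 y = 0 := by
      by_contra h
      apply hcon.2
      have : y ∈ Function.support B0 := h
      rw [B0.support_eq] at this
      exact Metric.ball_subset_closedBall this
    have h2 : η n y * c n y = 0 := by
      by_contra h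
      apply hcon.1
      refine ⟨subset_tsupport _ (left_ne_zero_of_mul h), ?_⟩
      have : y ∈ Function.support (c n) := right_ne_zero_of_mul h
      rw [(c n).support_eq] at this
      exact Metric.ball_subset_closedBall this
    simp only [χ, h1, h2]
    ring
  have htsupp : ∀ n, tsupport (χ n) ⊆ tsupport (η n) ∩ Metric.closedBall 0 ((n : ℝ) + 2) ∪
      Metric.closedBall z₀ (r₁ + δ) := by
    intro n
    refine closure_minimal (fun y hy => hsupp n y hy) ?_
    exact ((isClosed_tsupport _).inter Metric.isClosed_closedBall).union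
      Metric.isClosed_closedBall
  have hcpt : ∀ n, HasCompactSupport (χ n) := by
    intro n
    refine IsCompact.of_isClosed_subset ?_ (isClosed_tsupport _) (htsupp n)
    exact ((isCompact_closedBall (0 : Cfg r) ((n : ℝ) + 2)).inter_left
      (isClosed_tsupport _)).union (isCompact_closedBall _ _)
  have hdisj : ∀ n, Disjoint (tsupport (χ n)) (Coll Lc) := by
    intro n
    rw [Set.disjoint_left]
    intro y hy hyL
    rcases htsupp n hy with h | h
    · exact Set.disjoint_left.1 (hηd n) h.1 hyL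
    · exact hthick h hyL
  have h01 : ∀ n y, 0 ≤ χ n y ∧ χ n y ≤ 1 := by
    intro n y
    have a1 := hη01 n y
    have a2 : 0 ≤ c n y := (c n).nonneg
    have a3 : c n y ≤ 1 := (c n).le_one
    have a4 : 0 ≤ B0 y := B0.nonneg
    have a5 : B0 y ≤ 1 := B0.le_one
    have a6 : 0 ≤ η n y * c n y := mul_nonneg a1.1 a2
    have a7 : η n y * c n y ≤ 1 := mul_le_one₀ a1.2 a2 a3
    have a8 : 0 ≤ (1 - η n y * c n y) * (1 - B0 y) :=
      mul_nonneg (by linarith) (by linarith)
    have a9 : (1 - η n y * c n y) * (1 - B0 y) ≤ 1 :=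
      mul_le_one₀ (by linarith) (by linarith) (by linarith)
    simp only [χ]
    constructor <;> linarith
  have hone : ∀ n y, ‖y - z₀‖ ≤ r₁ → χ n y = 1 := by
    intro n y hy
    have : B0 y = 1 := B0.one_of_mem_closedBall (by
      rwa [Metric.mem_closedBall, dist_eq_norm])
    simp only [χ, this]
    ring
  have hlim : Tendsto (fun n => ∫ y : Cfg r, (1 - χ n y) ^ 2 * gss y ^ 2) atTop (𝓝 0) := by
    have h0 : (0 : ℝ) = ∫ _ : Cfg r, (0 : ℝ) := by simp
    rw [h0]
    refine tendsto_integral_of_dominated_convergence (fun y => gss y ^ 2) ?_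
      (Chi.integrable_gss_sq r) ?_ ?_
    · intro n
      refine (Continuous.mul ?_ ?_).aestronglyMeasurable
      · exact (continuous_const.sub (hχs n).continuous).pow 2
      · exact (contDiff_gss.continuous).pow 2
    · intro n
      refine Eventually.of_forall fun y => ?_
      have a1 := h01 n y
      rw [Real.norm_eq_abs, abs_of_nonneg (by positivity)]
      have a2 : (1 - χ n y) ^ 2 ≤ 1 := by
        apply pow_le_one₀ <;> linarith
      calc (1 - χ n y) ^ 2 * gss y ^ 2 ≤ 1 * gss y ^ 2 :=
            mul_le_mul_of_nonneg_right a2 (sq_nonneg _)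
        _ = gss y ^ 2 := one_mul _
    · filter_upwards [hae] with y hy
      refine tendsto_const_nhds.congr' ?_
      have e1 := hη1 y hy
      have e2 : ∀ᶠ n : ℕ in atTop, ‖y‖ ≤ (n : ℝ) + 1 := by
        filter_upwards [eventually_ge_atTop ⌈‖y‖⌉₊] with n hn
        have : ‖y‖ ≤ (n : ℝ) := Nat.ceil_le.1 hn
        linarith
      filter_upwards [e1, e2] with n h1 h2
      have h3 : c n y = 1 := (c n).one_of_mem_closedBall (by
        rwa [mem_closedBall_zero_iff])
      simp only [χ, h1, h3]
      ring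
  obtain ⟨n, hn⟩ := (hlim.eventually (ge_mem_nhds hε)).exists
  exact ⟨χ n, hχs n, hcpt n, hdisj n, h01 n, hone n, hn⟩

end Vale.Agent.P353.AN.LW
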