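import Vale.Agent.P353.AN.LOW.Stmt

/-! # P353, all `N`, block LOW: the main lower bound -/

open MeasureTheory Filter Topology
open scoped ContDiff

namespace Vale.Agent.P353.AN.LW

open Vale.Agent.P353.Z Vale.Agent.P353.Z.U Vale.Agent.P353.Z.AN Vale.Agent.P353.AN.G

variable {N d dh dm r ds : ℕ} {F : Type*} [NormedAddCommGroup F] [InnerProductSpace ℂ F]

lemma GB_inv (M : BFSS.Model N d F) (hA : ActStmt M) (φ : Spl dh dm d) (ψ : Spz r ds dh) (z₀ : Cfg r) (r₁ R : ℝ)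
    (U : BFSS.SU N) (x : Cfg d) : x ∈ GB M φ ψ z₀ r₁ R ↔ M.act U x ∈ GB M φ ψ z₀ r₁ R := by
  constructor
  · rintro ⟨V, hV⟩
    refine ⟨V * U⁻¹, ?_⟩
    rw [← hA.1, mul_assoc, inv_mul_cancel, mul_one]
    exact hV
  · rintro ⟨V, hV⟩
    refine ⟨V * U, ?_⟩
    rw [hA.1]
    exact hV

lemma bx_closed (ds dm : ℕ) (z₀ : Cfg r) (r₁ : ℝ) : IsClosed (bx ds dm z₀ r₁) := by
  have h1 : IsClosed {q : Cfg r × Cfg ds × Cfg dm | ‖q.1 - z₀‖ ≤ r₁} := isClosed_le (by fun_prop) continuous_const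
  have h2 : IsClosed {q : Cfg r × Cfg ds × Cfg dm | ‖q.2.1‖ ≤ r₁} := isClosed_le (by fun_prop) continuous_const
  have h3 : IsClosed {q : Cfg r × Cfg ds × Cfg dm | ‖q.2.2‖ ≤ r₁} := isClosed_le (by fun_prop) continuous_const
  exact h1.inter (h2.inter h3)

/-- the integral over the box in scaled coordinates -/
lemma int_box (φ : Spl dh dm d) (ψ : Spz r ds dh) (hS : SclStmt) {R : ℝ} (hR : 0 < R) {β : Cfg r × Cfg ds × Cfg dm → ℝ}
    (hβ : Continuous β) (hβc : HasCompactSupport β) (hβ0 : ∀ q, 0 ≤ β q) {E : Set (Cfg r × Cfg ds × Cfg dm)}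
    (hE : MeasurableSet E) :
    ∫ x in {x | sc φ ψ R x ∈ E}, β (sc φ ψ R x) =
      R ^ (9 * (r : ℝ) - 9 * (dm : ℝ) / 2) * ∫ q in E, β q ∂(v3 r ds dm) := by
  obtain ⟨hsc, hlin, e, he⟩ := hS d dh dm r ds φ ψ R hR
  have hm : MeasurableSet {x : Cfg d | sc φ ψ R x ∈ E} := hsc.measurable hE
  have hc : HasCompactSupport fun x : Cfg d => β (sc φ ψ R x) := by
    have h := hβc.comp_homeomorph e
    have h2 : (fun x : Cfg d => β (sc φ ψ R x)) = β ∘ e := by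
      funext x
      simp [he]
    rw [h2]
    exact h
  have hi : Integrable (fun x : Cfg d => β (sc φ ψ R x)) := (hβ.comp hsc).integrable_of_hasCompactSupport hc
  have hi2 : Integrable β (v3 r ds dm) := by
    unfold v3
    exact hβ.integrable_of_hasCompactSupport hβc
  have h1 : ENNReal.ofReal (∫ x in {x | sc φ ψ R x ∈ E}, β (sc φ ψ R x)) =
      ∫⁻ x : Cfg d, E.indicator (fun q => ENNReal.ofReal (β q)) (sc φ ψ R x) := by
    rw [ofReal_integral_eq_lintegral_ofReal hi.integrableOn (ae_of_all _ fun x => hβ0 _), ← lintegral_indicator hm]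
    rfl
  have h2 : ENNReal.ofReal (∫ q in E, β q ∂(v3 r ds dm)) =
      ∫⁻ q, E.indicator (fun q => ENNReal.ofReal (β q)) q ∂(v3 r ds dm) := by
    rw [ofReal_integral_eq_lintegral_ofReal hi2.integrableOn (ae_of_all _ fun x => hβ0 _), ← lintegral_indicator hE]
  rw [hlin _ ((hβ.measurable.ennreal_ofReal).indicator hE), ← h2, ← ENNReal.ofReal_mul (Real.rpow_nonneg hR.le _)] at h1
  have p1 : 0 ≤ ∫ x in {x | sc φ ψ R x ∈ E}, β (sc φ ψ R x) := integral_nonneg fun x => hβ0 _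
  have p2 : 0 ≤ R ^ (9 * (r : ℝ) - 9 * (dm : ℝ) / 2) * ∫ q in E, β q ∂(v3 r ds dm) :=
    mul_nonneg (Real.rpow_nonneg hR.le _) (integral_nonneg fun x => hβ0 _)
  exact (ENNReal.ofReal_eq_ofReal_iff p1 p2).1 h1

theorem core (M : BFSS.Model N d F) (S : Setup d F) (φ : Spl dh dm d) (ψ : Spz r ds dh) : CoreStmt M S φ ψ := by
  intro hfd hRep hsub hz hless hA hGeo hGood hGoodA hPos hVol hScl hAvb z₀ r₁ hr₁
  obtain ⟨C, hC, hV⟩ := hVol hRep hsub hz hA hGood hGoodA hScl z₀ r₁ hr₁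
  refine ⟨1 / (4 * C), by positivity, ?_⟩
  intro K Om hD hK β hβ hβc hβ0 hβK hcont
  obtain ⟨L, hL⟩ : ∃ L : ℝ, ∀ q, β q ≠ 0 → ‖q.2.2‖ ≤ L := by
    obtain ⟨L, hL⟩ := (hβc.isCompact.image (continuous_snd.comp continuous_snd)).isBounded.exists_norm_le
    exact ⟨L, fun q hq => hL _ ⟨q, subset_tsupport β (Function.mem_support.2 hq), rfl⟩⟩
  obtain ⟨R₀, hR₀, hP⟩ := hPos hfd hRep hsub hz hless hA hGeo K Om hD hK L
  refine ⟨R₀, hR₀, ?_⟩
  intro R hR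
  have hR1 : 1 ≤ R := hR₀.trans hR
  have hR0 : 0 < R := by linarith
  obtain ⟨hsc, hlin, e, he⟩ := hScl d dh dm r ds φ ψ R hR0
  obtain ⟨hcl, hvol⟩ := hV R hR1
  set k : ℝ := R ^ (3 * (dm : ℝ) - 9 * (r : ℝ) / 2) with hk
  have hk0 : 0 < k := Real.rpow_pos_of_pos hR0 _
  set φ₁ : Cfg d → ℝ := fun x => k * β (sc φ ψ R x) with hφ₁
  set Om₁ : Cfg d → F := fun x => Om ((sc φ ψ R x).1, (sc φ ψ R x).2.1) with hOm₁
  have hZ : Zb φ ψ (fun q => ((β q : ℝ) : ℂ) • Om (q.1, q.2.1)) R = fun x => ((φ₁ x : ℝ) : ℂ) • Om₁ x := by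
    funext x
    simp only [Zb, hφ₁, hOm₁, sc, Complex.ofReal_mul, mul_smul, hk]
  rw [hZ]
  have hcβ : HasCompactSupport fun x : Cfg d => β (sc φ ψ R x) := by
    have h := hβc.comp_homeomorph e
    have h2 : (fun x : Cfg d => β (sc φ ψ R x)) = β ∘ e := by
      funext x
      simp [he]
    rw [h2]
    exact h
  have hφc : Continuous φ₁ := continuous_const.mul (hβ.comp hsc)
  have hφs : HasCompactSupport φ₁ := hcβ.mul_left
  have hφ0 : ∀ x, 0 ≤ φ₁ x := fun x => mul_nonneg hk0.le (hβ0 _)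
  have hne : ∀ x, φ₁ x ≠ 0 → β (sc φ ψ R x) ≠ 0 := fun x hx h => hx (by simp [hφ₁, h])
  have hc1 : Continuous fun x => ((φ₁ x : ℝ) : ℂ) • Om₁ x := by
    have h := (hcont.comp hsc).const_smul ((k : ℝ) : ℂ)
    refine h.congr fun x => ?_
    simp only [hφ₁, hOm₁, Complex.ofReal_mul, mul_smul]
    rfl
  have hvt : volume (GB M φ ψ z₀ r₁ R) ≠ ⊤ := ne_top_of_le_ne_top ENNReal.ofReal_ne_top hvol
  have key := hAvb hfd hA φ₁ Om₁ hφc hφs hφ0 hc1 (fun x hx => hD.unit _ (hβK _ (hne x hx)))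
    (fun U x hx hx' => hP R hR U x (hβK _ (hne x hx)) (hβK _ (hne _ hx')) (hL _ (hne x hx)) (hL _ (hne _ hx')))
    (GB M φ ψ z₀ r₁ R) hcl.measurableSet (fun U x => GB_inv M hA φ ψ z₀ r₁ R U x) hvt
  have hint : Integrable φ₁ := hφc.integrable_of_hasCompactSupport hφs
  have hsubs : {x | sc φ ψ R x ∈ bx ds dm z₀ r₁} ⊆ GB M φ ψ z₀ r₁ R := fun x hx => ⟨1, by rw [hA.2.1]; exact hx⟩
  have hmono : ∫ x in {x | sc φ ψ R x ∈ bx ds dm z₀ r₁}, φ₁ x ≤ ∫ x in GB M φ ψ z₀ r₁ R, φ₁ x :=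
    setIntegral_mono_set hint.integrableOn (ae_of_all _ hφ0) (LE.le.eventuallyLE hsubs)
  set I : ℝ := ∫ q in bx ds dm z₀ r₁, β q ∂(v3 r ds dm) with hI
  have hI0 : 0 ≤ I := integral_nonneg fun x => hβ0 _
  have hbox : ∫ x in {x | sc φ ψ R x ∈ bx ds dm z₀ r₁}, φ₁ x = k * (R ^ (9 * (r : ℝ) - 9 * (dm : ℝ) / 2) * I) := by
    rw [hI, ← int_box φ ψ hScl hR0 hβ hβc hβ0 (bx_closed ds dm z₀ r₁).measurableSet, ← integral_const_mul]
  rw [hbox] at hmono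
  have hpow : (k * (R ^ (9 * (r : ℝ) - 9 * (dm : ℝ) / 2) * I)) ^ 2 = R ^ (9 * (r : ℝ) - 3 * (dm : ℝ)) * I ^ 2 := by
    have h1 : k * R ^ (9 * (r : ℝ) - 9 * (dm : ℝ) / 2) * (k * R ^ (9 * (r : ℝ) - 9 * (dm : ℝ) / 2)) =
        R ^ (9 * (r : ℝ) - 3 * (dm : ℝ)) := by
      rw [hk, ← Real.rpow_add hR0, ← Real.rpow_add hR0]
      congr 1
      ring
    calc (k * (R ^ (9 * (r : ℝ) - 9 * (dm : ℝ) / 2) * I)) ^ 2
        = k * R ^ (9 * (r : ℝ) - 9 * (dm : ℝ) / 2) * (k * R ^ (9 * (r : ℝ) - 9 * (dm : ℝ) / 2)) * I ^ 2 := by ring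
      _ = _ := by rw [h1]
  set P : ℝ := R ^ (9 * (r : ℝ) - 3 * (dm : ℝ)) with hPd
  have hP0 : 0 < P := Real.rpow_pos_of_pos hR0 _
  have hb0 : 0 ≤ k * (R ^ (9 * (r : ℝ) - 9 * (dm : ℝ) / 2) * I) :=
    mul_nonneg hk0.le (mul_nonneg (Real.rpow_nonneg hR0.le _) hI0)
  have hsq : P * I ^ 2 ≤ (∫ x in GB M φ ψ z₀ r₁ R, φ₁ x) ^ 2 := by
    rw [← hpow]
    exact pow_le_pow_left₀ hb0 hmono 2
  have hvr : (volume (GB M φ ψ z₀ r₁ R)).toReal ≤ C * P := by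
    refine ENNReal.toReal_le_of_le_ofReal (by positivity) hvol
  set X : ℝ := nsq (avg M fun x => ((φ₁ x : ℝ) : ℂ) • Om₁ x) with hX
  have hX0 : 0 ≤ X := nsq_nonneg _
  have h3 : P * I ^ 2 ≤ 4 * (C * P) * X := by
    refine hsq.trans (key.trans ?_)
    exact mul_le_mul_of_nonneg_right (by linarith) hX0
  have h4 : P * I ^ 2 ≤ P * (4 * C * X) := by linarith
  have h5 : I ^ 2 ≤ 4 * C * X := le_of_mul_le_mul_left h4 hP0
  rw [div_mul_eq_mul_div, one_mul, div_le_iff₀ (by positivity)]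
  linarith

end Vale.Agent.P353.AN.LW
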