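import Vale.Agent.P353.AN.LOW.MolG
import Vale.Agent.P353.Z.U.App
import Vale.Agent.P353.Z.U.Small

/-! # P353, all `N`, block LOW: LOW6, covariant regularisation of the ground state (helper535) -/

open MeasureTheory Filter Topology
open scoped ContDiff

namespace Vale.Agent.P353.AN.LW

open Vale.Agent.P353.Z Vale.Agent.P353.Z.U Vale.Agent.P353.Z.AN Vale.Agent.P353.AN.G Vale.Agent.P353.Z.Moll

variable {N d dh dm r ds : ℕ} {F : Type*} [NormedAddCommGroup F] [InnerProductSpace ℂ F]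

/-- radial mollification commutes with isometries -/
lemma mo_cov [CompleteSpace F] {δ : ℝ} {g : ℝ → ℝ} (hρ : IsMol δ (rad (dc := ds) g)) {f : Cfg ds → F}
    (hf : MemLp f 2 (volume : Measure (Cfg ds))) (A B : F →L[ℂ] F) (O : Cfg ds ≃ₗᵢ[ℝ] Cfg ds)
    (h : ∀ᵐ s, A (f s) = B (f (O s))) (s : Cfg ds) : A (mo (rad g) f s) = B (mo (rad g) f (O s)) := by
  have hi : ∀ x, Integrable (fun y => rad g (x - y) • f y) := fun x =>
    integrable_mo hρ.contDiff.continuous hρ.hcs (locInt hf) x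
  have e1 : A (mo (rad g) f s) = ∫ y, A (rad g (s - y) • f y) := by
    have := (A.restrictScalars ℝ).integral_comp_comm (hi s)
    exact this.symm
  have e2 : B (mo (rad g) f (O s)) = ∫ y, B (rad g (O s - y) • f y) := by
    have := (B.restrictScalars ℝ).integral_comp_comm (hi (O s))
    exact this.symm
  have e3 : ∫ y, B (rad g (O s - y) • f y) = ∫ y, B (rad g (O s - O y) • f (O y)) :=
    (O.measurePreserving.integral_comp O.toHomeomorph.measurableEmbedding
      (fun y => B (rad g (O s - y) • f y))).symm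
  rw [e1, e2, e3]
  refine integral_congr_ae ?_
  filter_upwards [h] with y hy
  have h1 : rad g (O s - O y) = rad g (s - y) := by
    unfold rad
    rw [← map_sub, O.norm_map]
  rw [h1]
  have h2 : ∀ (L : F →L[ℂ] F) (c : ℝ) (v : F), L (c • v) = c • L v := fun L c v =>
    (L.restrictScalars ℝ).map_smul c v
  rw [h2, h2, hy]

/-- a function bounded by `κ` on a ball and zero outside -/
lemma nsq_ball {w : Cfg ds → F} {κ R : ℝ} (h1 : ∀ s, ‖w s‖ ≤ κ) (h2 : ∀ s, R < ‖s‖ → w s = 0) :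
    nsq w ≤ κ ^ 2 * (volume : Measure (Cfg ds)).real (Metric.closedBall 0 R) := by
  have hfin : (volume : Measure (Cfg ds)) (Metric.closedBall 0 R) < ⊤ := measure_closedBall_lt_top
  have hi : Integrable ((Metric.closedBall (0 : Cfg ds) R).indicator fun _ => κ ^ 2) volume :=
    (integrable_indicator_iff Metric.isClosed_closedBall.measurableSet).2
      (integrableOn_const hfin.ne)
  have h3 : nsq w ≤ ∫ s, (Metric.closedBall (0 : Cfg ds) R).indicator (fun _ => κ ^ 2) s := by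
    refine integral_mono_of_nonneg (Eventually.of_forall fun s => sq_nonneg _) hi (Eventually.of_forall fun s => ?_)
    simp only
    by_cases hs : s ∈ Metric.closedBall (0 : Cfg ds) R
    · rw [Set.indicator_of_mem hs]
      exact pow_le_pow_left₀ (norm_nonneg _) (h1 s) 2
    · rw [Set.indicator_of_notMem hs]
      rw [mem_closedBall_zero_iff, not_le] at hs
      rw [h2 s hs, norm_zero]
      norm_num
  refine h3.trans (le_of_eq ?_)
  rw [integral_indicator Metric.isClosed_closedBall.measurableSet, setIntegral_const, smul_eq_mul, mul_comm]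

/-- **LOW6 MOL** -/
theorem mol (M : BFSS.Model N d F) (S : Setup d F) (φ : Spl dh dm d) (ψ : Spz r ds dh) : MolStmt M S φ ψ := by
  intro hF _ hA Lc V w₀ Ωm H ε hε
  have hcs : CompleteSpace F := FiniteDimensional.complete ℂ F
  obtain ⟨ε₁, hε₁, hm⟩ := mo_approx H.w_mem (δ := ε / 16) (by positivity)
  obtain ⟨g, hg, hρ⟩ := exists_mol (dc := ds) hε₁
  have hm' := hm ε₁ le_rfl _ hρ
  obtain ⟨K, -, hrc⟩ := exists_rc
  obtain ⟨R, hR1, hR2⟩ : ∃ R : ℝ, 1 ≤ R ∧ ∫ x, (if R / 4 ≤ ‖x‖ then ‖w₀ x‖ ^ 2 else 0) ≤ ε / 16 := by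
    have h1 := (small_tail H.w_mem).eventually (Iic_mem_nhds (show (0 : ℝ) < ε / 16 by positivity))
    obtain ⟨R, h2, h3⟩ := (h1.and (eventually_ge_atTop (1 : ℝ))).exists
    exact ⟨R, h3, h2⟩
  have hR0 : 0 < R := by linarith
  obtain ⟨h, hh⟩ := hrc R hR0
  have hmo : MemLp (mo (rad g) w₀) 2 (volume : Measure (Cfg ds)) := (nsq_mo_le hρ H.w_mem).1
  have hmc : Continuous (mo (rad g) w₀) := (contDiff_mo hρ.contDiff hρ.hcs (locInt H.w_mem)).continuous
  obtain ⟨w₁, hw₁⟩ : ∃ w₁ : Cfg ds → F, w₁ = fun s => ((rad h s : ℝ) : ℂ) • mo (rad g) w₀ s := ⟨_, rfl⟩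
  have hd : nsq (fun s => w₁ s - w₀ s) ≤ ε / 4 := by
    have h1 := InvL.nsq_cut_sub hh hR0 H.w_mem hmo
    rw [hw₁]
    linarith
  have hc : Continuous w₁ := by
    rw [hw₁]
    exact ((Setup.contDiff_ofReal (contDiff_rad hh.contDiff)).continuous).smul hmc
  have hz : ∀ s, R ≤ ‖s‖ → w₁ s = 0 := by
    intro s hs
    rw [hw₁]
    simp only
    rw [hh.zero s hs, Complex.ofReal_zero, zero_smul]
  have hcomp : HasCompactSupport w₁ := by
    refine HasCompactSupport.intro (isCompact_closedBall (0 : Cfg ds) R) fun s hs => ?_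
    rw [mem_closedBall_zero_iff, not_le] at hs
    exact hz s hs.le
  have hw1m : MemLp w₁ 2 (volume : Measure (Cfg ds)) := hc.memLp_of_hasCompactSupport hcomp
  obtain ⟨v, hv⟩ : ∃ v : ℝ, v = (volume : Measure (Cfg ds)).real (Metric.closedBall 0 R) := ⟨_, rfl⟩
  have hv0 : 0 ≤ v := hv ▸ measureReal_nonneg
  obtain ⟨κ, hκ⟩ : ∃ κ : ℝ, κ = Real.sqrt (ε / (4 * (v + 1))) := ⟨_, rfl⟩
  have hκ0 : 0 < κ := hκ ▸ Real.sqrt_pos.2 (by positivity)
  have hκ2 : κ ^ 2 * v ≤ ε / 4 := by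
    rw [hκ, Real.sq_sqrt (by positivity), div_mul_eq_mul_div, div_le_div_iff₀ (by positivity) (by norm_num)]
    nlinarith
  -- the scalar part and the direction
  obtain ⟨β₁, hβ⟩ : ∃ β₁ : Cfg ds → ℝ, β₁ = fun s => max (‖w₁ s‖ - κ) 0 := ⟨_, rfl⟩
  obtain ⟨om, hom⟩ : ∃ om : Cfg ds → F, om = fun s => ((‖w₁ s‖⁻¹ : ℝ) : ℂ) • w₁ s := ⟨_, rfl⟩
  have hβc : Continuous β₁ := by
    rw [hβ]
    exact (hc.norm.sub continuous_const).max continuous_const
  have hβz : ∀ s, w₁ s = 0 → β₁ s = 0 := by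
    intro s hs
    rw [hβ]
    simp only
    rw [hs, norm_zero, max_eq_right]
    linarith
  have hts : ∀ s ∈ tsupport β₁, κ ≤ ‖w₁ s‖ := by
    have h1 : tsupport β₁ ⊆ {s | κ ≤ ‖w₁ s‖} := by
      refine closure_minimal (fun s hs => ?_) (isClosed_le continuous_const hc.norm)
      by_contra h2
      apply hs
      have h3 : ‖w₁ s‖ < κ := not_le.1 h2
      rw [hβ]
      simp only
      rw [max_eq_right]
      linarith
    exact fun s hs => h1 hs
  have hprod : (fun s => ((β₁ s : ℝ) : ℂ) • om s) = fun s =>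
      ((max (‖w₁ s‖ - κ) 0 / max ‖w₁ s‖ κ : ℝ) : ℂ) • w₁ s := by
    funext s
    rw [hβ, hom]
    simp only
    rw [smul_smul, ← Complex.ofReal_mul]
    by_cases hs : κ ≤ ‖w₁ s‖
    · rw [max_eq_left hs, div_eq_mul_inv]
    · rw [max_eq_right (a := ‖w₁ s‖ - κ) (by linarith), zero_mul, zero_div]
  have hpc : Continuous fun s => ((β₁ s : ℝ) : ℂ) • om s := by
    rw [hprod]
    refine Continuous.smul (Complex.continuous_ofReal.comp ?_) hc
    refine ((hc.norm.sub continuous_const).max continuous_const).div (hc.norm.max continuous_const) fun s => ?_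
    exact (lt_of_lt_of_le hκ0 (le_max_right _ _)).ne'
  have hdiff : ∀ s, ‖w₁ s - ((β₁ s : ℝ) : ℂ) • om s‖ ≤ κ := by
    intro s
    have e1 : w₁ s - ((β₁ s : ℝ) : ℂ) • om s =
        ((1 - max (‖w₁ s‖ - κ) 0 / max ‖w₁ s‖ κ : ℝ) : ℂ) • w₁ s := by
      rw [congrFun hprod s, Complex.ofReal_sub, Complex.ofReal_one, sub_smul, one_smul]
    rw [e1, norm_smul, Complex.norm_real, Real.norm_eq_abs]
    by_cases hs : κ ≤ ‖w₁ s‖
    · have hp : 0 < ‖w₁ s‖ := lt_of_lt_of_le hκ0 hs
      rw [max_eq_left hs, max_eq_left (by linarith : (0 : ℝ) ≤ ‖w₁ s‖ - κ)]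
      have e2 : 1 - (‖w₁ s‖ - κ) / ‖w₁ s‖ = κ / ‖w₁ s‖ := by
        field_simp
        ring
      rw [e2, abs_of_nonneg (by positivity), div_mul_cancel₀ _ hp.ne']
    · rw [max_eq_right (a := ‖w₁ s‖ - κ) (by linarith), zero_div, sub_zero, abs_one, one_mul]
      linarith
  have hdz : ∀ s, R < ‖s‖ → w₁ s - ((β₁ s : ℝ) : ℂ) • om s = 0 := by
    intro s hs
    have h1 := hz s hs.le
    rw [hβz s h1, h1, Complex.ofReal_zero, zero_smul, sub_zero]
  have hdm : MemLp (fun s => w₁ s - ((β₁ s : ℝ) : ℂ) • om s) 2 (volume : Measure (Cfg ds)) := by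
    refine (hc.sub hpc).memLp_of_hasCompactSupport ?_
    refine HasCompactSupport.intro (isCompact_closedBall (0 : Cfg ds) R) fun s hs => ?_
    rw [mem_closedBall_zero_iff, not_le] at hs
    exact hdz s hs
  have hcov : ∀ U, Nrm M φ ψ U → ∀ η η', η ∉ Coll Lc → η' ∉ Coll Lc → M.act U (ezs φ ψ η 0) = ezs φ ψ η' 0 →
      ∀ s, M.S U (V η (w₁ s)) = V η' (w₁ (Os M φ ψ U s)) := by
    intro U hU η η' hη hη' hact s
    have h1 := H.cov U hU η η' hη hη' hact
    have h2 := mo_cov hρ H.w_mem ((M.S U).comp (V η)) (V η') (OsI hA hU) h1 s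
    rw [OsI_apply] at h2
    have h3 : rad h (Os M φ ψ U s) = rad h s := by
      unfold rad
      rw [← OsI_apply hA hU, (OsI hA hU).norm_map]
    rw [hw₁]
    simp only
    rw [h3, map_smul, map_smul, map_smul]
    congr 1
  refine ⟨β₁, om, hβc, ?_, fun s => ?_, ?_, ?_, hpc, ?_, ?_⟩
  · refine HasCompactSupport.intro (isCompact_closedBall (0 : Cfg ds) R) fun s hs => ?_
    rw [mem_closedBall_zero_iff, not_le] at hs
    exact hβz s (hz s hs.le)
  · rw [hβ]
    exact le_max_right _ _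
  · rw [hom]
    refine ContinuousOn.smul ?_ hc.continuousOn
    refine Complex.continuous_ofReal.comp_continuousOn (hc.norm.continuousOn.inv₀ fun s hs => ?_)
    exact (lt_of_lt_of_le hκ0 (hts s hs)).ne'
  · intro s hs
    have hp : 0 < ‖w₁ s‖ := lt_of_lt_of_le hκ0 (hts s hs)
    rw [hom]
    simp only
    rw [norm_smul, Complex.norm_real, Real.norm_of_nonneg (by positivity), inv_mul_cancel₀ hp.ne']
  · have e1 : (∫ s, ‖w₀ s - ((β₁ s : ℝ) : ℂ) • om s‖ ^ 2) =
        nsq (fun s => (w₀ s - w₁ s) + (w₁ s - ((β₁ s : ℝ) : ℂ) • om s)) := by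
      unfold nsq
      refine integral_congr_ae (Eventually.of_forall fun s => ?_)
      simp only
      congr 2
      abel
    have e2 : nsq (fun s => w₀ s - w₁ s) = nsq (fun s => w₁ s - w₀ s) := by
      unfold nsq
      refine integral_congr_ae (Eventually.of_forall fun s => ?_)
      simp only
      rw [norm_sub_rev]
    rw [e1]
    refine (nsq_add_le (H.w_mem.sub hw1m) hdm).trans ?_
    have h1 := nsq_ball hdiff hdz
    rw [← hv] at h1
    change 2 * nsq (fun s => w₀ s - w₁ s) + _ ≤ _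
    rw [e2]
    linarith
  · intro U hU η η' hη hη' s hs s' hs' hact
    obtain ⟨h1, h2⟩ := act_split hA hU hact
    have h3 := hcov U hU η η' hη hη' h1 s
    rw [h2] at h3
    have h4 : ‖w₁ s‖ = ‖w₁ s'‖ := by
      have h5 := congrArg norm h3
      rwa [M.S_isometry, H.V_iso, H.V_iso] at h5
    rw [hom]
    simp only
    rw [map_smul, map_smul, map_smul, h3, h4]

end Vale.Agent.P353.AN.LW
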