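import Vale.Agent.P353.AN.LOW.Stmt
import Vale.Agent.P353.AN.B.Poi

/-! # P353, all `N`, block LOW: LOW7 NRM (Gaussian normalisation and weighted moments on a compact set) -/

open MeasureTheory Filter Topology
open scoped ContDiff

namespace Vale.Agent.P353.AN.LW

open Vale.Agent.P353.Z Vale.Agent.P353.Z.U Vale.Agent.P353.Z.AN Vale.Agent.P353.AN.G

/-- quadratic form of a matrix -/
private theorem nr_qf {n : ℕ} (A : Matrix (Fin n) (Fin n) ℝ) (u : Fin n → ℝ) :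
    ∑ B, ∑ C, u B * A B C * u C = u ⬝ᵥ (A.mulVec u) := by
  simp only [dotProduct, Matrix.mulVec, Finset.mul_sum, mul_assoc]

/-- uniform lower bound -/
private theorem nr_lower {r n : ℕ} (K : Set (Cfg r)) (Ωm : Cfg r → Matrix (Fin n) (Fin n) ℝ) (hK : IsCompact K)
    (hpos : ∀ η ∈ K, ∀ u : Fin n → ℝ, u ≠ 0 → 0 < u ⬝ᵥ ((Ωm η).mulVec u)) (hc : ContinuousOn Ωm K) :
    ∃ c : ℝ, 0 < c ∧ ∀ η ∈ K, ∀ u : Fin n → ℝ, c * (u ⬝ᵥ u) ≤ u ⬝ᵥ ((Ωm η).mulVec u) := by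
  set T : Set (Cfg r × EuclideanSpace ℝ (Fin n)) := K ×ˢ Metric.sphere 0 1 with hT
  have hTc : IsCompact T := hK.prod (isCompact_sphere 0 1)
  have hent : ∀ B C, ContinuousOn (fun η => Ωm η B C) K := fun B C =>
    (continuous_id.matrix_elem B C).comp_continuousOn hc
  have hf : ContinuousOn (fun p : Cfg r × EuclideanSpace ℝ (Fin n) => ∑ B, ∑ C, p.2 B * Ωm p.1 B C * p.2 C) T := by
    refine continuousOn_finsetSum _ fun B _ => continuousOn_finsetSum _ fun C _ => ?_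
    refine ContinuousOn.mul (ContinuousOn.mul ?_ ?_) ?_
    · exact (((EuclideanSpace.proj (𝕜 := ℝ) B).continuous).comp continuous_snd).continuousOn
    · exact (hent B C).comp continuous_fst.continuousOn fun p hp => hp.1
    · exact (((EuclideanSpace.proj (𝕜 := ℝ) C).continuous).comp continuous_snd).continuousOn
  have hn : ∀ u : EuclideanSpace ℝ (Fin n), (u.ofLp ⬝ᵥ u.ofLp) = ‖u‖ ^ 2 := by
    intro u
    rw [EuclideanSpace.real_norm_sq_eq]
    simp only [dotProduct, sq]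
  have key : ∀ c : ℝ, (∀ p ∈ T, c ≤ ∑ B, ∑ C, p.2 B * Ωm p.1 B C * p.2 C) →
      ∀ η ∈ K, ∀ u : Fin n → ℝ, c * (u ⬝ᵥ u) ≤ u ⬝ᵥ ((Ωm η).mulVec u) := by
    intro c hcT η hη u
    by_cases hu : u = 0
    · rw [hu]
      simp
    set w : EuclideanSpace ℝ (Fin n) := WithLp.toLp 2 u with hw
    have hw0 : w ≠ 0 := by
      intro h
      apply hu
      have := congrArg WithLp.ofLp h
      simpa [hw] using this
    have hwn : 0 < ‖w‖ := norm_pos_iff.2 hw0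
    have h1 := hcT (η, ‖w‖⁻¹ • w) ⟨hη, by
      rw [mem_sphere_zero_iff_norm, norm_smul, norm_inv, norm_norm, inv_mul_cancel₀ hwn.ne']⟩
    have h2 : ∑ B, ∑ C, (‖w‖⁻¹ • w) B * Ωm η B C * (‖w‖⁻¹ • w) C =
        (‖w‖⁻¹) ^ 2 * (u ⬝ᵥ ((Ωm η).mulVec u)) := by
      rw [← nr_qf]
      simp only [Finset.mul_sum]
      refine Finset.sum_congr rfl fun B _ => Finset.sum_congr rfl fun C _ => ?_
      simp only [PiLp.smul_apply, smul_eq_mul, hw]
      ring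
    simp only [h2] at h1
    have h3 : u ⬝ᵥ u = ‖w‖ ^ 2 := by
      rw [← hn w]
    rw [h3]
    calc c * ‖w‖ ^ 2 ≤ ((‖w‖⁻¹) ^ 2 * (u ⬝ᵥ ((Ωm η).mulVec u))) * ‖w‖ ^ 2 :=
          mul_le_mul_of_nonneg_right h1 (by positivity)
      _ = u ⬝ᵥ ((Ωm η).mulVec u) := by field_simp
  rcases T.eq_empty_or_nonempty with hE | hne
  · exact ⟨1, one_pos, key 1 fun p hp => by rw [hE] at hp; exact absurd hp (Set.notMem_empty _)⟩
  · obtain ⟨p0, hp0, hmin⟩ := hTc.exists_isMinOn hne hf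
    refine ⟨∑ B, ∑ C, p0.2 B * Ωm p0.1 B C * p0.2 C, ?_, key _ fun p hp => hmin hp⟩
    rw [nr_qf (Ωm p0.1) p0.2.ofLp]
    refine hpos _ hp0.1 _ fun h => ?_
    have h1 : ‖p0.2‖ = 1 := mem_sphere_zero_iff_norm.1 hp0.2
    have h2 := hn p0.2
    rw [h, h1] at h2
    simp at h2

/-- lower bound for the cube -/
private theorem nr_cube {n : ℕ} (A : Matrix (Fin n) (Fin n) ℝ) (hA : A.transpose = A) {c : ℝ} (hc : 0 < c)
    (h : ∀ u : Fin n → ℝ, c * (u ⬝ᵥ u) ≤ u ⬝ᵥ (A.mulVec u)) (a : Fin n → ℝ) :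
    c ^ 3 * (a ⬝ᵥ a) ≤ a ⬝ᵥ ((A * A * A).mulVec a) := by
  have hs : ∀ x y : Fin n → ℝ, x ⬝ᵥ (A.mulVec y) = (A.mulVec x) ⬝ᵥ y := by
    intro x y
    rw [Matrix.dotProduct_mulVec, ← Matrix.mulVec_transpose, hA]
  have h1 : a ⬝ᵥ ((A * A * A).mulVec a) = (A.mulVec a) ⬝ᵥ (A.mulVec (A.mulVec a)) := by
    rw [← Matrix.mulVec_mulVec, ← Matrix.mulVec_mulVec, hs]
  have h2 := h (A.mulVec a)
  have h3 : 0 ≤ (A.mulVec a - c • a) ⬝ᵥ (A.mulVec a - c • a) :=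
    Finset.sum_nonneg fun i _ => mul_self_nonneg _
  have h4 : (A.mulVec a - c • a) ⬝ᵥ (A.mulVec a - c • a) =
      (A.mulVec a) ⬝ᵥ (A.mulVec a) - 2 * c * (a ⬝ᵥ (A.mulVec a)) + c ^ 2 * (a ⬝ᵥ a) := by
    rw [sub_dotProduct, dotProduct_sub, dotProduct_sub, smul_dotProduct, dotProduct_smul, smul_dotProduct,
      dotProduct_smul, dotProduct_comm (A.mulVec a) a]
    simp only [smul_eq_mul]
    ring
  have h5 := h a
  rw [h1]
  have h6 : c ^ 2 * (a ⬝ᵥ a) ≤ (A.mulVec a) ⬝ᵥ (A.mulVec a) := by nlinarith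
  calc c ^ 3 * (a ⬝ᵥ a) = c * (c ^ 2 * (a ⬝ᵥ a)) := by ring
    _ ≤ c * ((A.mulVec a) ⬝ᵥ (A.mulVec a)) := mul_le_mul_of_nonneg_left h6 hc.le
    _ ≤ _ := h2

/-- Gaussian integrals depending on a parameter -/
private theorem nr_int {r : ℕ} {E : Type*} [NormedAddCommGroup E] [InnerProductSpace ℝ E] [FiniteDimensional ℝ E]
    [MeasurableSpace E] [BorelSpace E] (K : Set (Cfg r)) (Q : Cfg r → E → ℝ) {b : ℝ} (hb : 0 < b)
    (h1 : ∀ η ∈ K, ∀ x, b * ‖x‖ ^ 2 ≤ Q η x) (h2 : ∀ x, ContinuousOn (fun η => Q η x) K)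
    (h3 : ∀ η, Continuous (Q η)) :
    ContinuousOn (fun η => ∫ x, Real.exp (-Q η x)) K ∧ ∀ η ∈ K, 0 < ∫ x, Real.exp (-Q η x) := by
  have hi := Poi.int_gauss (E := E) hb
  have hle : ∀ η ∈ K, ∀ x, ‖Real.exp (-Q η x)‖ ≤ Real.exp (-b * ‖x‖ ^ 2) := by
    intro η hη x
    rw [Real.norm_of_nonneg (Real.exp_pos _).le]
    exact Real.exp_le_exp.2 (by have := h1 η hη x; linarith)
  refine ⟨continuousOn_of_dominated (bound := fun x => Real.exp (-b * ‖x‖ ^ 2))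
    (fun η _ => (h3 η).neg.rexp.aestronglyMeasurable) (fun η hη => Eventually.of_forall (hle η hη)) hi
    (Eventually.of_forall fun x => (h2 x).neg.rexp), fun η hη => ?_⟩
  exact integral_exp_pos (hi.mono' (h3 η).neg.rexp.aestronglyMeasurable (Eventually.of_forall (hle η hη)))

private theorem nr_Gs {r dm : ℕ} {κ : ℝ} (hκ : 0 < κ) (K : Set (Cfg r)) (Ωm : Cfg r → Matrix (Fin dm) (Fin dm) ℝ)
    (hs : ∀ η ∈ K, (Ωm η).transpose = Ωm η) {c : ℝ} (hc : 0 < c)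
    (hlow : ∀ η ∈ K, ∀ u : Fin dm → ℝ, c * (u ⬝ᵥ u) ≤ u ⬝ᵥ ((Ωm η).mulVec u)) (hcont : ContinuousOn Ωm K)
    {s : ℝ} (hs0 : 0 < s) :
    ContinuousOn (fun η => Gs κ (Ωm η) s) K ∧ ∀ η ∈ K, 0 < Gs κ (Ωm η) s := by
  have h3 : ContinuousOn (fun η => Ωm η * Ωm η * Ωm η) K := (hcont.mul hcont).mul hcont
  have hb : 0 < s * (κ ^ 2)⁻¹ * c ^ 3 := by positivity
  refine nr_int K (fun η (a : EuclideanSpace ℝ (Fin dm)) => s * (κ ^ 2)⁻¹ *
    ∑ B, ∑ C, a B * (Ωm η * Ωm η * Ωm η) B C * a C) hb ?_ ?_ ?_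
  · intro η hη a
    have h1 := nr_cube (Ωm η) (hs η hη) hc (hlow η hη) a.ofLp
    have h2 : (a.ofLp ⬝ᵥ a.ofLp) = ‖a‖ ^ 2 := by
      rw [EuclideanSpace.real_norm_sq_eq]
      simp only [dotProduct, sq]
    rw [h2] at h1
    rw [nr_qf (Ωm η * Ωm η * Ωm η) a.ofLp, mul_assoc (s * (κ ^ 2)⁻¹)]
    exact mul_le_mul_of_nonneg_left h1 (by positivity)
  · intro a
    refine continuousOn_const.mul (continuousOn_finsetSum _ fun B _ => continuousOn_finsetSum _ fun C _ => ?_)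
    exact (continuousOn_const.mul ((continuous_id.matrix_elem B C).comp_continuousOn h3)).mul continuousOn_const
  · intro η
    refine continuous_const.mul (continuous_finsetSum _ fun B _ => continuous_finsetSum _ fun C _ => ?_)
    exact (((EuclideanSpace.proj (𝕜 := ℝ) B).continuous).mul continuous_const).mul
      (EuclideanSpace.proj (𝕜 := ℝ) C).continuous

private theorem nr_qX {r dm : ℕ} (K : Set (Cfg r)) (Ωm : Cfg r → Matrix (Fin dm) (Fin dm) ℝ) {c : ℝ}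
    (hlow : ∀ η ∈ K, ∀ u : Fin dm → ℝ, c * (u ⬝ᵥ u) ≤ u ⬝ᵥ ((Ωm η).mulVec u)) :
    ∀ η ∈ K, ∀ X : Cfg dm, c * ‖X‖ ^ 2 ≤ qX (Ωm η) X := by
  intro η hη X
  rw [EuclideanSpace.real_norm_sq_eq, Fintype.sum_prod_type, qX, Finset.mul_sum]
  refine Finset.sum_le_sum fun i _ => ?_
  have h1 := hlow η hη (fun B => X (i, B))
  rw [← nr_qf] at h1
  refine le_trans (le_of_eq ?_) h1
  simp only [dotProduct, sq]

private theorem nr_qXc {dm : ℕ} (A : Matrix (Fin dm) (Fin dm) ℝ) : Continuous (qX A) := by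
  unfold qX
  refine continuous_finsetSum _ fun i _ => continuous_finsetSum _ fun B _ => continuous_finsetSum _ fun C _ => ?_
  exact (((EuclideanSpace.proj (𝕜 := ℝ) (i, B)).continuous).mul continuous_const).mul
      (EuclideanSpace.proj (𝕜 := ℝ) (i, C)).continuous

private theorem nr_Kx {r dm : ℕ} (K : Set (Cfg r)) (Ωm : Cfg r → Matrix (Fin dm) (Fin dm) ℝ)
    {c : ℝ} (hc : 0 < c)
    (hlow : ∀ η ∈ K, ∀ u : Fin dm → ℝ, c * (u ⬝ᵥ u) ≤ u ⬝ᵥ ((Ωm η).mulVec u)) (hcont : ContinuousOn Ωm K) :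
    ContinuousOn (fun η => Kx (Ωm η)) K ∧ ∀ η ∈ K, 0 < Kx (Ωm η) := by
  refine nr_int K (fun η (X : Cfg dm) => qX (Ωm η) X) hc (nr_qX K Ωm hlow) ?_ fun η => nr_qXc _
  intro X
  unfold qX
  refine continuousOn_finsetSum _ fun i _ => continuousOn_finsetSum _ fun B _ => continuousOn_finsetSum _ fun C _ => ?_
  exact (continuousOn_const.mul ((continuous_id.matrix_elem B C).comp_continuousOn hcont)).mul continuousOn_const

/-- elementary bound: polynomial times exponential -/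
private theorem nr_poly {c : ℝ} (hc : 0 < c) (n : ℕ) : ∃ D : ℝ, 0 < D ∧ ∀ t : ℝ, 0 ≤ t →
    (1 + t) ^ n * Real.exp (-(c * t)) ≤ D * Real.exp (-(c / 2) * t) := by
  refine ⟨(n.factorial : ℝ) * (2 / c) ^ n * Real.exp (c / 2), by positivity, fun t ht => ?_⟩
  have h1 := Real.pow_div_factorial_le_exp (c / 2 * (1 + t)) (by positivity) n
  have h2 : (1 + t) ^ n ≤ (n.factorial : ℝ) * (2 / c) ^ n * Real.exp (c / 2 * (1 + t)) := by
    rw [div_le_iff₀ (by positivity)] at h1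
    calc (1 + t) ^ n = (2 / c) ^ n * (c / 2 * (1 + t)) ^ n := by
          rw [← mul_pow]
          congr 1
          field_simp
      _ ≤ (2 / c) ^ n * (Real.exp (c / 2 * (1 + t)) * (n.factorial : ℝ)) :=
          mul_le_mul_of_nonneg_left h1 (by positivity)
      _ = _ := by ring
  calc (1 + t) ^ n * Real.exp (-(c * t))
      ≤ ((n.factorial : ℝ) * (2 / c) ^ n * Real.exp (c / 2 * (1 + t))) * Real.exp (-(c * t)) :=
        mul_le_mul_of_nonneg_right h2 (Real.exp_pos _).le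
    _ = (n.factorial : ℝ) * (2 / c) ^ n * (Real.exp (c / 2 * (1 + t)) * Real.exp (-(c * t))) := by ring
    _ = (n.factorial : ℝ) * (2 / c) ^ n * (Real.exp (c / 2) * Real.exp (-(c / 2) * t)) := by
        rw [← Real.exp_add, ← Real.exp_add]
        congr 2
        ring
    _ = _ := by ring

/-- **LOW7 NRM** -/
theorem nrm : NrmStmt := by
  intro r dm κ K Ωm hκ hK hpd hcont
  obtain ⟨c, hc, hlow⟩ := nr_lower K Ωm hK (fun η hη => (hpd η hη).2) hcont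
  have hG1 := nr_Gs hκ K Ωm (fun η hη => (hpd η hη).1) hc hlow hcont one_pos
  have hG2 := nr_Gs hκ K Ωm (fun η hη => (hpd η hη).1) hc hlow hcont (s := 1 / 2) (by norm_num)
  have hK1 := nr_Kx K Ωm hc hlow hcont
  have hden : ∀ η ∈ K, 0 < Gs κ (Ωm η) (1 / 2) ^ 2 * Kx (Ωm η) := fun η hη =>
    mul_pos (pow_pos (hG2.2 η hη) 2) (hK1.2 η hη)
  have hNc : ContinuousOn (fun η => Nf κ (Ωm η)) K := by
    unfold Nf
    exact (hG1.1.div ((hG2.1.pow 2).mul hK1.1) fun η hη => (hden η hη).ne').sqrt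
  have hNp : ∀ η ∈ K, 0 < Nf κ (Ωm η) := fun η hη =>
    Real.sqrt_pos.2 (div_pos (hG1.2 η hη) (hden η hη))
  refine ⟨hNc, hNp, fun ε hε => ?_⟩
  obtain ⟨Nm, hNm⟩ : ∃ Nm : ℝ, ∀ η ∈ K, Nf κ (Ωm η) ≤ Nm := by
    obtain ⟨Nm, h⟩ := hK.bddAbove_image hNc
    exact ⟨Nm, fun η hη => h ⟨η, hη, rfl⟩⟩
  obtain ⟨D, hD, hpoly⟩ := nr_poly hc (dm + 1)
  set D' : ℝ := (|Nm| + 1) ^ 2 * D with hD'
  have hD'p : 0 < D' := by positivity
  have hpt : ∀ η ∈ K, ∀ X : Cfg dm, (1 + ‖X‖ ^ 2) ^ (dm + 1) *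
      (Nf κ (Ωm η) * Real.exp (-(1 / 2) * qX (Ωm η) X)) ^ 2 ≤ D' * Real.exp (-(c / 2) * ‖X‖ ^ 2) := by
    intro η hη X
    have h1 : Nf κ (Ωm η) ^ 2 ≤ (|Nm| + 1) ^ 2 := by
      refine pow_le_pow_left₀ (hNp η hη).le ?_ 2
      have := hNm η hη
      have := le_abs_self Nm
      linarith
    have h2 : Real.exp (-(1 / 2) * qX (Ωm η) X) ^ 2 ≤ Real.exp (-(c * ‖X‖ ^ 2)) := by
      rw [← Real.exp_nat_mul]
      refine Real.exp_le_exp.2 ?_
      have := nr_qX K Ωm hlow η hη X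
      push_cast
      linarith
    calc (1 + ‖X‖ ^ 2) ^ (dm + 1) * (Nf κ (Ωm η) * Real.exp (-(1 / 2) * qX (Ωm η) X)) ^ 2
        = Nf κ (Ωm η) ^ 2 * ((1 + ‖X‖ ^ 2) ^ (dm + 1) * Real.exp (-(1 / 2) * qX (Ωm η) X) ^ 2) := by ring
      _ ≤ (|Nm| + 1) ^ 2 * ((1 + ‖X‖ ^ 2) ^ (dm + 1) * Real.exp (-(c * ‖X‖ ^ 2))) :=
          mul_le_mul h1 (mul_le_mul_of_nonneg_left h2 (by positivity)) (by positivity) (by positivity)
      _ ≤ (|Nm| + 1) ^ 2 * (D * Real.exp (-(c / 2) * ‖X‖ ^ 2)) :=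
          mul_le_mul_of_nonneg_left (hpoly _ (by positivity)) (by positivity)
      _ = _ := by rw [hD']; ring
  have hi2 : Integrable (fun X : Cfg dm => Real.exp (-(c / 2) * ‖X‖ ^ 2)) := Poi.int_gauss (half_pos hc)
  have hi4 : Integrable (fun X : Cfg dm => Real.exp (-(c / 4) * ‖X‖ ^ 2)) := Poi.int_gauss (by positivity)
  set I2 : ℝ := ∫ X : Cfg dm, Real.exp (-(c / 2) * ‖X‖ ^ 2) with hI2
  set I4 : ℝ := ∫ X : Cfg dm, Real.exp (-(c / 4) * ‖X‖ ^ 2) with hI4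
  have hI2p : 0 ≤ I2 := integral_nonneg fun X => (Real.exp_pos _).le
  have hI4p : 0 ≤ I4 := integral_nonneg fun X => (Real.exp_pos _).le
  set x0 : ℝ := D' * I4 / ε + 1 with hx0
  have hx0p : 0 < x0 := by positivity
  refine ⟨D' * I2 + 1, Real.sqrt (4 * x0 / c), by positivity, Real.sqrt_pos.2 (by positivity), fun η hη => ⟨?_, ?_⟩⟩
  · calc ∫⁻ X : Cfg dm, ENNReal.ofReal ((1 + ‖X‖ ^ 2) ^ (dm + 1) *
          (Nf κ (Ωm η) * Real.exp (-(1 / 2) * qX (Ωm η) X)) ^ 2)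
        ≤ ∫⁻ X : Cfg dm, ENNReal.ofReal (D' * Real.exp (-(c / 2) * ‖X‖ ^ 2)) :=
          lintegral_mono fun X => ENNReal.ofReal_le_ofReal (hpt η hη X)
      _ = ENNReal.ofReal (∫ X : Cfg dm, D' * Real.exp (-(c / 2) * ‖X‖ ^ 2)) :=
          (ofReal_integral_eq_lintegral_ofReal (hi2.const_mul _) (Eventually.of_forall fun X => by positivity)).symm
      _ ≤ ENNReal.ofReal (D' * I2 + 1) := by
          refine ENNReal.ofReal_le_ofReal ?_
          rw [integral_const_mul]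
          linarith
  · have htail : ∀ X : Cfg dm, Real.sqrt (4 * x0 / c) ≤ ‖X‖ →
        D' * Real.exp (-(c / 2) * ‖X‖ ^ 2) ≤ D' * Real.exp (-x0) * Real.exp (-(c / 4) * ‖X‖ ^ 2) := by
      intro X hX
      have h1 : 4 * x0 / c ≤ ‖X‖ ^ 2 := by
        have := pow_le_pow_left₀ (Real.sqrt_nonneg _) hX 2
        rwa [Real.sq_sqrt (by positivity)] at this
      have h2 : 4 * x0 ≤ c * ‖X‖ ^ 2 := by
        rw [div_le_iff₀ hc] at h1
        linarith
      have h3 : D' * Real.exp (-x0) * Real.exp (-(c / 4) * ‖X‖ ^ 2) =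
          D' * Real.exp (-x0 + -(c / 4) * ‖X‖ ^ 2) := by
        rw [Real.exp_add]
        ring
      rw [h3]
      refine mul_le_mul_of_nonneg_left (Real.exp_le_exp.2 ?_) hD'p.le
      linarith
    have hm : MeasurableSet {X : Cfg dm | Real.sqrt (4 * x0 / c) ≤ ‖X‖} :=
      (isClosed_le continuous_const continuous_norm).measurableSet
    calc ∫⁻ X in {X : Cfg dm | Real.sqrt (4 * x0 / c) ≤ ‖X‖}, ENNReal.ofReal ((1 + ‖X‖ ^ 2) ^ (dm + 1) *
          (Nf κ (Ωm η) * Real.exp (-(1 / 2) * qX (Ωm η) X)) ^ 2)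
        ≤ ∫⁻ X in {X : Cfg dm | Real.sqrt (4 * x0 / c) ≤ ‖X‖},
            ENNReal.ofReal (D' * Real.exp (-x0) * Real.exp (-(c / 4) * ‖X‖ ^ 2)) :=
          setLIntegral_mono' hm fun X hX => ENNReal.ofReal_le_ofReal ((hpt η hη X).trans (htail X hX))
      _ ≤ ∫⁻ X : Cfg dm, ENNReal.ofReal (D' * Real.exp (-x0) * Real.exp (-(c / 4) * ‖X‖ ^ 2)) :=
          setLIntegral_le_lintegral _ _
      _ = ENNReal.ofReal (∫ X : Cfg dm, D' * Real.exp (-x0) * Real.exp (-(c / 4) * ‖X‖ ^ 2)) :=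
          (ofReal_integral_eq_lintegral_ofReal (hi4.const_mul _) (Eventually.of_forall fun X => by positivity)).symm
      _ ≤ ENNReal.ofReal ε := by
          refine ENNReal.ofReal_le_ofReal ?_
          rw [integral_const_mul, ← hI4]
          have h1 : Real.exp (-x0) ≤ 1 / x0 := by
            rw [Real.exp_neg, inv_eq_one_div]
            refine one_div_le_one_div_of_le hx0p ?_
            have := Real.add_one_le_exp x0
            linarith
          have h2 : D' * I4 ≤ ε * x0 := by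
            rw [hx0]
            have : ε * (D' * I4 / ε + 1) = D' * I4 + ε := by field_simp
            rw [this]
            linarith
          calc D' * Real.exp (-x0) * I4 = (D' * I4) * Real.exp (-x0) := by ring
            _ ≤ (D' * I4) * (1 / x0) := mul_le_mul_of_nonneg_left h1 (by positivity)
            _ ≤ (ε * x0) * (1 / x0) := mul_le_mul_of_nonneg_right h2 (by positivity)
            _ = ε := by field_simp

end Vale.Agent.P353.AN.LW
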