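import Vale.Agent.P353.AN.LOW.OutErr

/-! # P353, all `N`, block LOW: `OutStmt` (LOW9, helper459) -/

open MeasureTheory Filter Topology
open scoped ContDiff

namespace Vale.Agent.P353.AN.LW

open Vale.Agent.P353.Z Vale.Agent.P353.Z.U Vale.Agent.P353.Z.AN Vale.Agent.P353.AN.G

section out459

variable {N d dh dm r ds : ℕ} {F : Type*} [NormedAddCommGroup F] [InnerProductSpace ℂ F]

/-- the mass of `w₀` in a large ball is positive -/
private theorem out459_ball (w₀ : Cfg ds → F) (hw : MemLp w₀ 2 (volume : Measure (Cfg ds)))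
    (h1 : ∫ s, ‖w₀ s‖ ^ 2 = 1) :
    ∃ r₁ : ℝ, 0 < r₁ ∧ 0 < ∫ s in Metric.closedBall (0 : Cfg ds) r₁, ‖w₀ s‖ := by
  by_contra hcon
  push Not at hcon
  have hae : ∀ n : ℕ, ∀ᵐ s ∂(volume.restrict (Metric.closedBall (0 : Cfg ds) ((n : ℝ) + 1))), w₀ s = 0 := by
    intro n
    have hpos : (0 : ℝ) < (n : ℝ) + 1 := by positivity
    have hi : IntegrableOn (fun s => ‖w₀ s‖) (Metric.closedBall (0 : Cfg ds) ((n : ℝ) + 1)) volume := by
      have : MemLp w₀ 1 (volume.restrict (Metric.closedBall (0 : Cfg ds) ((n : ℝ) + 1))) := by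
        have : IsFiniteMeasure (volume.restrict (Metric.closedBall (0 : Cfg ds) ((n : ℝ) + 1))) :=
          ⟨by rw [Measure.restrict_apply_univ]; exact measure_closedBall_lt_top⟩
        exact (hw.restrict _).mono_exponent (by norm_num)
      exact (memLp_one_iff_integrable.1 this).norm
    have h0 : ∫ s in Metric.closedBall (0 : Cfg ds) ((n : ℝ) + 1), ‖w₀ s‖ = 0 :=
      le_antisymm (hcon _ hpos) (integral_nonneg fun s => norm_nonneg _)
    have h2 := (integral_eq_zero_iff_of_nonneg (fun s => norm_nonneg (w₀ s)) hi).1 h0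
    filter_upwards [h2] with s hs
    exact norm_eq_zero.1 hs
  have hall : ∀ᵐ s : Cfg ds, w₀ s = 0 := by
    have h3 : ∀ᵐ s : Cfg ds, ∀ n : ℕ, s ∈ Metric.closedBall (0 : Cfg ds) ((n : ℝ) + 1) → w₀ s = 0 := by
      rw [ae_all_iff]
      intro n
      exact (ae_restrict_iff' Metric.isClosed_closedBall.measurableSet).1 (hae n)
    filter_upwards [h3] with s hs
    obtain ⟨n, hn⟩ := exists_nat_ge ‖s‖
    exact hs n (by rw [mem_closedBall_zero_iff]; linarith)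
  have h4 : ∫ s, ‖w₀ s‖ ^ 2 = 0 := by
    rw [integral_congr_ae (g := fun _ => (0 : ℝ))]
    · simp
    · filter_upwards [hall] with s hs
      simp [hs]
  rw [h4] at h1
  exact zero_ne_one h1

/-- lower bound of `∫β₁` -/
private theorem out459_beta (w₀ g : Cfg ds → F) (β₁ : Cfg ds → ℝ) (hw : MemLp w₀ 2 (volume : Measure (Cfg ds)))
    (hg : Continuous g) (hgs : HasCompactSupport g) (hb : ∀ s, ‖g s‖ = β₁ s) (hbc : Continuous β₁) (r₁ I₀ v : ℝ)
    (hI : 0 < I₀) (hv : 0 < v) (hv' : v = (volume : Measure (Cfg ds)).real (Metric.closedBall (0 : Cfg ds) r₁))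
    (hI' : I₀ = ∫ s in Metric.closedBall (0 : Cfg ds) r₁, ‖w₀ s‖)
    (he : ∫ s, ‖w₀ s - g s‖ ^ 2 ≤ I₀ ^ 2 / (4 * v)) :
    I₀ / 2 ≤ ∫ s in Metric.closedBall (0 : Cfg ds) r₁, β₁ s := by
  have hfin : IsFiniteMeasure (volume.restrict (Metric.closedBall (0 : Cfg ds) r₁)) :=
    ⟨by rw [Measure.restrict_apply_univ]; exact measure_closedBall_lt_top⟩
  have hgm : MemLp g 2 (volume : Measure (Cfg ds)) := hg.memLp_of_hasCompactSupport hgs
  have hdm : MemLp (fun s => w₀ s - g s) 2 (volume : Measure (Cfg ds)) := hw.sub hgm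
  have hwi : IntegrableOn (fun s => ‖w₀ s‖) (Metric.closedBall (0 : Cfg ds) r₁) volume :=
    (memLp_one_iff_integrable.1 ((hw.restrict _).mono_exponent (by norm_num))).norm
  have hdi : IntegrableOn (fun s => ‖w₀ s - g s‖) (Metric.closedBall (0 : Cfg ds) r₁) volume :=
    (memLp_one_iff_integrable.1 ((hdm.restrict _).mono_exponent (by norm_num))).norm
  have hd2 : Integrable (fun s => ‖w₀ s - g s‖ ^ 2) (volume : Measure (Cfg ds)) := hdm.integrable_norm_pow (by norm_num)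
  have hbi : IntegrableOn β₁ (Metric.closedBall (0 : Cfg ds) r₁) volume :=
    hbc.continuousOn.integrableOn_compact (isCompact_closedBall _ _)
  have h1 : I₀ ≤ (∫ s in Metric.closedBall (0 : Cfg ds) r₁, ‖w₀ s - g s‖) + ∫ s in Metric.closedBall (0 : Cfg ds) r₁, β₁ s := by
    rw [hI', ← integral_add hdi hbi]
    refine integral_mono hwi (hdi.add hbi) fun s => ?_
    have h := norm_sub_norm_le (w₀ s) (g s)
    have h' := hb s
    simp only
    linarith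
  have hδ : 0 < I₀ / (2 * v) := by positivity
  have h2 : (∫ s in Metric.closedBall (0 : Cfg ds) r₁, ‖w₀ s - g s‖) ≤
      ∫ s in Metric.closedBall (0 : Cfg ds) r₁, (I₀ / (2 * v) / 2 + ‖w₀ s - g s‖ ^ 2 / (2 * (I₀ / (2 * v)))) := by
    refine integral_mono hdi ((integrable_const _).add (hd2.integrableOn.div_const _)) fun s => ?_
    have h : ‖w₀ s - g s‖ ≤ I₀ / (2 * v) / 2 + ‖w₀ s - g s‖ ^ 2 / (2 * (I₀ / (2 * v))) := by
      have h3 : 0 ≤ (‖w₀ s - g s‖ - I₀ / (2 * v)) ^ 2 := sq_nonneg _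
      have h4 : I₀ / (2 * v) / 2 + ‖w₀ s - g s‖ ^ 2 / (2 * (I₀ / (2 * v))) - ‖w₀ s - g s‖ =
        (‖w₀ s - g s‖ - I₀ / (2 * v)) ^ 2 / (2 * (I₀ / (2 * v))) := by
        generalize ‖w₀ s - g s‖ = t at *
        generalize I₀ / (2 * v) = e at *
        field_simp
        ring
      have h5 : 0 ≤ (‖w₀ s - g s‖ - I₀ / (2 * v)) ^ 2 / (2 * (I₀ / (2 * v))) := by positivity
      linarith
    exact h
  have h3 : (∫ s in Metric.closedBall (0 : Cfg ds) r₁, (I₀ / (2 * v) / 2 + ‖w₀ s - g s‖ ^ 2 / (2 * (I₀ / (2 * v))))) =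
      v * (I₀ / (2 * v) / 2) + (∫ s in Metric.closedBall (0 : Cfg ds) r₁, ‖w₀ s - g s‖ ^ 2) / (2 * (I₀ / (2 * v))) := by
    rw [integral_add (integrable_const _) (hd2.integrableOn.div_const _)]
    rw [integral_div (2 * (I₀ / (2 * v))) (fun s => ‖w₀ s - g s‖ ^ 2), integral_const]
    congr 1
    rw [smul_eq_mul, Measure.real, Measure.restrict_apply_univ, hv']
    rfl
  have h4 : (∫ s in Metric.closedBall (0 : Cfg ds) r₁, ‖w₀ s - g s‖ ^ 2) ≤ I₀ ^ 2 / (4 * v) :=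
    (setIntegral_le_integral hd2 (Eventually.of_forall fun s => by positivity)).trans he
  have h5 : (∫ s in Metric.closedBall (0 : Cfg ds) r₁, ‖w₀ s - g s‖ ^ 2) / (2 * (I₀ / (2 * v))) ≤
      (I₀ ^ 2 / (4 * v)) / (2 * (I₀ / (2 * v))) := by gcongr
  have h6 : v * (I₀ / (2 * v) / 2) + (I₀ ^ 2 / (4 * v)) / (2 * (I₀ / (2 * v))) = I₀ / 2 := by
    field_simp
    ring
  rw [h3] at h2
  linarith

/-- lower bound of the box integral -/
private theorem out459_box (z₀ : Cfg r) (r₀ r₁ m₀ : ℝ) (hr : r₀ ≤ r₁)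
    (β : Cfg r × Cfg ds × Cfg dm → ℝ) (β₁ : Cfg ds → ℝ) (hβ : Continuous β) (hβs : HasCompactSupport β)
    (hβ0 : ∀ q, 0 ≤ β q) (hβ1 : Continuous β₁)
    (hle : ∀ q : Cfg r × Cfg ds × Cfg dm, ‖q.1 - z₀‖ ≤ r₀ → ‖q.2.1‖ ≤ r₁ → ‖q.2.2‖ ≤ r₁ → m₀ * β₁ q.2.1 ≤ β q) :
    m₀ * ((volume : Measure (Cfg r)).real (Metric.closedBall z₀ r₀) *
      ((∫ s in Metric.closedBall (0 : Cfg ds) r₁, β₁ s) *
        (volume : Measure (Cfg dm)).real (Metric.closedBall (0 : Cfg dm) r₁))) ≤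
      ∫ q in bx ds dm z₀ r₁, β q ∂(v3 r ds dm) := by
  have hfc : IsFiniteMeasureOnCompacts (v3 r ds dm) := by unfold v3; infer_instance
  have hint : Integrable β (v3 r ds dm) := hβ.integrable_of_hasCompactSupport hβs
  have hsub : Metric.closedBall z₀ r₀ ×ˢ (Metric.closedBall (0 : Cfg ds) r₁ ×ˢ Metric.closedBall (0 : Cfg dm) r₁) ⊆
      bx ds dm z₀ r₁ := by
    rintro ⟨η, s, X⟩ ⟨h1, h2, h3⟩
    simp only [Metric.mem_closedBall, dist_eq_norm, sub_zero] at h1 h2 h3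
    exact ⟨h1.trans hr, h2, h3⟩
  have h1 : ∫ q in Metric.closedBall z₀ r₀ ×ˢ (Metric.closedBall (0 : Cfg ds) r₁ ×ˢ Metric.closedBall (0 : Cfg dm) r₁), β q ∂(v3 r ds dm) ≤
      ∫ q in bx ds dm z₀ r₁, β q ∂(v3 r ds dm) :=
    setIntegral_mono_set hint.integrableOn (Eventually.of_forall hβ0) hsub.eventuallyLE
  refine le_trans ?_ h1
  have hms : MeasurableSet (Metric.closedBall z₀ r₀ ×ˢ (Metric.closedBall (0 : Cfg ds) r₁ ×ˢ Metric.closedBall (0 : Cfg dm) r₁)) :=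
    measurableSet_closedBall.prod (measurableSet_closedBall.prod measurableSet_closedBall)
  have hcpt : IsCompact (Metric.closedBall z₀ r₀ ×ˢ (Metric.closedBall (0 : Cfg ds) r₁ ×ˢ Metric.closedBall (0 : Cfg dm) r₁)) :=
    (isCompact_closedBall _ _).prod ((isCompact_closedBall _ _).prod (isCompact_closedBall _ _))
  have h2 : ∫ q in Metric.closedBall z₀ r₀ ×ˢ (Metric.closedBall (0 : Cfg ds) r₁ ×ˢ Metric.closedBall (0 : Cfg dm) r₁),
      m₀ * β₁ q.2.1 ∂(v3 r ds dm) ≤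
      ∫ q in Metric.closedBall z₀ r₀ ×ˢ (Metric.closedBall (0 : Cfg ds) r₁ ×ˢ Metric.closedBall (0 : Cfg dm) r₁), β q ∂(v3 r ds dm) := by
    refine setIntegral_mono_on ?_ hint.integrableOn hms ?_
    · have : Continuous fun q : Cfg r × Cfg ds × Cfg dm => m₀ * β₁ q.2.1 := by fun_prop
      exact this.continuousOn.integrableOn_compact hcpt
    · rintro ⟨η, s, X⟩ ⟨h1, h2, h3⟩
      simp only [Metric.mem_closedBall, dist_eq_norm, sub_zero] at h1 h2 h3
      exact hle _ h1 h2 h3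
  refine le_trans (le_of_eq ?_) h2
  rw [integral_const_mul]
  congr 1
  have h3 : ∫ q in Metric.closedBall z₀ r₀ ×ˢ (Metric.closedBall (0 : Cfg ds) r₁ ×ˢ Metric.closedBall (0 : Cfg dm) r₁),
      β₁ q.2.1 ∂(v3 r ds dm) =
      ∫ q in Metric.closedBall z₀ r₀ ×ˢ (Metric.closedBall (0 : Cfg ds) r₁ ×ˢ Metric.closedBall (0 : Cfg dm) r₁),
      (fun _ : Cfg r => (1 : ℝ)) q.1 * (fun p : Cfg ds × Cfg dm => β₁ p.1 * 1) q.2
        ∂((volume : Measure (Cfg r)).prod ((volume : Measure (Cfg ds)).prod (volume : Measure (Cfg dm)))) := by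
    simp only [one_mul, mul_one]
    rfl
  rw [h3]
  rw [setIntegral_prod_mul (μ := (volume : Measure (Cfg r))) (ν := (volume : Measure (Cfg ds)).prod (volume : Measure (Cfg dm)))
    (fun _ : Cfg r => (1 : ℝ)) (fun p : Cfg ds × Cfg dm => β₁ p.1 * 1) (Metric.closedBall z₀ r₀)
    (Metric.closedBall (0 : Cfg ds) r₁ ×ˢ Metric.closedBall (0 : Cfg dm) r₁)]
  rw [setIntegral_prod_mul (μ := (volume : Measure (Cfg ds))) (ν := (volume : Measure (Cfg dm)))
    (fun s : Cfg ds => β₁ s) (fun _ : Cfg dm => (1 : ℝ))]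
  simp

/-- continuity of the Gaussian profile off the collisions -/
private theorem out459_prof (κ : ℝ) (hκ : 0 < κ) (Lc : Finset (Fin r → ℝ)) (hcl : IsClosed (Coll Lc))
    (Ωm : Cfg r → Matrix (Fin dm) (Fin dm) ℝ)
    (hs : ∀ η, η ∉ Coll Lc → (Ωm η).transpose = Ωm η ∧ ∀ u : Fin dm → ℝ, u ≠ 0 → 0 < u ⬝ᵥ ((Ωm η).mulVec u))
    (hc : ContinuousOn Ωm (Coll Lc)ᶜ) (hN : NrmStmt) :
    ContinuousOn (fun q : Cfg r × Cfg dm => gss q.1 * (Nf κ (Ωm q.1) * Real.exp (-(1 / 2) * qX (Ωm q.1) q.2)))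
      {q | q.1 ∉ Coll Lc} ∧ ∀ η, η ∉ Coll Lc → 0 < Nf κ (Ωm η) := by
  have hNc : ContinuousOn (fun η => Nf κ (Ωm η)) (Coll Lc)ᶜ := by
    intro η hη
    obtain ⟨ρ, hρ, hρ'⟩ := Metric.nhds_basis_closedBall.mem_iff.1 (hcl.isOpen_compl.mem_nhds hη)
    have h := (hN r dm κ (Metric.closedBall η ρ) Ωm hκ (isCompact_closedBall _ _) (fun η' h' => hs η' (hρ' h'))
      (hc.mono hρ')).1
    exact (h.continuousAt (Metric.closedBall_mem_nhds η hρ)).continuousWithinAt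
  refine ⟨?_, fun η hη => ?_⟩
  · have hmap : Set.MapsTo (fun q : Cfg r × Cfg dm => q.1) {q | q.1 ∉ Coll Lc} (Coll Lc)ᶜ := fun q hq => hq
    have hent : ∀ B C, ContinuousOn (fun q : Cfg r × Cfg dm => Ωm q.1 B C) {q | q.1 ∉ Coll Lc} := fun B C =>
      ((continuous_apply_apply B C).comp_continuousOn (hc.comp continuous_fst.continuousOn hmap))
    have hq : ContinuousOn (fun q : Cfg r × Cfg dm => qX (Ωm q.1) q.2) {q | q.1 ∉ Coll Lc} := by
      unfold qX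
      refine continuousOn_finsetSum _ fun i _ => continuousOn_finsetSum _ fun B _ => continuousOn_finsetSum _ fun C _ => ?_
      refine ContinuousOn.mul (ContinuousOn.mul ?_ (hent B C)) ?_
      · exact Continuous.continuousOn (by fun_prop)
      · exact Continuous.continuousOn (by fun_prop)
    have hg : Continuous (fun q : Cfg r × Cfg dm => gss q.1) := by
      unfold gss
      fun_prop
    refine hg.continuousOn.mul ((hNc.comp continuous_fst.continuousOn hmap).mul ?_)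
    exact Real.continuous_exp.comp_continuousOn (continuousOn_const.mul hq)
  · exact (hN r dm κ {η} Ωm hκ isCompact_singleton (fun η' h' => by rw [Set.mem_singleton_iff.1 h']; exact hs η hη)
      (hc.mono (by rintro η' h'; rw [Set.mem_singleton_iff.1 h']; exact hη))).2.1 η rfl

/-- the profile is bounded below on the small box -/
private theorem out459_min (f : Cfg r × Cfg dm → ℝ) (s : Set (Cfg r)) (h : ContinuousOn f {q | q.1 ∉ s})
    (hp : ∀ q : Cfg r × Cfg dm, q.1 ∉ s → 0 < f q) (z₀ : Cfg r) (r₀ r₁ : ℝ) (h0 : 0 < r₀) (h1 : 0 < r₁)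
    (hb : ∀ η, ‖η - z₀‖ ≤ r₀ → η ∉ s) :
    ∃ m₀ : ℝ, 0 < m₀ ∧ ∀ q : Cfg r × Cfg dm, ‖q.1 - z₀‖ ≤ r₀ → ‖q.2‖ ≤ r₁ → m₀ ≤ f q := by
  have hcpt : IsCompact (Metric.closedBall z₀ r₀ ×ˢ Metric.closedBall (0 : Cfg dm) r₁) :=
    (isCompact_closedBall _ _).prod (isCompact_closedBall _ _)
  have hne : (Metric.closedBall z₀ r₀ ×ˢ Metric.closedBall (0 : Cfg dm) r₁).Nonempty :=
    ⟨(z₀, 0), Metric.mem_closedBall_self h0.le, Metric.mem_closedBall_self h1.le⟩
  have hsub : Metric.closedBall z₀ r₀ ×ˢ Metric.closedBall (0 : Cfg dm) r₁ ⊆ {q : Cfg r × Cfg dm | q.1 ∉ s} := by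
    rintro ⟨η, X⟩ ⟨hη, _⟩
    exact hb η (by simpa [dist_eq_norm] using hη)
  obtain ⟨q₀, hq₀, hmin⟩ := hcpt.exists_isMinOn hne (h.mono hsub)
  refine ⟨f q₀, hp _ (hsub hq₀), fun q hη hX => ?_⟩
  have hq : q ∈ Metric.closedBall z₀ r₀ ×ˢ Metric.closedBall (0 : Cfg dm) r₁ := by
    refine ⟨?_, ?_⟩
    · rw [Metric.mem_closedBall, dist_eq_norm]
      exact hη
    · rw [mem_closedBall_zero_iff]
      exact hX
  exact (isMinOn_iff.1 hmin) q hq

/-- extension by zero off the support of the cutoff -/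
private theorem out459_ext {E : Type*} [TopologicalSpace E] [Zero E] (χ : Cfg r → ℝ) (s : Set (Cfg r)) (hs : IsClosed s)
    (hd : Disjoint (tsupport χ) s) (f : Cfg r × Cfg ds × Cfg dm → E) (hf : ContinuousOn f {q | q.1 ∉ s})
    (h0 : ∀ q, f q ≠ 0 → χ q.1 ≠ 0) : Continuous f := by
  refine hf.continuous_of_tsupport_subset (hs.isOpen_compl.preimage continuous_fst) ?_
  have h : tsupport f ⊆ {q | q.1 ∈ tsupport χ} :=
    closure_minimal (fun q hq => subset_tsupport _ (h0 q hq)) ((isClosed_tsupport χ).preimage continuous_fst)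
  exact fun q hq => Set.disjoint_left.1 hd (h hq)

/-- cutoff in `X` -/
private noncomputable def ct459 (L : ℝ) (X : Cfg dm) : ℝ := max 0 (min 1 (L + 1 - ‖X‖))

private theorem ct459_cont (L : ℝ) : Continuous (ct459 (dm := dm) L) := by
  unfold ct459
  fun_prop

private theorem ct459_nn (L : ℝ) (X : Cfg dm) : 0 ≤ ct459 L X ∧ ct459 L X ≤ 1 :=
  ⟨le_max_left _ _, max_le zero_le_one (min_le_left _ _)⟩

private theorem ct459_one (L : ℝ) (X : Cfg dm) (h : ‖X‖ ≤ L) : ct459 L X = 1 := by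
  unfold ct459
  rw [min_eq_left (by linarith), max_eq_right zero_le_one]

private theorem ct459_zero (L : ℝ) (X : Cfg dm) (h : ct459 L X ≠ 0) : ‖X‖ ≤ L + 1 := by
  by_contra hc
  push Not at hc
  exact h (by unfold ct459; rw [max_eq_left]; exact (min_le_right _ _).trans (by linarith))

theorem out (M : BFSS.Model N d F) (S : Setup d F) (φ : Spl dh dm d) (ψ : Spz r ds dh) : OutStmt M S φ ψ := by
  intro hF hcore Lc V w₀ Ωm hG hmol hN hCh hCut z₀ hz₀
  obtain ⟨r₁, hr₁, hI⟩ := out459_ball w₀ hG.w_mem hG.w_one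
  obtain ⟨ρ, hρ, hρ'⟩ := Metric.nhds_basis_closedBall.mem_iff.1 (hG.closed.isOpen_compl.mem_nhds hz₀)
  obtain ⟨r₀, hr₀, hr₀₁, hr₀ρ⟩ : ∃ r₀ : ℝ, 0 < r₀ ∧ r₀ ≤ r₁ ∧ r₀ ≤ ρ :=
    ⟨min ρ r₁, lt_min hρ hr₁, min_le_right _ _, min_le_left _ _⟩
  have hoff : ∀ η, ‖η - z₀‖ ≤ r₀ → η ∉ Coll Lc := fun η hη =>
    hρ' (by rw [Metric.mem_closedBall, dist_eq_norm]; exact hη.trans hr₀ρ)
  obtain ⟨hprof, hNpos⟩ := out459_prof S.κ S.κ_pos Lc hG.closed Ωm hG.om_sym hG.om_cont hN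
  obtain ⟨m₀, hm₀, hmin⟩ := out459_min (fun q : Cfg r × Cfg dm => gss q.1 * (Nf S.κ (Ωm q.1) *
    Real.exp (-(1 / 2) * qX (Ωm q.1) q.2))) (Coll Lc) hprof
    (fun q hq => mul_pos (Real.exp_pos _) (mul_pos (hNpos _ hq) (Real.exp_pos _))) z₀ r₀ r₁ hr₀ hr₁ hoff
  obtain ⟨c, hc, hcore⟩ := hcore z₀ r₁ hr₁
  obtain ⟨I₀, hI₀⟩ : ∃ I₀ : ℝ, I₀ = ∫ s in Metric.closedBall (0 : Cfg ds) r₁, ‖w₀ s‖ := ⟨_, rfl⟩
  rw [← hI₀] at hI
  obtain ⟨v, hv⟩ : ∃ v : ℝ, v = (volume : Measure (Cfg ds)).real (Metric.closedBall (0 : Cfg ds) r₁) := ⟨_, rfl⟩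
  have hv0 : 0 < v := by
    rw [hv]
    exact ENNReal.toReal_pos (Metric.measure_closedBall_pos _ _ hr₁).ne' measure_closedBall_lt_top.ne
  have ha0 : 0 < (volume : Measure (Cfg r)).real (Metric.closedBall z₀ r₀) :=
    ENNReal.toReal_pos (Metric.measure_closedBall_pos _ _ hr₀).ne' measure_closedBall_lt_top.ne
  have ha1 : 0 < (volume : Measure (Cfg dm)).real (Metric.closedBall (0 : Cfg dm) r₁) :=
    ENNReal.toReal_pos (Metric.measure_closedBall_pos _ _ hr₁).ne' measure_closedBall_lt_top.ne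
  refine ⟨c * (m₀ * ((volume : Measure (Cfg r)).real (Metric.closedBall z₀ r₀) * (I₀ / 2 *
    (volume : Measure (Cfg dm)).real (Metric.closedBall (0 : Cfg dm) r₁)))) ^ 2, by positivity, fun ε hε => ?_⟩
  obtain ⟨χ, hχ1, hχ2, hχ3, hχ4, hχ5, hχ6⟩ := hCh hCut Lc hG.ne hG.closed z₀ r₀ hr₀ hoff ε hε
  refine ⟨χ, hχ1, hχ2, hχ3, hχ4, hχ6, fun ε' hε' => ?_⟩
  have hχc : Continuous χ := hχ1.continuous
  have hoffχ : ∀ η ∈ tsupport χ, η ∉ Coll Lc := fun η hη => Set.disjoint_left.1 hχ3 hη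
  obtain ⟨A, hA⟩ : ∃ A : ℝ, A = ∫ η, (χ η * gss η) ^ 2 := ⟨_, rfl⟩
  have hA0 : 0 ≤ A := by rw [hA]; exact integral_nonneg fun η => sq_nonneg _
  obtain ⟨C, L, hC, hL, hCL⟩ := (hN r dm S.κ (tsupport χ) Ωm S.κ_pos hχ2 (fun η hη => hG.om_sym η (hoffχ η hη))
    (hG.om_cont.mono hoffχ)).2.2 (ε' ^ 2 / (4 * (A + 1))) (by positivity)
  obtain ⟨β₁, om, hβ1, hβ2, hβ3, hβ4, hβ5, hβ6, hβ7, hβ8⟩ :=
    hmol (min (I₀ ^ 2 / (4 * v)) (ε' ^ 2 / (4 * (A + 1) * C))) (by positivity)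
  obtain ⟨g, hg⟩ : ∃ g : Cfg ds → F, g = fun s => ((β₁ s : ℝ) : ℂ) • om s := ⟨_, rfl⟩
  have hgc : Continuous g := by rw [hg]; exact hβ6
  have hgs : HasCompactSupport g := by
    refine hβ2.mono fun s hs => ?_
    rw [Function.mem_support] at hs ⊢
    intro h0
    exact hs (by rw [hg]; simp [h0])
  have hgn : ∀ s, ‖g s‖ = β₁ s := by
    intro s
    rw [hg]
    simp only [norm_smul, Complex.norm_real, Real.norm_eq_abs, abs_of_nonneg (hβ3 s)]
    by_cases h0 : β₁ s = 0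
    · rw [h0, zero_mul]
    · rw [hβ5 s (subset_tsupport _ h0), mul_one]
  have hge : ∫ s, ‖w₀ s - g s‖ ^ 2 ≤ min (I₀ ^ 2 / (4 * v)) (ε' ^ 2 / (4 * (A + 1) * C)) := by
    rw [hg]
    exact hβ7
  have hIb : I₀ / 2 ≤ ∫ s in Metric.closedBall (0 : Cfg ds) r₁, β₁ s :=
    out459_beta w₀ g β₁ hG.w_mem hgc hgs hgn hβ1 r₁ I₀ v hI hv0 hv hI₀ (hge.trans (min_le_left _ _))
  obtain ⟨L', hL', hL'₁⟩ : ∃ L' : ℝ, L ≤ L' ∧ r₁ ≤ L' := ⟨max L r₁, le_max_left _ _, le_max_right _ _⟩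
  obtain ⟨β, hβ⟩ : ∃ β : Cfg r × Cfg ds × Cfg dm → ℝ, β = fun q => χ q.1 * (gss q.1 * (Nf S.κ (Ωm q.1) *
    Real.exp (-(1 / 2) * qX (Ωm q.1) q.2.2))) * ct459 L' q.2.2 * β₁ q.2.1 := ⟨_, rfl⟩
  have hmap : Set.MapsTo (fun q : Cfg r × Cfg ds × Cfg dm => (q.1, q.2.2)) {q | q.1 ∉ Coll Lc} {q | q.1 ∉ Coll Lc} :=
    fun q hq => hq
  have hpc : ContinuousOn (fun q : Cfg r × Cfg ds × Cfg dm => gss q.1 * (Nf S.κ (Ωm q.1) *
      Real.exp (-(1 / 2) * qX (Ωm q.1) q.2.2))) {q | q.1 ∉ Coll Lc} :=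
    hprof.comp (f := fun q : Cfg r × Cfg ds × Cfg dm => (q.1, q.2.2))
      (by fun_prop : Continuous fun q : Cfg r × Cfg ds × Cfg dm => (q.1, q.2.2)).continuousOn hmap
  have hβc : Continuous β := by
    refine out459_ext χ (Coll Lc) hG.closed hχ3 β ?_ ?_
    · rw [hβ]
      refine ContinuousOn.mul (ContinuousOn.mul (ContinuousOn.mul ?_ hpc) ?_) ?_
      · exact (hχc.comp continuous_fst).continuousOn
      · exact ((ct459_cont L').comp (continuous_snd.comp continuous_snd)).continuousOn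
      · exact (hβ1.comp (continuous_fst.comp continuous_snd)).continuousOn
    · intro q hq h0
      exact hq (by rw [hβ]; simp [h0])
  have hβs : HasCompactSupport β := by
    refine HasCompactSupport.intro (K := tsupport χ ×ˢ (tsupport β₁ ×ˢ Metric.closedBall (0 : Cfg dm) (L' + 1)))
      (hχ2.isCompact.prod (hβ2.isCompact.prod (isCompact_closedBall _ _))) ?_
    intro q hq
    by_contra h0
    rw [hβ] at h0
    simp only [mul_eq_zero, not_or] at h0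
    exact hq ⟨subset_tsupport _ h0.1.1.1, subset_tsupport _ h0.2, by
      rw [mem_closedBall_zero_iff]; exact ct459_zero L' _ h0.1.2⟩
  have hβ0 : ∀ q, 0 ≤ β q := by
    intro q
    by_cases h0 : χ q.1 = 0
    · rw [hβ]
      simp [h0]
    · have hq : q.1 ∉ Coll Lc := hoffχ _ (subset_tsupport _ h0)
      rw [hβ]
      exact mul_nonneg (mul_nonneg (mul_nonneg (hχ4 q.1).1 (mul_nonneg (Real.exp_pos _).le
        (mul_nonneg (hNpos _ hq).le (Real.exp_pos _).le))) (ct459_nn L' q.2.2).1) (hβ3 q.2.1)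
  have hβK : ∀ q, β q ≠ 0 → (q.1, q.2.1) ∈ tsupport χ ×ˢ tsupport β₁ := by
    intro q h0
    rw [hβ] at h0
    simp only [ne_eq, mul_eq_zero, not_or] at h0
    exact ⟨subset_tsupport _ h0.1.1.1, subset_tsupport _ h0.2⟩
  have hDir : Dir M φ ψ (tsupport χ ×ˢ tsupport β₁) (fun p => V p.1 (om p.2)) := by
    refine ⟨hχ2.isCompact.prod hβ2.isCompact, ?_, ?_, ?_⟩
    · refine ContinuousOn.clm_apply (f := fun p : Cfg r × Cfg ds => V p.1) (g := fun p : Cfg r × Cfg ds => om p.2) ?_ ?_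
      · exact hG.V_cont.comp continuous_fst.continuousOn (fun p hp => hoffχ _ hp.1)
      · exact hβ4.comp continuous_snd.continuousOn (fun p hp => hp.2)
    · intro q hq
      rw [hG.V_iso]
      exact hβ5 _ hq.2
    · intro U hU q hq q' hq' h
      exact hβ8 U hU q.1 q'.1 (hoffχ _ hq.1) (hoffχ _ hq'.1) q.2 hq.2 q'.2 hq'.2 h
  have hbeq : ∀ q : Cfg r × Cfg ds × Cfg dm, ((β q : ℝ) : ℂ) • (fun p : Cfg r × Cfg ds => V p.1 (om p.2)) (q.1, q.2.1) =
      ((χ q.1 * gss q.1 * (Nf S.κ (Ωm q.1) * Real.exp (-(1 / 2) * qX (Ωm q.1) q.2.2)) * ct459 L' q.2.2 : ℝ) : ℂ) •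
        V q.1 (g q.2.1) := by
    intro q
    rw [hβ, hg]
    simp only [map_smul, smul_smul, ← Complex.ofReal_mul]
    congr 2
    ring
  have hbc : Continuous (fun q : Cfg r × Cfg ds × Cfg dm =>
      ((β q : ℝ) : ℂ) • (fun p : Cfg r × Cfg ds => V p.1 (om p.2)) (q.1, q.2.1)) := by
    refine out459_ext χ (Coll Lc) hG.closed hχ3 _ ?_ ?_
    · refine ContinuousOn.congr (f := fun q : Cfg r × Cfg ds × Cfg dm => ((χ q.1 * (gss q.1 * (Nf S.κ (Ωm q.1) *
        Real.exp (-(1 / 2) * qX (Ωm q.1) q.2.2))) * ct459 L' q.2.2 : ℝ) : ℂ) • V q.1 (g q.2.1)) ?_ ?_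
      · refine ContinuousOn.smul (Complex.continuous_ofReal.comp_continuousOn (ContinuousOn.mul (ContinuousOn.mul ?_ hpc) ?_))
          (ContinuousOn.clm_apply ?_ ?_)
        · exact (hχc.comp continuous_fst).continuousOn
        · exact ((ct459_cont L').comp (continuous_snd.comp continuous_snd)).continuousOn
        · exact hG.V_cont.comp continuous_fst.continuousOn (fun p hp => hp)
        · exact (hgc.comp (continuous_fst.comp continuous_snd)).continuousOn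
      · intro q _
        refine (hbeq q).trans ?_
        simp only
        congr 2
        ring
    · intro q hq h0
      exact hq (by rw [hβ]; simp [h0])
  refine ⟨fun q => ((β q : ℝ) : ℂ) • (fun p : Cfg r × Cfg ds => V p.1 (om p.2)) (q.1, q.2.1), hbc, ?_, ?_, ?_, ?_⟩
  · refine hβs.mono fun q hq => ?_
    rw [Function.mem_support] at hq ⊢
    intro h0
    exact hq (by simp [h0])
  · intro q hq
    refine (hβK q fun h0 => hq (by simp [h0])).1
  · have h := oute_err S.κ χ V w₀ g Ωm hG.V_iso hG.w_mem hG.w_one hχc hχ2 hgc hgs C (ε' ^ 2 / (4 * (A + 1) * C))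
      (ε' ^ 2 / (4 * (A + 1))) L hC.le (by positivity) (fun η hη => (hCL η hη).1) (fun η hη => (hCL η hη).2) (ct459 L')
      (ct459_nn L') (fun X hX => ct459_one L' X (hX.trans hL')) (hge.trans (min_le_right _ _))
    have h2 : 2 * (∫ η, (χ η * gss η) ^ 2) * (C * (ε' ^ 2 / (4 * (A + 1) * C)) + ε' ^ 2 / (4 * (A + 1))) ≤ ε' ^ 2 := by
      rw [← hA]
      have h3 : 2 * A * (C * (ε' ^ 2 / (4 * (A + 1) * C)) + ε' ^ 2 / (4 * (A + 1))) = A / (A + 1) * ε' ^ 2 := by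
        field_simp
        ring
      rw [h3]
      have h4 : A / (A + 1) ≤ 1 := by
        rw [div_le_one (by linarith)]
        linarith
      nlinarith [sq_nonneg ε']
    have h5 : (fun q : Cfg r × Cfg ds × Cfg dm => ((β q : ℝ) : ℂ) • (fun p : Cfg r × Cfg ds => V p.1 (om p.2)) (q.1, q.2.1) -
        bG S.κ Ωm (fun η s => ((χ η * gss η : ℝ) : ℂ) • V η (w₀ s)) q) = (fun q : Cfg r × Cfg ds × Cfg dm =>
        ((χ q.1 * gss q.1 * (Nf S.κ (Ωm q.1) * Real.exp (-(1 / 2) * qX (Ωm q.1) q.2.2)) * ct459 L' q.2.2 : ℝ) : ℂ) •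
        V q.1 (g q.2.1) - bG S.κ Ωm (fun η s => ((χ η * gss η : ℝ) : ℂ) • V η (w₀ s)) q) := by
      funext q
      rw [hbeq q]
    rw [h5]
    have h6 := h.trans (ENNReal.ofReal_le_ofReal h2)
    rw [ENNReal.ofReal_pow hε'.le] at h6
    exact (ENNReal.pow_le_pow_left_iff two_ne_zero).1 h6
  · obtain ⟨R₀, hR₀, hR⟩ := hcore (tsupport χ ×ˢ tsupport β₁) (fun p => V p.1 (om p.2)) hDir
      (fun q hq => hG.reg _ (hoffχ _ hq.1)) β hβc hβs hβ0 hβK hbc
    refine ⟨R₀, hR₀, fun R hR' => le_trans ?_ (hR R hR')⟩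
    have hbox := out459_box z₀ r₀ r₁ m₀ hr₀₁ β β₁ hβc hβs hβ0 hβ1 (by
      intro q h1 h2 h3
      rw [hβ]
      simp only
      rw [hχ5 _ h1, ct459_one L' _ (h3.trans hL'₁), one_mul, mul_one]
      exact mul_le_mul_of_nonneg_right (hmin (q.1, q.2.2) h1 h3) (hβ3 _))
    refine mul_le_mul_of_nonneg_left (pow_le_pow_left₀ (by positivity) (le_trans ?_ hbox) 2) hc.le
    gcongr

end out459

end Vale.Agent.P353.AN.LW
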