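import Vale.Agent.P353.AN.LOW.Stmt
import Vale.Agent.P353.AN.G.AvgG

/-! # P353, all `N`, block LOW: positivity of correlations (LOW1, helper275) -/

open MeasureTheory Filter Topology
open scoped ContDiff

namespace Vale.Agent.P353.AN.LW

open Vale.Agent.P353.Z Vale.Agent.P353.Z.U Vale.Agent.P353.Z.AN Vale.Agent.P353.AN.G

universe w

variable {N d dh dm r ds : ℕ} {F : Type w} [NormedAddCommGroup F] [InnerProductSpace ℂ F]

/-- multiplication by constants on the three blocks of colours -/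
noncomputable def posD (φ : Spl dh dm d) (ψ : Spz r ds dh) (c : Fin 3 → ℝ) (x : Cfg d) : Cfg d :=
  WithLp.toLp 2 fun p => c (bl φ ψ p.2) * x p

lemma posD_apply (φ : Spl dh dm d) (ψ : Spz r ds dh) (c : Fin 3 → ℝ) (x : Cfg d) (p : Fin 9 × Fin d) :
    posD φ ψ c x p = c (bl φ ψ p.2) * x p := rfl

lemma pos_comm (M : BFSS.Model N d F) (φ : Spl dh dm d) (ψ : Spz r ds dh) {U : BFSS.SU N} (hU : Nrm M φ ψ U)
    (c : Fin 3 → ℝ) (x : Cfg d) : M.act U (posD φ ψ c x) = posD φ ψ c (M.act U x) := by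
  ext p
  rw [posD_apply]
  change ∑ A, BFSS.adCoeff M.T U p.2 A * (posD φ ψ c x) (p.1, A) =
    c (bl φ ψ p.2) * ∑ A, BFSS.adCoeff M.T U p.2 A * x (p.1, A)
  rw [Finset.mul_sum]
  refine Finset.sum_congr rfl fun A _ => ?_
  rw [posD_apply]
  by_cases h : bl φ ψ p.2 = bl φ ψ A
  · rw [h]
    ring
  · rw [hU p.2 A h]
    ring

lemma pos_sub (φ : Spl dh dm d) (ψ : Spz r ds dh) (c : Fin 3 → ℝ) (x y : Cfg d) :
    posD φ ψ c (x - y) = posD φ ψ c x - posD φ ψ c y := by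
  ext p
  rw [PiLp.sub_apply, posD_apply, posD_apply, posD_apply, PiLp.sub_apply, mul_sub]

lemma pos_norm (φ : Spl dh dm d) (ψ : Spz r ds dh) {c : Fin 3 → ℝ} (hc : ∀ k, |c k| ≤ 1) (x : Cfg d) :
    ‖posD φ ψ c x‖ ≤ ‖x‖ := by
  rw [EuclideanSpace.norm_eq, EuclideanSpace.norm_eq]
  refine Real.sqrt_le_sqrt (Finset.sum_le_sum fun p _ => ?_)
  rw [posD_apply, norm_mul]
  refine pow_le_pow_left₀ (by positivity) ?_ 2
  exact mul_le_of_le_one_left (norm_nonneg _) (hc _)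

lemma pos_ezs (φ : Spl dh dm d) (ψ : Spz r ds dh) (a : ℝ) (x : Cfg d) :
    ezs φ ψ (a • hz ψ (zy φ x)) (hs ψ (zy φ x)) = posD φ ψ ![a, 1, 0] x := by
  ext p
  obtain ⟨i, A⟩ := p
  rw [posD_apply]
  change Sum.elim (fun A => (cmb ψ (a • hz ψ (zy φ x)) (hs ψ (zy φ x))) (i, A))
    (fun B => Fin.lastCases (motive := fun _ => ℝ) 0 (fun j => (0 : Wsp dm) (j, B)) i) (φ.symm A) =
    (![a, 1, 0] : Fin 3 → ℝ) (Sum.elim (fun B => Sum.elim (fun _ => 0) (fun _ => 1) (ψ.symm B)) (fun _ => 2) (φ.symm A)) *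
      x (i, A)
  rcases h : φ.symm A with B | B
  · have hA : A = φ (Sum.inl B) := by rw [← h, Equiv.apply_symm_apply]
    rw [Sum.elim_inl, Sum.elim_inl]
    change Sum.elim (fun b => (a • hz ψ (zy φ x)) (i, b)) (fun b => (hs ψ (zy φ x)) (i, b)) (ψ.symm B) = _
    rcases h2 : ψ.symm B with b | b
    · have hB : B = ψ (Sum.inl b) := by rw [← h2, Equiv.apply_symm_apply]
      rw [Sum.elim_inl, Sum.elim_inl, hA, hB]
      rfl
    · have hB : B = ψ (Sum.inr b) := by rw [← h2, Equiv.apply_symm_apply]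
      rw [Sum.elim_inr, Sum.elim_inr, hA, hB]
      exact (one_mul _).symm
  · rw [Sum.elim_inr, Sum.elim_inr]
    have e : (![a, 1, 0] : Fin 3 → ℝ) 2 = 0 := rfl
    rw [e, zero_mul]
    refine Fin.lastCases ?_ (fun j => ?_) i
    · rw [Fin.lastCases_last]
    · rw [Fin.lastCases_castSucc]
      rfl

lemma pos_ezs_cont (φ : Spl dh dm d) (ψ : Spz r ds dh) :
    Continuous fun q : Cfg r × Cfg ds => ezs φ ψ q.1 q.2 := by
  refine (PiLp.continuous_toLp 2 _).comp (continuous_pi fun p => ?_)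
  rcases h : φ.symm p.2 with B | B
  · simp only [Sum.elim_inl]
    change Continuous fun q : Cfg r × Cfg ds =>
      Sum.elim (fun b => q.1 (p.1, b)) (fun b => q.2 (p.1, b)) (ψ.symm B)
    rcases h2 : ψ.symm B with b | b
    · simp only [Sum.elim_inl]
      fun_prop
    · simp only [Sum.elim_inr]
      fun_prop
  · simp only [Sum.elim_inr]
    exact continuous_const

lemma pos_coeff_cont (M : BFSS.Model N d F) (B A : Fin d) :
    Continuous fun U : BFSS.SU N => BFSS.adCoeff M.T U B A := by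
  unfold BFSS.adCoeff
  refine Complex.continuous_re.comp (Continuous.matrix_trace ?_)
  have hv : Continuous fun U : BFSS.SU N => U.val := continuous_subtype_val
  exact continuous_const.mul ((hv.mul continuous_const).mul hv.star)

lemma pos_fn (X : Matrix (Fin N) (Fin N) ℂ) (j k : Fin N) : ‖X j k‖ ≤ fn X := by
  unfold fn
  refine Real.le_sqrt_of_sq_le ?_
  refine (Finset.single_le_sum (f := fun k => ‖X j k‖ ^ 2) (fun k _ => sq_nonneg _) (Finset.mem_univ k)).trans ?_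
  exact Finset.single_le_sum (f := fun j => ∑ k, ‖X j k‖ ^ 2) (fun j _ => Finset.sum_nonneg fun k _ => sq_nonneg _)
    (Finset.mem_univ j)

lemma pos_lim_one {V : ℕ → BFSS.SU N} (h : Tendsto (fun n => fn ((V n).val - 1)) atTop (𝓝 0)) :
    Tendsto V atTop (𝓝 1) := by
  refine tendsto_subtype_rng.2 (tendsto_pi_nhds.2 fun j => tendsto_pi_nhds.2 fun k => ?_)
  rw [tendsto_iff_norm_sub_tendsto_zero]
  exact squeeze_zero (fun n => norm_nonneg _) (fun n => pos_fn ((V n).val - 1) j k) h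

/-- **LOW1 POS** -/
theorem pos (M : BFSS.Model N d F) (S : Setup d F) (φ : Spl dh dm d) (ψ : Spz r ds dh) : PosStmt M S φ ψ := by
  intro hfd hRep hsub hZ hLess hact hgeo K Om hD hreg L
  have hK1 : IsCompact (Prod.fst '' K) := hD.cpt.image continuous_fst
  obtain ⟨B, hB⟩ : ∃ B : ℝ, ∀ q ∈ K, ‖q.2‖ ≤ B := by
    obtain ⟨B, hB⟩ := (hD.cpt.image (continuous_norm.comp continuous_snd)).bddAbove
    exact ⟨B, fun q hq => hB ⟨q, hq, rfl⟩⟩
  obtain ⟨L', hL'⟩ : ∃ L' : ℝ, L' = max (max L B) 1 := ⟨_, rfl⟩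
  have hLL : L ≤ L' := by rw [hL']; exact (le_max_left _ _).trans (le_max_left _ _)
  have hBL : B ≤ L' := by rw [hL']; exact (le_max_right _ _).trans (le_max_left _ _)
  have h1L : 1 ≤ L' := by rw [hL']; exact le_max_right _ _
  obtain ⟨R₁, C, hR₁, hC, hG⟩ := hgeo S hRep dh dm r ds φ ψ hsub hZ hLess (Prod.fst '' K) hK1
    (by rintro η ⟨q, hq, rfl⟩; exact hreg q hq) L' (one_pos.trans_le h1L)
  by_contra hcon
  push Not at hcon
  have h1 : ∀ n : ℕ, 1 ≤ R₁ + n := fun n => by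
    have : (0 : ℝ) ≤ n := Nat.cast_nonneg n
    linarith
  choose R hR U x hx1 hx2 hx3 hx4 hlt using fun n : ℕ => hcon (R₁ + n) (h1 n)
  have hR1 : ∀ n, 1 ≤ R n := fun n => (h1 n).trans (hR n)
  have hR0 : ∀ n, 0 < R n := fun n => one_pos.trans_le (hR1 n)
  have hRR : ∀ n, R₁ ≤ R n := fun n => by
    have : (0 : ℝ) ≤ n := Nat.cast_nonneg n
    linarith [hR n]
  choose UN V hUV hNrm hV hmv using fun n : ℕ => hG (R n) (hRR n) (U n) (x n)
    ⟨⟨_, hx1 n, rfl⟩, (hB _ (hx1 n)).trans hBL, (hx3 n).trans hLL⟩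
    ⟨⟨_, hx2 n, rfl⟩, (hB _ (hx2 n)).trans hBL, (hx4 n).trans hLL⟩
  obtain ⟨q, hq⟩ : ∃ q : ℕ → Cfg r × Cfg ds, q = fun n => ((sc φ ψ (R n) (x n)).1, (sc φ ψ (R n) (x n)).2.1) := ⟨_, rfl⟩
  obtain ⟨q', hq'⟩ : ∃ q' : ℕ → Cfg r × Cfg ds,
      q' = fun n => ((sc φ ψ (R n) (M.act (U n) (x n))).1, (sc φ ψ (R n) (M.act (U n) (x n))).2.1) := ⟨_, rfl⟩
  have hqK : ∀ n, q n ∈ K := fun n => by rw [hq]; exact hx1 n
  have hqK' : ∀ n, q' n ∈ K := fun n => by rw [hq']; exact hx2 n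
  obtain ⟨⟨U₀, p, p'⟩, ⟨-, hpK, hpK'⟩, σ, hσ, hlim⟩ :=
    (isCompact_univ.prod (hD.cpt.prod hD.cpt)).tendsto_subseq (x := fun n => ((UN n, q n, q' n) : BFSS.SU N × _ × _))
      (fun n => ⟨Set.mem_univ _, hqK n, hqK' n⟩)
  have hσt : Tendsto σ atTop atTop := hσ.tendsto_atTop
  have lUN : Tendsto (fun n => UN (σ n)) atTop (𝓝 U₀) := (continuous_fst.tendsto _).comp hlim
  have lq : Tendsto (fun n => q (σ n)) atTop (𝓝 p) :=
    ((continuous_fst.comp continuous_snd).tendsto _).comp hlim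
  have lq' : Tendsto (fun n => q' (σ n)) atTop (𝓝 p') :=
    ((continuous_snd.comp continuous_snd).tendsto _).comp hlim
  have lR : Tendsto (fun n => R (σ n)) atTop atTop := by
    refine Tendsto.comp ?_ hσt
    refine tendsto_atTop_mono (fun n => ?_) (tendsto_natCast_atTop_atTop (R := ℝ))
    linarith [hR n]
  have ls : Tendsto (fun n => C / Real.sqrt (R (σ n))) atTop (𝓝 0) :=
    (Real.tendsto_sqrt_atTop.comp lR).const_div_atTop C
  have lV : Tendsto (fun n => V (σ n)) atTop (𝓝 1) := by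
    refine pos_lim_one (squeeze_zero (fun n => Real.sqrt_nonneg _) (fun n => (hV (σ n)).trans ?_) ls)
    have hs : 0 < Real.sqrt (R (σ n)) := Real.sqrt_pos.2 (hR0 _)
    exact div_le_div_of_nonneg_left hC.le hs (le_mul_of_one_le_left hs.le (hR1 _))
  have lU : Tendsto (fun n => U (σ n)) atTop (𝓝 U₀) := by
    have h2 := lUN.mul lV
    rw [mul_one] at h2
    refine h2.congr fun n => ?_
    exact (hUV (σ n)).symm
  -- the limit normalises the splitting
  have hN0 : Nrm M φ ψ U₀ := by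
    intro A B' hne
    have h2 := ((pos_coeff_cont M A B').tendsto U₀).comp lUN
    refine tendsto_nhds_unique h2 ?_
    refine tendsto_const_nhds.congr fun n => ?_
    exact (hNrm (σ n) A B' hne).symm
  -- the limit of the action
  have hcb : ∀ n, ∀ k, |(![(R n)⁻¹, 1, 0] : Fin 3 → ℝ) k| ≤ 1 := by
    intro n k
    fin_cases k
    · change |(R n)⁻¹| ≤ 1
      rw [abs_of_pos (inv_pos.2 (hR0 n))]
      exact inv_le_one_of_one_le₀ (hR1 n)
    · change |(1 : ℝ)| ≤ 1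
      rw [abs_one]
    · change |(0 : ℝ)| ≤ 1
      rw [abs_zero]
      exact zero_le_one
  have e1 : ∀ n, ezs φ ψ (q n).1 (q n).2 = posD φ ψ ![(R n)⁻¹, 1, 0] (x n) := by
    intro n
    rw [hq, ← pos_ezs]
    rfl
  have e2 : ∀ n, ezs φ ψ (q' n).1 (q' n).2 = M.act (UN n) (posD φ ψ ![(R n)⁻¹, 1, 0] (M.act (V n) (x n))) := by
    intro n
    rw [pos_comm M φ ψ (hNrm n), ← hact.1, ← hUV, ← pos_ezs, hq']
    rfl
  have l1 : Tendsto (fun n => posD φ ψ ![(R (σ n))⁻¹, 1, 0] (M.act (V (σ n)) (x (σ n)))) atTop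
      (𝓝 (ezs φ ψ p.1 p.2)) := by
    have h2 : Tendsto (fun n => ezs φ ψ (q (σ n)).1 (q (σ n)).2) atTop (𝓝 (ezs φ ψ p.1 p.2)) :=
      ((pos_ezs_cont φ ψ).tendsto p).comp lq
    have h3 : Tendsto (fun n => posD φ ψ ![(R (σ n))⁻¹, 1, 0] (M.act (V (σ n)) (x (σ n)) - x (σ n))) atTop (𝓝 0) := by
      refine squeeze_zero_norm (fun n => ?_) ls
      exact (pos_norm φ ψ (hcb (σ n)) _).trans (hmv (σ n))
    have h4 := h3.add h2
    rw [zero_add] at h4
    refine h4.congr fun n => ?_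
    rw [e1, pos_sub, sub_add_cancel]
  have l2 : Tendsto (fun n => ezs φ ψ (q' (σ n)).1 (q' (σ n)).2) atTop (𝓝 (ezs φ ψ p'.1 p'.2)) :=
    ((pos_ezs_cont φ ψ).tendsto p').comp lq'
  have l3 : Tendsto (fun n => ezs φ ψ (q' (σ n)).1 (q' (σ n)).2) atTop (𝓝 (M.act U₀ (ezs φ ψ p.1 p.2))) := by
    have h2 := (hact.2.2.2.2.2.1.tendsto (U₀, ezs φ ψ p.1 p.2)).comp (lUN.prodMk_nhds l1)
    refine h2.congr fun n => ?_
    rw [e2]
    rfl
  have hfin : M.act U₀ (ezs φ ψ p.1 p.2) = ezs φ ψ p'.1 p'.2 := tendsto_nhds_unique l3 l2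
  have hOm := hD.cov U₀ hN0 p hpK p' hpK' hfin
  -- continuity of `Om`
  have lO : Tendsto (fun n => Om (q (σ n))) atTop (𝓝 (Om p)) :=
    (hD.cont p hpK).tendsto.comp (tendsto_nhdsWithin_iff.2 ⟨lq, Eventually.of_forall fun n => hqK _⟩)
  have lO' : Tendsto (fun n => Om (q' (σ n))) atTop (𝓝 (Om p')) :=
    (hD.cont p' hpK').tendsto.comp (tendsto_nhdsWithin_iff.2 ⟨lq', Eventually.of_forall fun n => hqK' _⟩)
  have lS : Tendsto (fun n => M.S (U (σ n)) (Om (q (σ n)))) atTop (𝓝 (M.S U₀ (Om p))) :=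
    ((AvgG.S_cont M).tendsto (U₀, Om p)).comp (lU.prodMk_nhds lO)
  have lI : Tendsto (fun n => (inner ℂ (Om (q' (σ n))) (M.S (U (σ n)) (Om (q (σ n))))).re) atTop
      (𝓝 (inner ℂ (Om p') (M.S U₀ (Om p))).re) :=
    (Complex.continuous_re.tendsto _).comp (lO'.inner lS)
  have h5 : (inner ℂ (Om p') (M.S U₀ (Om p))).re = 1 := by
    rw [hOm, inner_self_eq_norm_sq_to_K, hD.unit p' hpK']
    norm_num
  rw [h5] at lI
  have h6 : (1 : ℝ) ≤ 1 / 2 := by
    refine le_of_tendsto lI (Eventually.of_forall fun n => ?_)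
    have h7 := (hlt (σ n)).le
    rw [hq, hq']
    exact h7
  linarith

end Vale.Agent.P353.AN.LW

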