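import Vale.Agent.P353.AN.LOW.Stmt
import Vale.Agent.P353.AN.GL.Wgt

/-! # P353, all `N`, block LOW2: scaled coordinates (prover helper655) -/

open MeasureTheory Filter Topology
open scoped ContDiff ENNReal

namespace Vale.Agent.P353.AN.LW

open Vale.Agent.P353.Z Vale.Agent.P353.Z.U Vale.Agent.P353.Z.AN Vale.Agent.P353.AN.G

variable {d dh dm r ds : ℕ}

/-- the scaled coordinates are a linear homeomorphism -/
theorem sc655_homeo (φ : Spl dh dm d) (ψ : Spz r ds dh) (R : ℝ) (hR : 0 < R) :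
    ∃ e : Cfg d ≃ₜ Cfg r × Cfg ds × Cfg dm, ∀ x, e x = sc φ ψ R x := by
  let f : Cfg d →ₗ[ℝ] Cfg r × Cfg ds × Cfg dm :=
    { toFun := fun x => sc φ ψ R x
      map_add' := fun x y => by
        have h1 : hz ψ (zy φ (x + y)) = hz ψ (zy φ x) + hz ψ (zy φ y) := rfl
        have h2 : hs ψ (zy φ (x + y)) = hs ψ (zy φ x) + hs ψ (zy φ y) := rfl
        have h3 : pm φ (x + y) = pm φ x + pm φ y := rfl
        simp only [sc, h1, h2, h3, smul_add, Prod.mk_add_mk]
      map_smul' := fun c x => by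
        have h1 : hz ψ (zy φ (c • x)) = c • hz ψ (zy φ x) := rfl
        have h2 : hs ψ (zy φ (c • x)) = c • hs ψ (zy φ x) := rfl
        have h3 : pm φ (c • x) = c • pm φ x := rfl
        simp only [sc, h1, h2, h3, RingHom.id_apply, Prod.smul_mk, smul_comm c] }
  have hinj : Function.Injective f := by
    intro x y h
    have h1 : R⁻¹ • hz ψ (zy φ x) = R⁻¹ • hz ψ (zy φ y) := congrArg Prod.fst h
    have h2 : hs ψ (zy φ x) = hs ψ (zy φ y) := congrArg (fun t => t.2.1) h
    have h3 : Real.sqrt R • pm φ x = Real.sqrt R • pm φ y := congrArg (fun t => t.2.2) h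
    have h1' := smul_right_injective (Cfg r) (inv_ne_zero hR.ne') h1
    have h3' := smul_right_injective (Cfg dm) (Real.sqrt_pos.2 hR).ne' h3
    ext p
    obtain ⟨s, rfl⟩ := (wgtIdx_bijective φ ψ).2 p
    rcases s with p | p | p
    · exact congrArg (fun t : Cfg r => t p) h1'
    · exact congrArg (fun t : Cfg ds => t p) h2
    · exact congrArg (fun t : Cfg dm => t p) h3'
  have hdim : Module.finrank ℝ (Cfg d) = Module.finrank ℝ (Cfg r × Cfg ds × Cfg dm) := by
    rw [Module.finrank_prod, Module.finrank_prod, finrank_euclideanSpace, finrank_euclideanSpace,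
      finrank_euclideanSpace, finrank_euclideanSpace, ← Fintype.card_congr (wgtEquiv φ ψ),
      Fintype.card_sum, Fintype.card_sum]
  exact ⟨(f.linearEquivOfInjective hinj hdim).toContinuousLinearEquiv.toHomeomorph, fun x => rfl⟩

theorem sc655_pow (R : ℝ) (hR : 0 < R) (r dm : ℕ) :
    ENNReal.ofReal |(R⁻¹ ^ (9 * r))⁻¹| * ENNReal.ofReal |(Real.sqrt R ^ (9 * dm))⁻¹| =
      ENNReal.ofReal (R ^ (9 * (r : ℝ) - 9 * (dm : ℝ) / 2)) := by
  rw [← ENNReal.ofReal_mul (abs_nonneg _)]
  congr 1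
  have hs := Real.sqrt_pos.2 hR
  rw [abs_of_pos (by positivity), abs_of_pos (by positivity), inv_pow, inv_inv, Real.rpow_sub hR, div_eq_mul_inv]
  congr 1
  · rw [← Real.rpow_natCast]
    push_cast
    rfl
  · congr 1
    rw [Real.sqrt_eq_rpow, ← Real.rpow_natCast, ← Real.rpow_mul hR.le]
    congr 1
    push_cast
    ring

/-- **LOW2** -/
theorem scl : SclStmt := by
  intro d dh dm r ds φ ψ R hR
  obtain ⟨e, he⟩ := sc655_homeo φ ψ R hR
  have hfun : (sc φ ψ R : Cfg d → _) = e := (funext he).symm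
  refine ⟨hfun ▸ e.continuous, fun g hg => ?_, e, he⟩
  have h1 := wgt_scale (r := r) (ds := ds) (dm := dm) R⁻¹ (Real.sqrt R) (inv_ne_zero hR.ne') (Real.sqrt_pos.2 hR).ne' g hg
  have hm : Measurable fun q : Cfg r × Cfg ds × Cfg dm => g (R⁻¹ • q.1, q.2.1, Real.sqrt R • q.2.2) :=
    hg.comp (by fun_prop)
  have h2 := (wgt_mp φ ψ).lintegral_comp hm
  rw [sc655_pow R hR] at h1
  exact h2.trans h1

end Vale.Agent.P353.AN.LW
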