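import Vale.Agent.P353.AN.LOW.Stmt

/-! # P353, all `N`, block LOW: volume of the orbit of the box (LOW3, helper275) -/

open MeasureTheory Filter Topology
open scoped ContDiff ENNReal

namespace Vale.Agent.P353.AN.LW

open Vale.Agent.P353.Z Vale.Agent.P353.Z.U Vale.Agent.P353.Z.AN Vale.Agent.P353.AN.G

variable {N d dh dm r ds : ℕ} {F : Type*} [NormedAddCommGroup F] [InnerProductSpace ℂ F]

/-- `act U` as a linear isometry equivalence -/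
noncomputable def volE (M : BFSS.Model N d F) (h : ActStmt M) (U : BFSS.SU N) : Cfg d ≃ₗᵢ[ℝ] Cfg d where
  toFun := M.act U
  map_add' := h.2.2.1 U
  map_smul' := fun c x => h.2.2.2.1 U c x
  invFun := M.act U⁻¹
  left_inv := fun x => by rw [← h.1, inv_mul_cancel, h.2.1]
  right_inv := fun x => by rw [← h.1, mul_inv_cancel, h.2.1]
  norm_map' := h.2.2.2.2.1 U

/-- the box is closed -/
lemma vol_bx_closed (ds dm : ℕ) (z₀ : Cfg r) (r₁ : ℝ) : IsClosed (bx ds dm z₀ r₁) := by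
  have h1 : Continuous fun q : Cfg r × Cfg ds × Cfg dm => ‖q.1 - z₀‖ := by fun_prop
  have h2 : Continuous fun q : Cfg r × Cfg ds × Cfg dm => ‖q.2.1‖ := by fun_prop
  have h3 : Continuous fun q : Cfg r × Cfg ds × Cfg dm => ‖q.2.2‖ := by fun_prop
  exact (isClosed_le h1 continuous_const).inter
    ((isClosed_le h2 continuous_const).inter (isClosed_le h3 continuous_const))

/-- the box has finite volume -/
lemma vol_bx_fin (ds dm : ℕ) (z₀ : Cfg r) (r₁ : ℝ) : v3 r ds dm (bx ds dm z₀ r₁) ≠ ⊤ := by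
  have h1 : bx ds dm z₀ r₁ ⊆ Metric.closedBall z₀ r₁ ×ˢ (Metric.closedBall (0 : Cfg ds) r₁ ×ˢ
      Metric.closedBall (0 : Cfg dm) r₁) := by
    rintro q ⟨h1, h2, h3⟩
    exact ⟨mem_closedBall_iff_norm.2 h1, mem_closedBall_zero_iff.2 h2, mem_closedBall_zero_iff.2 h3⟩
  refine ((measure_mono h1).trans_lt ?_).ne
  unfold v3
  rw [Measure.prod_prod, Measure.prod_prod]
  exact ENNReal.mul_lt_top measure_closedBall_lt_top
    (ENNReal.mul_lt_top measure_closedBall_lt_top measure_closedBall_lt_top)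

/-- the good set of LH4 -/
def volG (M : BFSS.Model N d F) (φ : Spl dh dm d) (ρ δ : ℝ) : Set (BFSS.SU N) :=
  {U | ∃ ξ : EuclideanSpace ℝ (Fin d), ‖ξ‖ ≤ ρ ∧ (∀ B : Fin dm, |ξ (φ (Sum.inr B))| ≤ δ) ∧ U.val = eT M ξ}

/-- **LOW3 VOL** -/
theorem vol (M : BFSS.Model N d F) (S : Setup d F) (φ : Spl dh dm d) (ψ : Spz r ds dh) : VolStmt M S φ ψ := by
  intro hRep hsub hZ hact hgood hgoodA hscl z₀ r₁ hr₁
  obtain ⟨ρ₁, C₁, hρ₁, hC₁, hA⟩ := hgoodA S hRep dh dm r ds φ ψ hsub hZ (Metric.closedBall z₀ r₁)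
    (isCompact_closedBall z₀ r₁) r₁ hr₁
  obtain ⟨ρ₂, hρ₂, hG⟩ := hgood dh dm φ
  obtain ⟨ρ, hρ⟩ : ∃ ρ : ℝ, ρ = min (min ρ₁ ρ₂) 1 := ⟨_, rfl⟩
  have hρ0 : 0 < ρ := by rw [hρ]; exact lt_min (lt_min hρ₁ hρ₂) one_pos
  have hρρ₁ : ρ ≤ ρ₁ := by rw [hρ]; exact (min_le_left _ _).trans (min_le_left _ _)
  have hρρ₂ : ρ ≤ ρ₂ := by rw [hρ]; exact (min_le_left _ _).trans (min_le_right _ _)
  have hρ1 : ρ ≤ 1 := by rw [hρ]; exact min_le_right _ _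
  obtain ⟨c₀, hc₀, hE⟩ := hG ρ hρ0 hρρ₂
  obtain ⟨r₂, hr₂⟩ : ∃ r₂ : ℝ, r₂ = r₁ + 2 * C₁ := ⟨_, rfl⟩
  obtain ⟨V₂, hV₂⟩ : ∃ V₂ : ℝ, V₂ = (v3 r ds dm (bx ds dm z₀ r₂)).toReal := ⟨_, rfl⟩
  have hV₂0 : 0 ≤ V₂ := by rw [hV₂]; exact ENNReal.toReal_nonneg
  have hV₂' : v3 r ds dm (bx ds dm z₀ r₂) = ENNReal.ofReal V₂ := by
    rw [hV₂, ENNReal.ofReal_toReal (vol_bx_fin ds dm z₀ r₂)]
  have hp : 0 < c₀ * ρ ^ dm := mul_pos hc₀ (pow_pos hρ0 _)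
  refine ⟨V₂ / (c₀ * ρ ^ dm) + 1, by positivity, fun R hR => ?_⟩
  have hR0 : 0 < R := one_pos.trans_le hR
  have hs1 : 1 ≤ Real.sqrt R := Real.one_le_sqrt.2 hR
  have hs0 : 0 < Real.sqrt R := one_pos.trans_le hs1
  obtain ⟨hscc, hsci, -⟩ := hscl d dh dm r ds φ ψ R hR0
  have hjc : Continuous fun p : BFSS.SU N × Cfg d => sc φ ψ R (M.act p.1 p.2) := hscc.comp hact.2.2.2.2.2.1
  have hcl : ∀ r' : ℝ, IsClosed {p : BFSS.SU N × Cfg d | sc φ ψ R (M.act p.1 p.2) ∈ bx ds dm z₀ r'} :=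
    fun r' => (vol_bx_closed ds dm z₀ r').preimage hjc
  have hGB : IsClosed (GB M φ ψ z₀ r₁ R) := by
    have h1 := isClosedMap_snd_of_compactSpace (X := BFSS.SU N) (Y := Cfg d) _ (hcl r₁)
    have h2 : GB M φ ψ z₀ r₁ R = Prod.snd '' {p : BFSS.SU N × Cfg d | sc φ ψ R (M.act p.1 p.2) ∈ bx ds dm z₀ r₁} := by
      ext x
      constructor
      · rintro ⟨U, hU⟩
        exact ⟨(U, x), hU, rfl⟩
      · rintro ⟨⟨U, y⟩, hU, rfl⟩
        exact ⟨U, hU⟩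
    rw [h2]
    exact h1
  refine ⟨hGB, ?_⟩
  -- the good set
  obtain ⟨δ, hδ⟩ : ∃ δ : ℝ, δ = ρ * (R * Real.sqrt R)⁻¹ := ⟨_, rfl⟩
  have hRs : 1 ≤ R * Real.sqrt R := one_le_mul_of_one_le_of_one_le hR hs1
  have hRs0 : 0 < R * Real.sqrt R := one_pos.trans_le hRs
  have hinv1 : (R * Real.sqrt R)⁻¹ ≤ 1 := inv_le_one_of_one_le₀ hRs
  have hinv0 : 0 < (R * Real.sqrt R)⁻¹ := inv_pos.2 hRs0
  have hδ0 : 0 < δ := by rw [hδ]; exact mul_pos hρ0 hinv0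
  have hδρ : δ ≤ ρ := by rw [hδ]; exact mul_le_of_le_one_right hρ0.le hinv1
  have hδR : δ ≤ (R * Real.sqrt R)⁻¹ := by rw [hδ]; exact mul_le_of_le_one_left hinv0.le hρ1
  obtain ⟨hE1, hE2⟩ := hE δ hδ0 hδρ
  have hE1' : c₀ * δ ^ dm ≤ (hm N).real (volG M φ ρ δ) := hE1
  have hE2' : MeasurableSet (volG M φ ρ δ) := hE2
  obtain ⟨P, hP⟩ : ∃ P : Set (BFSS.SU N × Cfg d),
      P = {p : BFSS.SU N × Cfg d | sc φ ψ R (M.act p.1 p.2) ∈ bx ds dm z₀ r₂} := ⟨_, rfl⟩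
  have hPm : MeasurableSet P := by rw [hP]; exact (hcl r₂).measurableSet
  -- lower bound on `GB`
  have hlow : ∀ x ∈ GB M φ ψ z₀ r₁ R, ENNReal.ofReal (c₀ * δ ^ dm) ≤ hm N ((fun U => (U, x)) ⁻¹' P) := by
    rintro x ⟨U₀, hU₀⟩
    have h1 : (fun U => U * U₀⁻¹) ⁻¹' volG M φ ρ δ ⊆ (fun U => (U, x)) ⁻¹' P := by
      intro U hU
      obtain ⟨ξ, h1, h2, h3⟩ : ∃ ξ : EuclideanSpace ℝ (Fin d), ‖ξ‖ ≤ ρ ∧ (∀ B : Fin dm, |ξ (φ (Sum.inr B))| ≤ δ) ∧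
        (U * U₀⁻¹).val = eT M ξ := hU
      have hB : InB φ ψ (Metric.closedBall z₀ r₁) r₁ R (M.act U₀ x) :=
        ⟨mem_closedBall_iff_norm.2 hU₀.1, hU₀.2.1, hU₀.2.2⟩
      obtain ⟨e1, e2, e3⟩ := hA R hR (U * U₀⁻¹) ξ (h1.trans hρρ₁) (fun B => (h2 B).trans hδR) h3 (M.act U₀ x) hB
      have e0 : M.act (U * U₀⁻¹) (M.act U₀ x) = M.act U x := by
        rw [← hact.1, mul_assoc, inv_mul_cancel, mul_one]
      rw [e0] at e1 e2 e3
      have e4 : C₁ * (‖ξ‖ + (Real.sqrt R)⁻¹) ≤ 2 * C₁ := by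
        have h4 : (Real.sqrt R)⁻¹ ≤ 1 := inv_le_one_of_one_le₀ hs1
        nlinarith [h1.trans hρ1]
      have e5 : sc φ ψ R (M.act U x) ∈ bx ds dm z₀ r₂ := by
        refine ⟨?_, ?_, ?_⟩
        · have h5 : R⁻¹ • hz ψ (zy φ (M.act U x)) - z₀ = (R⁻¹ • hz ψ (zy φ (M.act U₀ x)) - z₀) +
              R⁻¹ • (hz ψ (zy φ (M.act U x)) - hz ψ (zy φ (M.act U₀ x))) := by
            rw [smul_sub]
            abel
          have h6 : ‖R⁻¹ • (hz ψ (zy φ (M.act U x)) - hz ψ (zy φ (M.act U₀ x)))‖ ≤ 2 * C₁ := by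
            rw [norm_smul, Real.norm_of_nonneg (inv_nonneg.2 hR0.le)]
            have h7 : R⁻¹ ≤ 1 := inv_le_one_of_one_le₀ hR
            have h8 := e1.trans e4
            calc R⁻¹ * ‖hz ψ (zy φ (M.act U x)) - hz ψ (zy φ (M.act U₀ x))‖
                ≤ 1 * ‖hz ψ (zy φ (M.act U x)) - hz ψ (zy φ (M.act U₀ x))‖ :=
                  mul_le_mul_of_nonneg_right h7 (norm_nonneg _)
              _ ≤ 2 * C₁ := by rw [one_mul]; exact h8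
          change ‖R⁻¹ • hz ψ (zy φ (M.act U x)) - z₀‖ ≤ r₂
          rw [h5, hr₂]
          exact (norm_add_le _ _).trans (add_le_add hU₀.1 h6)
        · change ‖hs ψ (zy φ (M.act U x))‖ ≤ r₂
          have h5 : hs ψ (zy φ (M.act U x)) = hs ψ (zy φ (M.act U₀ x)) +
              (hs ψ (zy φ (M.act U x)) - hs ψ (zy φ (M.act U₀ x))) := by abel
          rw [h5, hr₂]
          exact (norm_add_le _ _).trans (add_le_add hU₀.2.1 (e2.trans e4))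
        · change ‖Real.sqrt R • pm φ (M.act U x)‖ ≤ r₂
          rw [hr₂]
          linarith
      change (U, x) ∈ P
      rw [hP]
      exact e5
    have h2 : hm N ((fun U => U * U₀⁻¹) ⁻¹' volG M φ ρ δ) = hm N (volG M φ ρ δ) :=
      measure_preimage_mul_right (hm N) U₀⁻¹ (volG M φ ρ δ)
    calc ENNReal.ofReal (c₀ * δ ^ dm) ≤ ENNReal.ofReal ((hm N).real (volG M φ ρ δ)) := ENNReal.ofReal_le_ofReal hE1'
      _ = hm N (volG M φ ρ δ) := by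
        rw [Measure.real, ENNReal.ofReal_toReal (measure_ne_top _ _)]
      _ ≤ hm N ((fun U => (U, x)) ⁻¹' P) := by rw [← h2]; exact measure_mono h1
  -- Tonelli
  have hton : ∫⁻ x, hm N ((fun U => (U, x)) ⁻¹' P) = ∫⁻ U, volume (Prod.mk U ⁻¹' P) ∂(hm N) := by
    rw [← Measure.prod_apply_symm hPm, ← Measure.prod_apply hPm]
  have hslice : ∀ U : BFSS.SU N, volume (Prod.mk U ⁻¹' P) =
      ENNReal.ofReal (R ^ (9 * (r : ℝ) - 9 * (dm : ℝ) / 2) * V₂) := by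
    intro U
    have h1 : Prod.mk U ⁻¹' P = (volE M hact U) ⁻¹' (sc φ ψ R ⁻¹' bx ds dm z₀ r₂) := by
      rw [hP]; rfl
    have h2 : MeasurableSet (sc φ ψ R ⁻¹' bx ds dm z₀ r₂) := ((vol_bx_closed ds dm z₀ r₂).preimage hscc).measurableSet
    rw [h1, (volE M hact U).measurePreserving.measure_preimage h2.nullMeasurableSet]
    have h3 := hsci ((bx ds dm z₀ r₂).indicator fun _ => 1)
      (measurable_const.indicator (vol_bx_closed ds dm z₀ r₂).measurableSet)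
    have h4 : ∀ x : Cfg d, (bx ds dm z₀ r₂).indicator (fun _ => (1 : ℝ≥0∞)) (sc φ ψ R x) =
        (sc φ ψ R ⁻¹' bx ds dm z₀ r₂).indicator (fun _ => 1) x := fun x => rfl
    simp only [h4] at h3
    rw [lintegral_indicator_const h2, one_mul,
      lintegral_indicator_const (vol_bx_closed ds dm z₀ r₂).measurableSet, one_mul, hV₂',
      ← ENNReal.ofReal_mul (by positivity)] at h3
    exact h3
  have hup : ∫⁻ U, volume (Prod.mk U ⁻¹' P) ∂(hm N) = ENNReal.ofReal (R ^ (9 * (r : ℝ) - 9 * (dm : ℝ) / 2) * V₂) := by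
    simp only [hslice, lintegral_const, measure_univ, mul_one]
  have hmain : ENNReal.ofReal (c₀ * δ ^ dm) * volume (GB M φ ψ z₀ r₁ R) ≤
      ENNReal.ofReal (R ^ (9 * (r : ℝ) - 9 * (dm : ℝ) / 2) * V₂) := by
    rw [← hup, ← hton, ← setLIntegral_const]
    exact (setLIntegral_mono' hGB.measurableSet hlow).trans (setLIntegral_le_lintegral _ _)
  -- powers of `R`
  have hpow : (R * Real.sqrt R) ^ dm * R ^ (9 * (r : ℝ) - 9 * (dm : ℝ) / 2) = R ^ (9 * (r : ℝ) - 3 * (dm : ℝ)) := by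
    have h1 : R * Real.sqrt R = R ^ (3 / 2 : ℝ) := by
      rw [Real.sqrt_eq_rpow]
      nth_rewrite 1 [← Real.rpow_one R]
      rw [← Real.rpow_add hR0]
      norm_num
    rw [h1, ← Real.rpow_natCast, ← Real.rpow_mul hR0.le, ← Real.rpow_add hR0]
    congr 1
    ring
  have hq : 0 < c₀ * δ ^ dm := mul_pos hc₀ (pow_pos hδ0 _)
  have h1 : volume (GB M φ ψ z₀ r₁ R) ≤
      ENNReal.ofReal (R ^ (9 * (r : ℝ) - 9 * (dm : ℝ) / 2) * V₂ / (c₀ * δ ^ dm)) := by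
    rw [ENNReal.ofReal_div_of_pos hq, ENNReal.le_div_iff_mul_le (Or.inl (ENNReal.ofReal_pos.2 hq).ne')
      (Or.inl ENNReal.ofReal_ne_top), mul_comm]
    exact hmain
  refine h1.trans (ENNReal.ofReal_le_ofReal ?_)
  have h2 : R ^ (9 * (r : ℝ) - 9 * (dm : ℝ) / 2) * V₂ / (c₀ * δ ^ dm) =
      V₂ / (c₀ * ρ ^ dm) * R ^ (9 * (r : ℝ) - 3 * (dm : ℝ)) := by
    rw [← hpow, hδ, mul_pow, inv_pow]
    field_simp
  rw [h2, add_mul]
  have h3 : 0 ≤ R ^ (9 * (r : ℝ) - 3 * (dm : ℝ)) := Real.rpow_nonneg hR0.le _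
  linarith

end Vale.Agent.P353.AN.LW

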