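import Vale.Agent.P353.AN.LOW.HAll
import Vale.Agent.P353.AN.LOW.Core
import Vale.Agent.P353.AN.LOW.Out
import Vale.Agent.P353.AN.LOW.Chi
import Vale.Agent.P353.AN.LOW.Mol
import Vale.Agent.P353.AN.LOW.Nrm
import Vale.Agent.P353.AN.LOW.Pos
import Vale.Agent.P353.AN.LOW.Vol
import Vale.Agent.P353.AN.LOW.Avb
import Vale.Agent.P353.AN.LOW.Scl
import Vale.Agent.P353.AN.F.Cut
import Vale.Agent.P353.AN.G.Act

/-! # P353, all `N`, block LOW: output of LOW1–LOW9 (unconditional) -/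

open MeasureTheory Filter Topology
open scoped ContDiff

namespace Vale.Agent.P353.AN.LW

open Vale.Agent.P353.Z Vale.Agent.P353.Z.U Vale.Agent.P353.Z.AN Vale.Agent.P353.AN.G

variable {N d dh dm r ds : ℕ} {F : Type*} [NormedAddCommGroup F] [InnerProductSpace ℂ F]

/-- there is a point off the collision set -/
theorem exists_notColl {Lc : Finset (Fin r → ℝ)} (h : ∀ l ∈ Lc, l ≠ 0) : ∃ z₀ : Cfg r, z₀ ∉ Coll Lc :=
  (AF.CutAux.ae_Coll h).exists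

/-- lower bounds for the averages of compactly supported continuous approximations of the truncated ground states -/
def LowAt (M : BFSS.Model N d F) (S : Setup d F) (φ : Spl dh dm d) (ψ : Spz r ds dh) (Lc : Finset (Fin r → ℝ))
    (V : Cfg r → F →L[ℂ] F) (w₀ : Cfg ds → F) (Ωm : Cfg r → Matrix (Fin dm) (Fin dm) ℝ) : Prop :=
  ∃ c₀ : ℝ, 0 < c₀ ∧ ∀ ε : ℝ, 0 < ε → ∃ χ : Cfg r → ℝ, ContDiff ℝ ∞ χ ∧ HasCompactSupport χ ∧ Disjoint (tsupport χ) (Coll Lc) ∧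
    (∀ η, 0 ≤ χ η ∧ χ η ≤ 1) ∧ (∫ η : Cfg r, (1 - χ η) ^ 2 * gss η ^ 2) ≤ ε ∧
    ∀ ε' : ℝ, 0 < ε' → ∃ b : Cfg r × Cfg ds × Cfg dm → F, Continuous b ∧ HasCompactSupport b ∧
      (∀ q, b q ≠ 0 → q.1 ∈ tsupport χ) ∧
      eLpNorm (fun q => b q - bG S.κ Ωm (fun η s => ((χ η * gss η : ℝ) : ℂ) • V η (w₀ s)) q) 2 (wM r ds dm) ≤ ENNReal.ofReal ε' ∧
      ∃ R₀ : ℝ, 1 ≤ R₀ ∧ ∀ R : ℝ, R₀ ≤ R → c₀ ≤ nsq (avg M (Zb φ ψ b R))

/-- **output of LOW1–LOW9** -/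
theorem lowAt [hF : FiniteDimensional ℂ F] (M : BFSS.Model N d F) (S : Setup d F) (hRep : Rep M S) (φ : Spl dh dm d)
    (ψ : Spz r ds dh) (hsub : S.IsSub φ) (hz : IsZ S φ ψ) (hless : Less S φ ψ) (Lc : Finset (Fin r → ℝ))
    (V : Cfg r → F →L[ℂ] F) (w₀ : Cfg ds → F) (Ωm : Cfg r → Matrix (Fin dm) (Fin dm) ℝ) (hG : Gsd M S φ ψ Lc V w₀ Ωm) :
    LowAt M S φ ψ Lc V w₀ Ωm := by
  obtain ⟨z₀, hz₀⟩ := exists_notColl hG.ne
  exact out M S φ ψ hF (core M S φ ψ hF hRep hsub hz hless (act_stmt M) (H.geo M) (H.good M) (H.goodA M) (pos M S φ ψ)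
    (vol M S φ ψ) scl (avb M)) Lc V w₀ Ωm hG (mol M S φ ψ hF hRep (act_stmt M) Lc V w₀ Ωm hG) nrm (chi r) (AF.cut r) z₀ hz₀

end Vale.Agent.P353.AN.LW
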