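import Vale.Agent.P353.AN.LOW.Gsd
import Vale.Agent.P353.AN.SY.TyD
import Vale.Agent.P353.AN.SGN.Stmt

/-! # P353, all `N`, block LOW: ground state data of a type -/

open MeasureTheory Filter Topology
open scoped ContDiff

namespace Vale.Agent.P353.AN.LW

open Vale.Agent.P353.Z Vale.Agent.P353.Z.U Vale.Agent.P353.Z.AN Vale.Agent.P353.AN.G

variable {N d k : ℕ} {F : Type} [NormedAddCommGroup F] [InnerProductSpace ℂ F]

/-- **the types have ground state data** -/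
theorem gsdT (hfin : FiniteDimensional ℂ F) {M : BFSS.Model N d F} {S : Setup d F} {n : Fin k → ℕ} (t : ASY.TyD M S n)
    (hAct : ActStmt t.D.M') (hSgn : AS.SgnStmt.{0}) (hZms : AX2.ZmsStmt t.std.ss) (hOne : ∀ a, OneA.{0} 1 (t.D.fr.fb (n a))) :
    Gsd t.D.M' t.D.S' t.D.φ (spsw t.D.ψ) (Finset.univ.image t.l) (t.D.S'.UU t.D.φ t.E t.l) t.w0 (OmE t.D.S'.κ t.E t.l) := by
  obtain ⟨hw, hmem, hone⟩ := ASY.w0_mem t hZms
  refine gsd_of hAct t.dat.bun hw hone fun U hU η hη => ?_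
  exact (hSgn N d t.D.dh t.D.dm t.D.ds t.D.dz k n F hfin t.D.M' t.D.S' t.D.φ t.D.ψ t.D.fr t.z₀ t.std t.D.rep hOne t.t t.Kc t.E
    t.l t.rd U hU η hη).2 _ hmem

/-- the semisimple part has no centre -/
theorem lessT {M : BFSS.Model N d F} {S : Setup d F} {n : Fin k → ℕ} (t : ASY.TyD M S n) :
    Less t.D.S' t.D.φ (spsw t.D.ψ) := by
  intro v hv
  refine t.std.less v fun B C => ?_
  exact hv B C

/-- the `z` colours are central -/
theorem isZT {M : BFSS.Model N d F} {S : Setup d F} {n : Fin k → ℕ} (t : ASY.TyD M S n) :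
    IsZ t.D.S' t.D.φ (spsw t.D.ψ) := t.dat.cen

end Vale.Agent.P353.AN.LW
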