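import Vale.Agent.P353.AN.JN.Defs
import Vale.Agent.P353.Z.Tools
import Vale.Agent.P353.AN.H.WS7a
import Vale.Agent.P353.Z.U.ThmB2

/-! # P353, all `N`, block LOW: from one comparison family to the field `low` of `PW.Rep` (for any representatives) -/

open MeasureTheory Filter Topology
open scoped ContDiff

namespace Vale.Agent.P353.AN.LW

open Vale.Agent.P353.Z

variable {d : ℕ} {F : Type*} [NormedAddCommGroup F] [InnerProductSpace ℂ F]

/-- `J` represents the functional of the profile `a` up to `ε` -/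
def Repr {S : Setup d F} {ι : Type} (P : PW S ι) (i : ι) (a : P.D i) (ε : ℝ) (J : ℝ → Cfg d → F) : Prop :=
  (∀ᶠ R in atTop, S.GInv (J R)) ∧ ∀ (R : ℕ → ℝ) (u : ℕ → Cfg d → F) (A : ℝ), BdL S R u A →
    ∀ᶠ n in atTop, ‖ipr (J (R n)) (u n) - ipr (P.Z i (R n) a) (u n)‖ ≤ ε * Real.sqrt A

/-- comparison family for the ground state -/
def Cmp {S : Setup d F} {ι : Type} (P : PW S ι) (i : ι) : Prop := ∃ c₀ : ℝ, 0 < c₀ ∧ ∀ ε : ℝ, 0 < ε → ∃ g₂ : P.D i,
  ‖(g₂ : P.H i) - P.g i‖ ≤ ε ∧ ∃ f : ℝ → Cfg d → F, Repr P i g₂ ε f ∧ ∀ᶠ R in atTop, c₀ ≤ nsq (f R)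

/-- lower bound for all representatives of profiles close to the ground state -/
def LowAll {S : Setup d F} {ι : Type} (P : PW S ι) (i : ι) : Prop := ∃ c₀ ε₀ : ℝ, 0 < c₀ ∧ 0 < ε₀ ∧
  ∀ (a : P.D i), ‖(a : P.H i) - P.g i‖ ≤ ε₀ → ∀ ε : ℝ, 0 < ε → ε ≤ ε₀ → ∀ J : ℝ → Cfg d → F, Repr P i a ε J →
    ∀ᶠ R in atTop, c₀ ≤ nsq (J R)

open Vale.Agent.P353.Z.AH Vale.Agent.P353.Z.AJ in
lemma GInv_sub {S : Setup d F} {u v : Cfg d → F} (hu : S.GInv u) (hv : S.GInv v) : S.GInv (fun x => u x - v x) := by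
  have h : (fun x => u x - v x) = fun x => u x + ((-1 : ℂ)) • v x := by
    funext x
    rw [neg_one_smul, sub_eq_add_neg]
  rw [h]
  have hv' := GInv_csmul (S := S) (-1 : ℂ) hv
  refine ⟨hu.1.add hv'.1, fun C x => ?_⟩
  rw [U.HB.G_add S C hu.1.1 hv'.1.1, hu.2, hv'.2, add_zero]

open Vale.Agent.P353.Z.AH Vale.Agent.P353.Z.AJ in
lemma GInv_zero {S : Setup d F} : S.GInv (fun _ : Cfg d => (0 : F)) := by
  refine ⟨⟨contDiff_const, HasCompactSupport.zero⟩, fun C x => ?_⟩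
  simp [Setup.G, pd]

open Vale.Agent.P353.Z.AH Vale.Agent.P353.Z.AJ in
/-- **from one comparison family to all representatives** -/
theorem lowAll {S : Setup d F} {ι : Type} (P : PW S ι) (i : ι) (h : Cmp P i) : LowAll P i := by
  classical
  obtain ⟨c₀, hc₀, hcmp⟩ := h
  obtain ⟨C, hC, hub⟩ := P.ub i
  set σ : ℝ := Real.sqrt c₀ with hσ
  have hσ0 : 0 < σ := Real.sqrt_pos.2 hc₀
  set ε₀ : ℝ := σ / (4 * (C + 2)) with hε₀
  have hε₀0 : 0 < ε₀ := by positivity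
  have hεσ : (2 * C + 4) * ε₀ = σ / 2 := by
    rw [hε₀]
    field_simp
    ring
  obtain ⟨g₂, hg₂, f, ⟨hfI, hfR⟩, hfc⟩ := hcmp ε₀ hε₀0
  refine ⟨c₀ / 4, ε₀, by positivity, hε₀0, ?_⟩
  intro a ha ε hε hεε J ⟨hJI, hJR⟩
  -- closeness
  have key : ∀ᶠ R in atTop, Real.sqrt (nsq fun x => J R x - f R x) ≤ σ / 2 := by
    rw [eventually_iff_seq_eventually]
    intro R hR
    set D : ℕ → Cfg d → F := fun n x => J (R n) x - f (R n) x with hD
    set u : ℕ → Cfg d → F := fun n => if S.GInv (J (R n)) ∧ S.GInv (f (R n)) ∧ nsq (D n) ≠ 0 then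
      (fun x => (((Real.sqrt (nsq (D n)))⁻¹ : ℝ) : ℂ) • D n x) else fun _ => 0 with hu
    have hbd : BdL S R u 1 := by
      refine ⟨hR, fun n => ?_, fun n => ?_⟩
      · by_cases hn : S.GInv (J (R n)) ∧ S.GInv (f (R n)) ∧ nsq (D n) ≠ 0
        · simp only [hu, if_pos hn]
          exact GInv_csmul _ (GInv_sub hn.1 hn.2.1)
        · simp only [hu, if_neg hn]
          exact GInv_zero
      · by_cases hn : S.GInv (J (R n)) ∧ S.GInv (f (R n)) ∧ nsq (D n) ≠ 0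
        · simp only [hu, if_pos hn]
          have hp : 0 < nsq (D n) := lt_of_le_of_ne (nsq_nonneg _) (Ne.symm hn.2.2)
          rw [nsq_csmul, Complex.norm_real, Real.norm_eq_abs, abs_of_nonneg (inv_nonneg.2 (Real.sqrt_nonneg _)), inv_pow,
            Real.sq_sqrt hp.le, inv_mul_cancel₀ hn.2.2]
        · simp only [hu, if_neg hn]
          simp [nsq]
    have e1 := hJR R u 1 hbd
    have e2 := hfR R u 1 hbd
    have e3 := (Metric.tendsto_nhds.1 (P.Z_lin i g₂ a (-1) R u 1 hbd)) ε₀ hε₀0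
    have e4 := hub ((-1 : ℂ) • g₂ + a) R u 1 hbd ε₀ hε₀0
    filter_upwards [e1, e2, e3, e4, hR.eventually hJI, hR.eventually hfI] with n h1 h2 h3 h4 h5 h6
    by_cases h0 : nsq (D n) = 0
    · change Real.sqrt (nsq (D n)) ≤ σ / 2
      rw [h0, Real.sqrt_zero]
      positivity
    have hn : S.GInv (J (R n)) ∧ S.GInv (f (R n)) ∧ nsq (D n) ≠ 0 := ⟨h5, h6, h0⟩
    have hp : 0 < nsq (D n) := lt_of_le_of_ne (nsq_nonneg _) (Ne.symm h0)
    have hun : u n = fun x => (((Real.sqrt (nsq (D n)))⁻¹ : ℝ) : ℂ) • D n x := by simp only [hu, if_pos hn]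
    have hDI : S.GInv (D n) := GInv_sub h5 h6
    have huI : S.GInv (u n) := hbd.inv n
    -- pairing of D with u
    have q1 : ipr (J (R n)) (u n) - ipr (f (R n)) (u n) = ((Real.sqrt (nsq (D n)) : ℝ) : ℂ) := by
      have w1 : ipr (J (R n)) (u n) - ipr (f (R n)) (u n) = ipr (D n) (u n) := by
        unfold ipr
        rw [← integral_sub]
        · refine integral_congr_ae (Eventually.of_forall fun x => ?_)
          simp only [hD, inner_sub_left]
        · exact integrable_inner_memLp h5.1.memLp huI.1.memLp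
        · exact integrable_inner_memLp h6.1.memLp huI.1.memLp
      rw [w1, hun]
      have w2 : ipr (D n) (fun x => (((Real.sqrt (nsq (D n)))⁻¹ : ℝ) : ℂ) • D n x) =
          (((Real.sqrt (nsq (D n)))⁻¹ : ℝ) : ℂ) * ipr (D n) (D n) := by
        unfold ipr
        rw [← integral_const_mul]
        refine integral_congr_ae (Eventually.of_forall fun x => ?_)
        simp only [inner_smul_right]
      rw [w2, ipr_self, ← Complex.ofReal_mul]
      congr 1
      have hs : 0 < Real.sqrt (nsq (D n)) := Real.sqrt_pos.2 hp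
      rw [inv_mul_eq_div, div_eq_iff hs.ne', Real.mul_self_sqrt hp.le]
    have q2 : Real.sqrt (nsq (D n)) = ‖ipr (J (R n)) (u n) - ipr (f (R n)) (u n)‖ := by
      rw [q1, Complex.norm_real, Real.norm_eq_abs, abs_of_nonneg (Real.sqrt_nonneg _)]
    rw [Real.sqrt_one, mul_one] at h1 h2
    rw [Real.sqrt_one, mul_one] at h4
    rw [dist_zero_right, map_neg, map_one] at h3
    have h7 : ‖((((-1 : ℂ) • g₂ + a : P.D i)) : P.H i)‖ ≤ 2 * ε₀ := by
      have w : ((((-1 : ℂ) • g₂ + a : P.D i)) : P.H i) = ((a : P.H i) - P.g i) - ((g₂ : P.H i) - P.g i) := by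
        push_cast
        rw [neg_one_smul]
        abel
      rw [w]
      refine (norm_sub_le _ _).trans (by linarith)
    change Real.sqrt (nsq (D n)) ≤ σ / 2
    rw [q2, ← hεσ]
    have w3 : ipr (J (R n)) (u n) - ipr (f (R n)) (u n) =
        (ipr (J (R n)) (u n) - ipr (P.Z i (R n) a) (u n)) - (ipr (f (R n)) (u n) - ipr (P.Z i (R n) g₂) (u n)) -
        (ipr (P.Z i (R n) ((-1 : ℂ) • g₂ + a)) (u n) - (-1 * ipr (P.Z i (R n) g₂) (u n) + ipr (P.Z i (R n) a) (u n))) +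
        ipr (P.Z i (R n) ((-1 : ℂ) • g₂ + a)) (u n) := by ring
    rw [w3]
    have h8 : C * ‖((((-1 : ℂ) • g₂ + a : P.D i)) : P.H i)‖ ≤ C * (2 * ε₀) := mul_le_mul_of_nonneg_left h7 hC
    refine (norm_add_le _ _).trans ?_
    refine (add_le_add ((norm_sub_le _ _).trans (add_le_add (norm_sub_le _ _) le_rfl)) le_rfl).trans ?_
    linarith
  filter_upwards [key, hfc, hJI, hfI] with R k1 k2 k3 k4
  have hDI := GInv_sub k3 k4
  have t1 : σ ≤ Real.sqrt (nsq (f R)) := Real.sqrt_le_sqrt k2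
  have t2 : Real.sqrt (nsq (f R)) ≤ Real.sqrt (nsq (J R)) + Real.sqrt (nsq fun x => J R x - f R x) := by
    have a1 : ∀ {v : Cfg d → F} (hv : Setup.Tst v), Real.sqrt (nsq v) = ‖U.HB.toL hv‖ := by
      intro v hv
      rw [← toL_norm hv, Real.sqrt_sq (norm_nonneg _)]
    rw [a1 k3.1, a1 k4.1, a1 hDI.1]
    have a2 : U.HB.toL k4.1 = U.HB.toL k3.1 - U.HB.toL hDI.1 := by
      refine Lp.ext ?_
      filter_upwards [Lp.coeFn_sub (U.HB.toL k3.1) (U.HB.toL hDI.1), U.HB.coe_toL k4.1, U.HB.coe_toL k3.1,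
        U.HB.coe_toL hDI.1] with x b1 b2 b3 b4
      rw [b1, Pi.sub_apply, b2, b3, b4]
      abel
    rw [a2]
    exact norm_sub_le _ _
  have t3 : σ / 2 ≤ Real.sqrt (nsq (J R)) := by linarith
  have t4 : (σ / 2) ^ 2 ≤ nsq (J R) := by
    rw [← Real.sq_sqrt (nsq_nonneg (J R))]
    exact pow_le_pow_left₀ (by positivity) t3 2
  have t5 : (σ / 2) ^ 2 = c₀ / 4 := by
    rw [div_pow, hσ, Real.sq_sqrt hc₀.le]
    norm_num
  linarith

end Vale.Agent.P353.AN.LW
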