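import Vale.Agent.P353.AN.LOW.StmtH
import Vale.Agent.P353.Z.U.MAd

/-! # P353, all `N`, block LOW, LH5: adjoint action of exponentials (helper803) -/

open MeasureTheory Filter Topology
open scoped ContDiff

namespace Vale.Agent.P353.AN.LW

open Vale.Agent.P353.Z Vale.Agent.P353.Z.U Vale.Agent.P353.Z.AN Vale.Agent.P353.AN.G

variable {N d : ℕ} {F : Type*} [NormedAddCommGroup F] [InnerProductSpace ℂ F]

/-- **LH5 AdE** -/
theorem adE_stmt (M : BFSS.Model N d F) : AdEStmt M := by
  intro S hS U ξ hU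
  set h : Fin d → ℝ := fun A => ξ A with hh
  have hadm : S.adm ξ = S.adm h := rfl
  rw [hadm]
  set K : Matrix (Fin N) (Fin N) ℂ := ∑ A, ((h A : ℝ) : ℂ) • M.T A with hK
  have hKU : NormedSpace.exp (Complex.I • K) = U.val := hU.symm
  have hKh : K.conjTranspose = K := by
    rw [hK, Matrix.conjTranspose_sum]
    refine Finset.sum_congr rfl fun A _ => ?_
    rw [Matrix.conjTranspose_smul, M.T_hermitian, Complex.star_def, Complex.conj_ofReal]
  have hD : ∀ C, (Complex.I • K) * M.T C - M.T C * (Complex.I • K) =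
      ∑ B, ((((-1 : ℝ) • S.adm h) B C : ℝ) : ℂ) • M.T B := by
    intro C
    have e1 : (Complex.I • K) * M.T C - M.T C * (Complex.I • K) =
        Complex.I • ∑ A, ((h A : ℝ) : ℂ) • (M.T A * M.T C - M.T C * M.T A) := by
      rw [Matrix.smul_mul, Matrix.mul_smul, ← smul_sub, hK, Matrix.sum_mul,
        Matrix.mul_sum, ← Finset.sum_sub_distrib]
      congr 1
      refine Finset.sum_congr rfl fun A _ => ?_
      rw [Matrix.smul_mul, Matrix.mul_smul, smul_sub]
    rw [e1, Finset.smul_sum]
    have e2 : ∀ A, Complex.I • ((h A : ℝ) : ℂ) • (M.T A * M.T C - M.T C * M.T A) =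
        ∑ B, ((-(h A * M.f A C B) : ℝ) : ℂ) • M.T B := by
      intro A
      rw [M.T_comm, Finset.smul_sum, Finset.smul_sum]
      refine Finset.sum_congr rfl fun B _ => ?_
      rw [smul_smul, smul_smul]
      congr 1
      push_cast
      linear_combination ((h A : ℂ) * (M.f A C B : ℂ)) * Complex.I_mul_I
    rw [Finset.sum_congr rfl fun A _ => e2 A, Finset.sum_comm]
    refine Finset.sum_congr rfl fun B _ => ?_
    rw [← Finset.sum_smul, ← Complex.ofReal_sum]
    congr 2
    simp only [Setup.adm, Matrix.smul_apply, Matrix.of_apply, smul_eq_mul, Finset.mul_sum]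
    refine Finset.sum_congr rfl fun A _ => ?_
    rw [S.f_cyc B A C, hS.hf]
    ring
  have hconj := mad_conj M.T (Complex.I • K) ((-1 : ℝ) • S.adm h) hD
  have hUstar : U.val.conjTranspose = NormedSpace.exp (-(Complex.I • K)) := by
    rw [← hKU, ← Matrix.exp_conjTranspose, Matrix.conjTranspose_smul, hKh]
    simp
  ext B A
  rw [Matrix.of_apply]
  unfold BFSS.adCoeff
  rw [hUstar]
  conv_lhs => rw [← hKU]
  rw [hconj A, Matrix.mul_sum, Matrix.trace_sum, Finset.sum_eq_single B]
  · rw [Matrix.mul_smul, Matrix.trace_smul, M.T_orthonormal, if_pos rfl]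
    simp
  · intro C _ hC
    rw [Matrix.mul_smul, Matrix.trace_smul, M.T_orthonormal, if_neg (Ne.symm hC), smul_zero]
  · simp

end Vale.Agent.P353.AN.LW
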