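import Vale.Agent.P353.AN.LOW.HAll
import Vale.Agent.P353.AN.LOW.Pos
import Vale.Agent.P353.AN.LOW.Scl
import Vale.Agent.P353.AN.LOW.Vol
import Vale.Agent.P353.AN.LOW.Avb
import Vale.Agent.P353.AN.LOW.Core
import Vale.Agent.P353.AN.LOW.Mol
import Vale.Agent.P353.AN.LOW.Nrm
import Vale.Agent.P353.AN.LOW.Chi
import Vale.Agent.P353.AN.LOW.Out
import Vale.Agent.P353.AN.G.Act
import Vale.Agent.P353.AN.F.Cut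

/-! # P353, all `N`, block LOW: unconditional output LOW9 (helper847) -/

open MeasureTheory Filter Topology
open scoped ContDiff

namespace Vale.Agent.P353.AN.LW.AllB

open Vale.Agent.P353.Z Vale.Agent.P353.Z.U Vale.Agent.P353.Z.AN Vale.Agent.P353.AN.G

variable {N d dh dm r ds : ℕ} {F : Type*} [NormedAddCommGroup F] [InnerProductSpace ℂ F]

/-- LOW5, unconditional -/
theorem coreAll [FiniteDimensional ℂ F] (M : BFSS.Model N d F) (S : Setup d F) (hM : Rep M S) (φ : Spl dh dm d) (ψ : Spz r ds dh)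
    (hφ : S.IsSub φ) (hψ : IsZ S φ ψ) (hl : Less S φ ψ) :
    ∀ (z₀ : Cfg r) (r₁ : ℝ), 0 < r₁ → ∃ c : ℝ, 0 < c ∧
    ∀ (K : Set (Cfg r × Cfg ds)) (Om : Cfg r × Cfg ds → F), Dir M φ ψ K Om → (∀ q ∈ K, q.1 ∈ Reg S φ ψ) →
    ∀ β : Cfg r × Cfg ds × Cfg dm → ℝ, Continuous β → HasCompactSupport β → (∀ q, 0 ≤ β q) →
      (∀ q, β q ≠ 0 → (q.1, q.2.1) ∈ K) → Continuous (fun q : Cfg r × Cfg ds × Cfg dm => ((β q : ℝ) : ℂ) • Om (q.1, q.2.1)) →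
      ∃ R₀ : ℝ, 1 ≤ R₀ ∧ ∀ R : ℝ, R₀ ≤ R →
        c * (∫ q in bx ds dm z₀ r₁, β q ∂(v3 r ds dm)) ^ 2 ≤
          nsq (avg M (Zb φ ψ (fun q => ((β q : ℝ) : ℂ) • Om (q.1, q.2.1)) R)) :=
  core M S φ ψ inferInstance hM hφ hψ hl (act_stmt M) (H.geo M) (H.good M) (H.goodA M) (pos M S φ ψ) (vol M S φ ψ) scl (avb M)

/-- LOW9, unconditional -/
theorem outAll [FiniteDimensional ℂ F] (M : BFSS.Model N d F) (S : Setup d F) (hM : Rep M S) (φ : Spl dh dm d) (ψ : Spz r ds dh)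
    (hφ : S.IsSub φ) (hψ : IsZ S φ ψ) (hl : Less S φ ψ)
    (Lc : Finset (Fin r → ℝ)) (V : Cfg r → F →L[ℂ] F) (w₀ : Cfg ds → F) (Ωm : Cfg r → Matrix (Fin dm) (Fin dm) ℝ)
    (hG : Gsd M S φ ψ Lc V w₀ Ωm) (z₀ : Cfg r) (hz : z₀ ∉ Coll Lc) :
    ∃ c₀ : ℝ, 0 < c₀ ∧ ∀ ε : ℝ, 0 < ε → ∃ χ : Cfg r → ℝ, ContDiff ℝ ∞ χ ∧ HasCompactSupport χ ∧ Disjoint (tsupport χ) (Coll Lc) ∧
      (∀ η, 0 ≤ χ η ∧ χ η ≤ 1) ∧ (∫ η : Cfg r, (1 - χ η) ^ 2 * gss η ^ 2) ≤ ε ∧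
      ∀ ε' : ℝ, 0 < ε' → ∃ b : Cfg r × Cfg ds × Cfg dm → F, Continuous b ∧ HasCompactSupport b ∧
        (∀ q, b q ≠ 0 → q.1 ∈ tsupport χ) ∧
        eLpNorm (fun q => b q - bG S.κ Ωm (fun η s => ((χ η * gss η : ℝ) : ℂ) • V η (w₀ s)) q) 2 (wM r ds dm) ≤ ENNReal.ofReal ε' ∧
        ∃ R₀ : ℝ, 1 ≤ R₀ ∧ ∀ R : ℝ, R₀ ≤ R → c₀ ≤ nsq (avg M (Zb φ ψ b R)) :=
  out M S φ ψ inferInstance (coreAll M S hM φ ψ hφ hψ hl) Lc V w₀ Ωm hG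
    (mol M S φ ψ inferInstance hM (act_stmt M) Lc V w₀ Ωm hG) nrm (chi r) (AF.cut r) z₀ hz

end Vale.Agent.P353.AN.LW.AllB
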