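import Vale.Agent.P353.AN.LOW.StmtH
import Vale.Agent.P353.AN.F.Stmt

/-! # P353, all `N`, block LOW: lower bound for Haar averages of the trial functions — definitions (helper858)

`x ∈ Cfg d` in coordinates `(x^z, x^s, x^m)`; scaled coordinates `sc R x = (x^z/R, x^s, √R x^m)`, so `Zb φ ψ b R x = R^{3dm-9r/2} b(sc R x)`. -/

open MeasureTheory Filter Topology
open scoped ContDiff

namespace Vale.Agent.P353.AN.LW

open Vale.Agent.P353.Z Vale.Agent.P353.Z.U Vale.Agent.P353.Z.AN Vale.Agent.P353.AN.G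

variable {N d dh dm r ds : ℕ} {F : Type*} [NormedAddCommGroup F] [InnerProductSpace ℂ F]

/-- the point of `Cfg d` with coordinates `η ∈ z^9`, `s ∈ s^9` and no `m`-part -/
noncomputable def ezs (φ : Spl dh dm d) (ψ : Spz r ds dh) (η : Cfg r) (s : Cfg ds) : Cfg d := emb φ (cmb ψ η s) 0

/-- scaled coordinates -/
noncomputable def sc (φ : Spl dh dm d) (ψ : Spz r ds dh) (R : ℝ) (x : Cfg d) : Cfg r × Cfg ds × Cfg dm :=
  (R⁻¹ • hz ψ (zy φ x), hs ψ (zy φ x), Real.sqrt R • pm φ x)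

/-- product Lebesgue measure -/
noncomputable def v3 (r ds dm : ℕ) : Measure (Cfg r × Cfg ds × Cfg dm) :=
  (volume : Measure (Cfg r)).prod ((volume : Measure (Cfg ds)).prod (volume : Measure (Cfg dm)))

/-- the box in scaled coordinates -/
def bx (ds dm : ℕ) (z₀ : Cfg r) (r₁ : ℝ) : Set (Cfg r × Cfg ds × Cfg dm) :=
  {q | ‖q.1 - z₀‖ ≤ r₁ ∧ ‖q.2.1‖ ≤ r₁ ∧ ‖q.2.2‖ ≤ r₁}

/-- the orbit of the box at scale `R` -/
def GB (M : BFSS.Model N d F) (φ : Spl dh dm d) (ψ : Spz r ds dh) (z₀ : Cfg r) (r₁ R : ℝ) : Set (Cfg d) :=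
  {x | ∃ U, sc φ ψ R (M.act U x) ∈ bx ds dm z₀ r₁}

/-- covariant direction field on the compact set `K` -/
structure Dir (M : BFSS.Model N d F) (φ : Spl dh dm d) (ψ : Spz r ds dh) (K : Set (Cfg r × Cfg ds))
    (Om : Cfg r × Cfg ds → F) : Prop where
  cpt : IsCompact K
  cont : ContinuousOn Om K
  unit : ∀ q ∈ K, ‖Om q‖ = 1
  cov : ∀ U, Nrm M φ ψ U → ∀ q ∈ K, ∀ q' ∈ K, M.act U (ezs φ ψ q.1 q.2) = ezs φ ψ q'.1 q'.2 → M.S U (Om q) = Om q'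

/-- ground state data on the stratum: `Lc` = roots, `V(η)` = bundle unitaries, `w₀` = internal ground state (values in `F`), `Ωm(η)` = frequency matrices; `cov` =
covariance under the normaliser (block SGN, helper679) -/
structure Gsd (M : BFSS.Model N d F) (S : Setup d F) (φ : Spl dh dm d) (ψ : Spz r ds dh) (Lc : Finset (Fin r → ℝ))
    (V : Cfg r → F →L[ℂ] F) (w₀ : Cfg ds → F) (Ωm : Cfg r → Matrix (Fin dm) (Fin dm) ℝ) : Prop where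
  ne : ∀ l ∈ Lc, l ≠ 0
  closed : IsClosed (Coll Lc)
  reg : ∀ η, η ∉ Coll Lc → η ∈ Reg S φ ψ
  V_iso : ∀ η v, ‖V η v‖ = ‖v‖
  V_cont : ContinuousOn V (Coll Lc)ᶜ
  V_surj : ∀ η v, ∃ u, V η u = v
  om_sym : ∀ η, η ∉ Coll Lc → (Ωm η).transpose = Ωm η ∧ ∀ u : Fin dm → ℝ, u ≠ 0 → 0 < u ⬝ᵥ ((Ωm η).mulVec u)
  om_cont : ContinuousOn Ωm (Coll Lc)ᶜ
  w_mem : MemLp w₀ 2 (volume : Measure (Cfg ds))
  w_one : ∫ s, ‖w₀ s‖ ^ 2 = 1
  cov : ∀ U, Nrm M φ ψ U → ∀ η η', η ∉ Coll Lc → η' ∉ Coll Lc → M.act U (ezs φ ψ η 0) = ezs φ ψ η' 0 →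
    ∀ᵐ s : Cfg ds, M.S U (V η (w₀ s)) = V η' (w₀ (hs ψ (zy φ (M.act U (ezs φ ψ 0 s)))))

end Vale.Agent.P353.AN.LW
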