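import Vale.Agent.P353.AN.LOW.StmtH
import Vale.Agent.P353.AN.G.ExpH

/-! # P353, all `N`, block LOW, LH2: the exponential is bi-Lipschitz near `0` (helper584) -/

open MeasureTheory Filter Topology
open scoped ContDiff

namespace Vale.Agent.P353.AN.LW

open Vale.Agent.P353.Z Vale.Agent.P353.Z.U Vale.Agent.P353.Z.AN Vale.Agent.P353.AN.G

namespace ExpLip

variable {N d : ℕ} {F : Type*} [NormedAddCommGroup F] [InnerProductSpace ℂ F]

/-- `∑ξ_AT_A` is Hermitian -/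
lemma herm (M : BFSS.Model N d F) (ξ : EuclideanSpace ℝ (Fin d)) :
    (∑ A, (ξ A : ℂ) • M.T A).conjTranspose = ∑ A, (ξ A : ℂ) • M.T A := by
  rw [Matrix.conjTranspose_sum]
  refine Finset.sum_congr rfl fun A _ => ?_
  rw [Matrix.conjTranspose_smul, M.T_hermitian, RCLike.star_def, Complex.conj_ofReal]

/-- `∑ξ_AT_A` is traceless -/
lemma trless (M : BFSS.Model N d F) (ξ : EuclideanSpace ℝ (Fin d)) :
    (∑ A, (ξ A : ℂ) • M.T A).trace = 0 := by
  rw [Matrix.trace_sum]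
  refine Finset.sum_eq_zero fun A _ => ?_
  rw [Matrix.trace_smul, M.T_traceless, smul_zero]

lemma mem (M : BFSS.Model N d F) (ξ : EuclideanSpace ℝ (Fin d)) :
    eT M ξ ∈ Matrix.specialUnitaryGroup (Fin N) ℂ := by
  rcases Nat.eq_zero_or_pos N with hN | hN
  · subst hN
    have : eT M ξ = 1 := Subsingleton.elim _ _
    rw [this]
    exact one_mem _
  · obtain ⟨U, x, hUx⟩ := mg_diag hN _ (herm M ξ) (trless M ξ)
    have h : eT M ξ = (U * mgtor x * U⁻¹ : Matrix.specialUnitaryGroup (Fin N) ℂ).val := by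
      rw [eT, ← hUx, exh_tor]
      rfl
    rw [h]
    exact (U * mgtor x * U⁻¹).2

/-- `fn` is homogeneous of the isometry `ξ ↦ ∑ξ_AT_A` -/
lemma fn_sq (X : Matrix (Fin N) (Fin N) ℂ) :
    ((fn X ^ 2 : ℝ) : ℂ) = (X.conjTranspose * X).trace := by
  rw [fn, Real.sq_sqrt (Finset.sum_nonneg fun j _ => Finset.sum_nonneg fun k _ => sq_nonneg _)]
  rw [Matrix.trace, Finset.sum_comm]
  push_cast
  refine Finset.sum_congr rfl fun k _ => ?_
  rw [Matrix.diag_apply, Matrix.mul_apply]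
  refine Finset.sum_congr rfl fun j _ => ?_
  rw [Matrix.conjTranspose_apply, Complex.star_def, Complex.conj_mul']

lemma fn_lin (M : BFSS.Model N d F) (ξ : EuclideanSpace ℝ (Fin d)) :
    fn (Complex.I • ∑ A, (ξ A : ℂ) • M.T A) = ‖ξ‖ := by
  have h1 : fn (Complex.I • ∑ A, (ξ A : ℂ) • M.T A) ^ 2 = ‖ξ‖ ^ 2 := by
    have h2 := fn_sq (Complex.I • ∑ A, (ξ A : ℂ) • M.T A)
    rw [Matrix.conjTranspose_smul, herm, Matrix.smul_mul, Matrix.mul_smul, smul_smul,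
      Matrix.trace_smul, Matrix.sum_mul, Matrix.trace_sum] at h2
    have h3 : ∀ A, (((ξ A : ℂ) • M.T A) * ∑ B, (ξ B : ℂ) • M.T B).trace = ((ξ A ^ 2 : ℝ) : ℂ) := by
      intro A
      rw [Matrix.mul_sum, Matrix.trace_sum, Finset.sum_eq_single A]
      · rw [Matrix.smul_mul, Matrix.mul_smul, Matrix.trace_smul, Matrix.trace_smul,
          M.T_orthonormal, if_pos rfl]
        push_cast
        simp [sq]
      · intro B _ hB
        rw [Matrix.smul_mul, Matrix.mul_smul, Matrix.trace_smul, Matrix.trace_smul,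
          M.T_orthonormal, if_neg (Ne.symm hB)]
        simp
      · simp
    rw [Finset.sum_congr rfl fun A _ => h3 A, ← Complex.ofReal_sum] at h2
    have h4 : star Complex.I * Complex.I = 1 := by
      rw [Complex.star_def, Complex.conj_I]
      linear_combination -Complex.I_mul_I
    rw [h4, one_smul] at h2
    have h5 := Complex.ofReal_injective h2
    rw [h5, EuclideanSpace.norm_sq_eq]
    refine Finset.sum_congr rfl fun A _ => ?_
    rw [Real.norm_eq_abs, sq_abs]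
  have h6 : 0 ≤ fn (Complex.I • ∑ A, (ξ A : ℂ) • M.T A) := Real.sqrt_nonneg _
  exact (pow_left_inj₀ h6 (norm_nonneg _) two_ne_zero).1 h1

section Fr

open scoped Matrix.Norms.Frobenius

lemma fn_norm (X : Matrix (Fin N) (Fin N) ℂ) : fn X = ‖X‖ := by
  rw [fn, Matrix.frobenius_norm_def, Real.sqrt_eq_rpow]
  simp only [Real.rpow_two]

/-- the linear map `ξ ↦ i∑ξ_AT_A` -/
noncomputable def lin (M : BFSS.Model N d F) : EuclideanSpace ℝ (Fin d) →ₗᵢ[ℝ] Matrix (Fin N) (Fin N) ℂ where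
  toFun ξ := Complex.I • ∑ A, (ξ A : ℂ) • M.T A
  map_add' := fun ξ ζ => by
    simp only [PiLp.add_apply, Complex.ofReal_add, add_smul, Finset.sum_add_distrib, smul_add]
  map_smul' := fun c ξ => by
    simp only [PiLp.smul_apply, smul_eq_mul, Complex.ofReal_mul, mul_smul, Finset.smul_sum,
      RingHom.id_apply]
    refine Finset.sum_congr rfl fun A _ => ?_
    rw [smul_comm Complex.I (c : ℂ)]
    rfl
  norm_map' := fun ξ => by
    rw [← fn_norm]
    exact fn_lin M ξ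

lemma eT_eq (M : BFSS.Model N d F) (ξ : EuclideanSpace ℝ (Fin d)) :
    eT M ξ = NormedSpace.exp (lin M ξ) := rfl

lemma cont (M : BFSS.Model N d F) : Continuous (eT M) := by
  have h : eT M = fun ξ => NormedSpace.exp (lin M ξ) := rfl
  rw [h]
  exact NormedSpace.exp_continuous.comp (lin M).continuous

lemma bilip (M : BFSS.Model N d F) : ∃ ρ c C : ℝ, 0 < ρ ∧ 0 < c ∧ 0 < C ∧ ∀ ξ ζ, ‖ξ‖ ≤ ρ → ‖ζ‖ ≤ ρ →
    c * ‖ξ - ζ‖ ≤ fn (eT M ξ - eT M ζ) ∧ fn (eT M ξ - eT M ζ) ≤ C * ‖ξ - ζ‖ := by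
  have h0 : HasStrictFDerivAt (NormedSpace.exp : Matrix (Fin N) (Fin N) ℂ → _)
      (1 : Matrix (Fin N) (Fin N) ℂ →L[ℝ] Matrix (Fin N) (Fin N) ℂ) 0 := hasStrictFDerivAt_exp_zero
  obtain ⟨s, hs, happ⟩ := h0.approximates_deriv_on_nhds (c := 1 / 2) (Or.inr (by norm_num))
  obtain ⟨ε, hε, hball⟩ := Metric.mem_nhds_iff.1 hs
  refine ⟨ε / 2, 1 / 2, 3 / 2, by positivity, by norm_num, by norm_num, fun ξ ζ hξ hζ => ?_⟩
  have hm : ∀ ξ : EuclideanSpace ℝ (Fin d), ‖ξ‖ ≤ ε / 2 → lin M ξ ∈ s := by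
    intro ξ h
    apply hball
    rw [mem_ball_zero_iff, (lin M).norm_map]
    linarith
  have h1 : ‖NormedSpace.exp (lin M ξ) - NormedSpace.exp (lin M ζ) - (lin M ξ - lin M ζ)‖ ≤
      ((1 / 2 : NNReal) : ℝ) * ‖lin M ξ - lin M ζ‖ :=
    happ (lin M ξ) (hm ξ hξ) (lin M ζ) (hm ζ hζ)
  rw [← map_sub, (lin M).norm_map] at h1
  have h1' : ‖eT M ξ - eT M ζ - lin M (ξ - ζ)‖ ≤ 1 / 2 * ‖ξ - ζ‖ := by
    refine le_trans h1 (le_of_eq ?_)
    norm_num
  rw [fn_norm]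
  have h2 : ‖lin M (ξ - ζ)‖ = ‖ξ - ζ‖ := (lin M).norm_map _
  have h3 := norm_sub_norm_le (eT M ξ - eT M ζ) (lin M (ξ - ζ))
  have h4 := norm_sub_norm_le (lin M (ξ - ζ)) (eT M ξ - eT M ζ)
  rw [norm_sub_rev (lin M (ξ - ζ))] at h4
  constructor <;> linarith

end Fr

end ExpLip

variable {N d : ℕ} {F : Type*} [NormedAddCommGroup F] [InnerProductSpace ℂ F]

/-- **LH2 ExpLip** -/
theorem expLip_stmt (M : BFSS.Model N d F) : ExpLipStmt M := by
  refine ⟨ExpLip.mem M, ExpLip.cont M, ?_, ExpLip.bilip M⟩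
  have h : (Complex.I • ∑ A, (((0 : EuclideanSpace ℝ (Fin d)) A : ℝ) : ℂ) • M.T A) = 0 := by
    simp
  rw [eT, h, NormedSpace.exp_zero]

end Vale.Agent.P353.AN.LW
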