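import Vale.Agent.P353.AN.LOW.StmtH
import Vale.Agent.P353.AN.G.Act

/-! # P353, all `N`, block LOW, LH8: geometry near the normaliser -/

open MeasureTheory Filter Topology
open scoped ContDiff

namespace Vale.Agent.P353.AN.LW

open Vale.Agent.P353.Z Vale.Agent.P353.Z.U Vale.Agent.P353.Z.AN Vale.Agent.P353.AN.G

namespace Geo

variable {N d dh dm r ds : ℕ} {F : Type*} [NormedAddCommGroup F] [InnerProductSpace ℂ F]

/-! ### operators on configurations -/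

/-- `ro O` as a linear map -/
noncomputable def roL (O : Matrix (Fin d) (Fin d) ℝ) : Cfg d →ₗ[ℝ] Cfg d where
  toFun := ro O
  map_add' x y := by
    ext p
    rw [grp_ro_apply]
    change _ = ro O x p + ro O y p
    rw [grp_ro_apply, grp_ro_apply, ← Finset.sum_add_distrib]
    refine Finset.sum_congr rfl fun B _ => ?_
    change O p.2 B * (x (p.1, B) + y (p.1, B)) = _
    ring
  map_smul' c x := by
    ext p
    rw [grp_ro_apply]
    change _ = c * ro O x p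
    rw [grp_ro_apply, Finset.mul_sum]
    refine Finset.sum_congr rfl fun B _ => ?_
    change O p.2 B * (c * x (p.1, B)) = _
    ring

/-- `ro` as an algebra homomorphism -/
noncomputable def roA (d : ℕ) : Matrix (Fin d) (Fin d) ℝ →ₐ[ℝ] (Cfg d →L[ℝ] Cfg d) :=
  AlgHom.ofLinearMap
    { toFun := fun O => LinearMap.toContinuousLinearMap (roL O)
      map_add' := by
        intro O O'
        ext x p
        change ro (O + O') x p = ro O x p + ro O' x p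
        rw [grp_ro_apply, grp_ro_apply, grp_ro_apply, ← Finset.sum_add_distrib]
        refine Finset.sum_congr rfl fun B _ => ?_
        rw [Matrix.add_apply]
        ring
      map_smul' := by
        intro c O
        ext x p
        change ro (c • O) x p = c * ro O x p
        rw [grp_ro_apply, grp_ro_apply, Finset.mul_sum]
        refine Finset.sum_congr rfl fun B _ => ?_
        rw [Matrix.smul_apply, smul_eq_mul]
        ring }
    (by
      ext x p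
      change ro 1 x p = x p
      rw [grp_ro_one])
    (by
      intro O O'
      ext x p
      change ro (O * O') x p = ro O (ro O' x) p
      rw [grp_ro_mul])

lemma roA_apply (O : Matrix (Fin d) (Fin d) ℝ) (x : Cfg d) : roA d O x = ro O x := rfl

section

open scoped Matrix.Norms.Operator

lemma roA_exp (O : Matrix (Fin d) (Fin d) ℝ) :
    roA d (NormedSpace.exp O) = NormedSpace.exp (roA d O) := by
  have hc : Continuous (roA d) := (roA d).toLinearMap.continuous_of_finiteDimensional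
  exact NormedSpace.map_exp_of_mem_ball (𝕂 := ℝ) (roA d) hc O
    ((NormedSpace.expSeries_radius_eq_top ℝ (Matrix (Fin d) (Fin d) ℝ)).symm ▸ edist_lt_top _ _)

end

/-- `-ad ξ` -/
noncomputable def Lad (S : Setup d F) : EuclideanSpace ℝ (Fin d) →ₗ[ℝ] (Cfg d →L[ℝ] Cfg d) where
  toFun ξ := roA d ((-1 : ℝ) • S.adm ξ)
  map_add' ξ ζ := by
    rw [← map_add, ← smul_add]
    congr 2
    ext A C
    simp only [Setup.adm, Matrix.of_apply, Matrix.add_apply]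
    rw [← Finset.sum_add_distrib]
    refine Finset.sum_congr rfl fun B _ => ?_
    change S.f A B C * (ξ B + ζ B) = _
    ring
  map_smul' c ξ := by
    rw [RingHom.id_apply, ← map_smul, smul_comm]
    congr 2
    ext A C
    simp only [Setup.adm, Matrix.of_apply, Matrix.smul_apply, smul_eq_mul]
    rw [Finset.mul_sum]
    refine Finset.sum_congr rfl fun B _ => ?_
    change S.f A B C * (c * ξ B) = _
    ring

lemma Lad_apply (S : Setup d F) (ξ : EuclideanSpace ℝ (Fin d)) (x : Cfg d) (p : Fin 9 × Fin d) :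
    Lad S ξ x p = -∑ B, ∑ C, S.f p.2 C B * ξ C * x (p.1, B) := by
  change ro ((-1 : ℝ) • S.adm ξ) x p = _
  rw [grp_ro_apply, ← Finset.sum_neg_distrib]
  refine Finset.sum_congr rfl fun B _ => ?_
  simp only [Setup.adm, Matrix.of_apply, Matrix.smul_apply, smul_eq_mul]
  rw [neg_one_mul, neg_mul, Finset.sum_mul]

lemma Lad_bd (S : Setup d F) : ∃ K : ℝ, 0 < K ∧ ∀ ξ, ‖Lad S ξ‖ ≤ K * ‖ξ‖ := by
  refine ⟨‖LinearMap.toContinuousLinearMap (Lad S)‖ + 1, by positivity, fun ξ => ?_⟩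
  have h := (LinearMap.toContinuousLinearMap (Lad S)).le_opNorm ξ
  have h0 := norm_nonneg ξ
  have h1 : ‖Lad S ξ‖ ≤ ‖LinearMap.toContinuousLinearMap (Lad S)‖ * ‖ξ‖ := h
  nlinarith

/-! ### blocks -/

/-- indicator of `m` -/
noncomputable def mI (φ : Spl dh dm d) (A : Fin d) : ℝ := Sum.elim (fun _ => 0) (fun _ => 1) (φ.symm A)

@[simp] lemma mI_inl (φ : Spl dh dm d) (A : Fin dh) : mI φ (φ (Sum.inl A)) = 0 := by simp [mI]

@[simp] lemma mI_inr (φ : Spl dh dm d) (A : Fin dm) : mI φ (φ (Sum.inr A)) = 1 := by simp [mI]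

@[simp] lemma bl_z (φ : Spl dh dm d) (ψ : Spz r ds dh) (a : Fin r) :
    bl φ ψ (φ (Sum.inl (ψ (Sum.inl a)))) = 0 := by simp [bl]

@[simp] lemma bl_s (φ : Spl dh dm d) (ψ : Spz r ds dh) (a : Fin ds) :
    bl φ ψ (φ (Sum.inl (ψ (Sum.inr a)))) = 1 := by simp [bl]

@[simp] lemma bl_m (φ : Spl dh dm d) (ψ : Spz r ds dh) (a : Fin dm) :
    bl φ ψ (φ (Sum.inr a)) = 2 := by simp [bl]

/-- block diagonal matrices -/
def BD (φ : Spl dh dm d) (ψ : Spz r ds dh) (O : Matrix (Fin d) (Fin d) ℝ) : Prop :=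
  ∀ A B, bl φ ψ A ≠ bl φ ψ B → O A B = 0

lemma BD_mul {φ : Spl dh dm d} {ψ : Spz r ds dh} {O O' : Matrix (Fin d) (Fin d) ℝ}
    (h : BD φ ψ O) (h' : BD φ ψ O') : BD φ ψ (O * O') := by
  intro A B hAB
  rw [Matrix.mul_apply]
  refine Finset.sum_eq_zero fun C _ => ?_
  by_cases h1 : bl φ ψ A = bl φ ψ C
  · rw [h' C B (by rw [← h1]; exact hAB), mul_zero]
  · rw [h A C h1, zero_mul]

lemma BD_comm {φ : Spl dh dm d} {ψ : Spz r ds dh} {O : Matrix (Fin d) (Fin d) ℝ}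
    (h : BD φ ψ O) (e : Fin 3 → ℝ) :
    Commute (Matrix.diagonal fun A => e (bl φ ψ A)) O := by
  change _ * _ = _ * _
  ext A B
  rw [Matrix.diagonal_mul, Matrix.mul_diagonal]
  by_cases h1 : bl φ ψ A = bl φ ψ B
  · rw [h1, mul_comm]
  · rw [h A B h1]
    ring

lemma BD_exp {φ : Spl dh dm d} {ψ : Spz r ds dh} {O : Matrix (Fin d) (Fin d) ℝ}
    (h : BD φ ψ O) : BD φ ψ (NormedSpace.exp O) := by
  intro A B hAB
  have h1 := (BD_comm h fun k => if k = bl φ ψ A then 1 else 0).exp_right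
  have h2 := congrFun (congrFun h1.eq A) B
  rw [Matrix.diagonal_mul, Matrix.mul_diagonal] at h2
  rw [if_pos rfl, if_neg (Ne.symm hAB)] at h2
  linarith

lemma mI_bl (φ : Spl dh dm d) (ψ : Spz r ds dh) (A : Fin d) :
    mI φ A = (fun k : Fin 3 => if k = 2 then (1 : ℝ) else 0) (bl φ ψ A) := by
  obtain ⟨A, rfl⟩ := φ.surjective A
  rcases A with A | A
  · obtain ⟨A, rfl⟩ := ψ.surjective A
    rcases A with A | A <;> simp
  · simp

/-- projector on `m` -/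
noncomputable def Em (φ : Spl dh dm d) : Cfg d →L[ℝ] Cfg d := roA d (Matrix.diagonal (mI φ))

lemma Em_apply (φ : Spl dh dm d) (x : Cfg d) (p : Fin 9 × Fin d) : Em φ x p = mI φ p.2 * x p := by
  change ro (Matrix.diagonal (mI φ)) x p = _
  rw [grp_ro_apply, Finset.sum_eq_single p.2]
  · rw [Matrix.diagonal_apply_eq]
  · intro B _ hB
    rw [Matrix.diagonal_apply_ne _ (Ne.symm hB), zero_mul]
  · intro h; exact absurd (Finset.mem_univ _) h

lemma Em_comm {φ : Spl dh dm d} {ψ : Spz r ds dh} {O : Matrix (Fin d) (Fin d) ℝ}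
    (h : BD φ ψ O) : Commute (Em φ) (roA d O) := by
  have h1 := BD_comm h fun k => if k = 2 then 1 else 0
  have h2 : (Matrix.diagonal fun A => (fun k : Fin 3 => if k = 2 then (1 : ℝ) else 0) (bl φ ψ A)) =
      Matrix.diagonal (mI φ) := by
    congr 1
    funext A
    exact (mI_bl φ ψ A).symm
  rw [h2] at h1
  exact h1.map (roA d)

lemma Em_Em (φ : Spl dh dm d) (x : Cfg d) : Em φ (Em φ x) = Em φ x := by
  ext p
  rw [Em_apply, Em_apply]
  obtain ⟨A, hA⟩ := φ.surjective p.2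
  rw [← hA]
  rcases A with A | A <;> simp

lemma norm_split (φ : Spl dh dm d) (ψ : Spz r ds dh) (w : Cfg d) :
    ‖w‖ ^ 2 = ‖hz ψ (zy φ w)‖ ^ 2 + ‖hs ψ (zy φ w)‖ ^ 2 + ‖pm φ w‖ ^ 2 := by
  simp only [EuclideanSpace.real_norm_sq_eq, Fintype.sum_prod_type]
  rw [← Finset.sum_add_distrib, ← Finset.sum_add_distrib]
  refine Finset.sum_congr rfl fun i _ => ?_
  rw [← φ.sum_comp, Fintype.sum_sum_type, ← ψ.sum_comp, Fintype.sum_sum_type]
  rfl

lemma pm_Em (φ : Spl dh dm d) (x : Cfg d) : pm φ (Em φ x) = pm φ x := by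
  ext p
  change Em φ x (p.1, φ (Sum.inr p.2)) = x (p.1, φ (Sum.inr p.2))
  rw [Em_apply]
  simp

lemma zy_Em (φ : Spl dh dm d) (x : Cfg d) : zy φ (Em φ x) = 0 := by
  ext p
  change Em φ x (p.1, φ (Sum.inl p.2)) = 0
  rw [Em_apply]
  simp

lemma hz_zero (ψ : Spz r ds dh) : hz ψ (0 : Cfg dh) = 0 := by ext p; rfl
lemma hs_zero (ψ : Spz r ds dh) : hs ψ (0 : Cfg dh) = 0 := by ext p; rfl

lemma norm_Em (φ : Spl dh dm d) (ψ : Spz r ds dh) (x : Cfg d) : ‖Em φ x‖ = ‖pm φ x‖ := by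
  have h := norm_split φ ψ (Em φ x)
  rw [pm_Em, zy_Em, hz_zero, hs_zero, norm_zero, norm_zero] at h
  have h1 : ‖Em φ x‖ ^ 2 = ‖pm φ x‖ ^ 2 := by rw [h]; ring
  exact (sq_eq_sq₀ (norm_nonneg _) (norm_nonneg _)).1 h1

lemma norm_Em_le (φ : Spl dh dm d) (x : Cfg d) : ‖Em φ x‖ ≤ ‖x‖ := by
  have h : ‖Em φ x‖ ^ 2 ≤ ‖x‖ ^ 2 := by
    simp only [EuclideanSpace.real_norm_sq_eq]
    refine Finset.sum_le_sum fun p _ => ?_
    rw [Em_apply]
    obtain ⟨A, hA⟩ := φ.surjective p.2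
    rw [← hA]
    rcases A with A | A
    · rw [mI_inl, zero_mul, zero_pow two_ne_zero]
      exact sq_nonneg _
    · simp
  exact (sq_le_sq₀ (norm_nonneg _) (norm_nonneg _)).1 h

/-! ### the points `Ez η` -/

lemma Ez_z (φ : Spl dh dm d) (ψ : Spz r ds dh) (η : Cfg r) (i : Fin 9) (a : Fin r) :
    Ez φ ψ η (i, φ (Sum.inl (ψ (Sum.inl a)))) = η (i, a) := by
  simp [Ez, emb, cmb]

lemma Ez_s (φ : Spl dh dm d) (ψ : Spz r ds dh) (η : Cfg r) (i : Fin 9) (a : Fin ds) :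
    Ez φ ψ η (i, φ (Sum.inl (ψ (Sum.inr a)))) = 0 := by
  simp [Ez, emb, cmb]

lemma Ez_m (φ : Spl dh dm d) (ψ : Spz r ds dh) (η : Cfg r) (i : Fin 9) (a : Fin dm) :
    Ez φ ψ η (i, φ (Sum.inr a)) = 0 := by
  have h : wt (0 : Wsp dm) i a = 0 := by
    unfold wt
    refine Fin.lastCases (motive := fun i => Fin.lastCases (motive := fun _ => ℝ) 0
      (fun j => (0 : Wsp dm) (j, a)) i = 0) ?_ (fun j => ?_) i
    · rw [Fin.lastCases_last]
    · rw [Fin.lastCases_castSucc]; rfl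
  simpa [Ez, emb, wt] using h

lemma hz_Ez (φ : Spl dh dm d) (ψ : Spz r ds dh) (η : Cfg r) : hz ψ (zy φ (Ez φ ψ η)) = η := by
  ext p
  exact Ez_z φ ψ η p.1 p.2

lemma hs_Ez (φ : Spl dh dm d) (ψ : Spz r ds dh) (η : Cfg r) : hs ψ (zy φ (Ez φ ψ η)) = 0 := by
  ext p
  exact Ez_s φ ψ η p.1 p.2

lemma pm_Ez (φ : Spl dh dm d) (ψ : Spz r ds dh) (η : Cfg r) : pm φ (Ez φ ψ η) = 0 := by
  ext p
  exact Ez_m φ ψ η p.1 p.2

lemma norm_Ez (φ : Spl dh dm d) (ψ : Spz r ds dh) (η : Cfg r) : ‖Ez φ ψ η‖ = ‖η‖ := by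
  have h := norm_split φ ψ (Ez φ ψ η)
  rw [hz_Ez, hs_Ez, pm_Ez, norm_zero, norm_zero] at h
  have h1 : ‖Ez φ ψ η‖ ^ 2 = ‖η‖ ^ 2 := by rw [h]; ring
  exact (sq_eq_sq₀ (norm_nonneg _) (norm_nonneg _)).1 h1

/-- `Ez` as a linear map -/
noncomputable def EzL (φ : Spl dh dm d) (ψ : Spz r ds dh) : Cfg r →ₗ[ℝ] Cfg d where
  toFun := Ez φ ψ
  map_add' η ζ := by
    ext ⟨i, A⟩
    obtain ⟨A, rfl⟩ := φ.surjective A
    change Ez φ ψ (η + ζ) (i, φ A) = Ez φ ψ η (i, φ A) + Ez φ ψ ζ (i, φ A)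
    rcases A with A | A
    · obtain ⟨A, rfl⟩ := ψ.surjective A
      rcases A with A | A
      · rw [Ez_z, Ez_z, Ez_z]; rfl
      · rw [Ez_s, Ez_s, Ez_s, add_zero]
    · rw [Ez_m, Ez_m, Ez_m, add_zero]
  map_smul' c η := by
    ext ⟨i, A⟩
    obtain ⟨A, rfl⟩ := φ.surjective A
    change Ez φ ψ (c • η) (i, φ A) = c * Ez φ ψ η (i, φ A)
    rcases A with A | A
    · obtain ⟨A, rfl⟩ := ψ.surjective A
      rcases A with A | A
      · rw [Ez_z, Ez_z]; rfl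
      · rw [Ez_s, Ez_s, mul_zero]
    · rw [Ez_m, Ez_m, mul_zero]

lemma Ez_cont (φ : Spl dh dm d) (ψ : Spz r ds dh) : Continuous (Ez φ ψ) :=
  (EzL φ ψ).continuous_of_finiteDimensional

/-! ### colour vectors -/

/-- the `m`-part of a colour vector -/
noncomputable def em (φ : Spl dh dm d) : EuclideanSpace ℝ (Fin d) →ₗ[ℝ] EuclideanSpace ℝ (Fin d) where
  toFun ξ := WithLp.toLp 2 fun A => mI φ A * ξ A
  map_add' ξ ζ := by
    ext A
    change mI φ A * (ξ A + ζ A) = mI φ A * ξ A + mI φ A * ζ A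
    ring
  map_smul' c ξ := by
    ext A
    change mI φ A * (c * ξ A) = c * (mI φ A * ξ A)
    ring

lemma em_apply (φ : Spl dh dm d) (ξ : EuclideanSpace ℝ (Fin d)) (A : Fin d) :
    em φ ξ A = mI φ A * ξ A := rfl

lemma em_em (φ : Spl dh dm d) (ξ : EuclideanSpace ℝ (Fin d)) : em φ (em φ ξ) = em φ ξ := by
  ext A
  rw [em_apply, em_apply]
  obtain ⟨A, rfl⟩ := φ.surjective A
  rcases A with A | A <;> simp

lemma em_cont (φ : Spl dh dm d) : Continuous (em φ) := (em φ).continuous_of_finiteDimensional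

lemma norm_sub_em (φ : Spl dh dm d) (ξ : EuclideanSpace ℝ (Fin d)) : ‖ξ - em φ ξ‖ ≤ ‖ξ‖ := by
  have h : ‖ξ - em φ ξ‖ ^ 2 ≤ ‖ξ‖ ^ 2 := by
    simp only [EuclideanSpace.real_norm_sq_eq]
    refine Finset.sum_le_sum fun A _ => ?_
    change (ξ A - em φ ξ A) ^ 2 ≤ ξ A ^ 2
    rw [em_apply]
    obtain ⟨A, rfl⟩ := φ.surjective A
    rcases A with A | A
    · simp
    · rw [mI_inr, one_mul, sub_self, zero_pow two_ne_zero]
      exact sq_nonneg _
  exact (sq_le_sq₀ (norm_nonneg _) (norm_nonneg _)).1 h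

section alg

variable (S : Setup d F) {φ : Spl dh dm d} {ψ : Spz r ds dh}

/-- `-ad ξ_h` is block diagonal -/
lemma BD_adm (hsub : S.IsSub φ) (hZ : IsZ S φ ψ) (ξ : EuclideanSpace ℝ (Fin d)) :
    BD φ ψ ((-1 : ℝ) • S.adm (ξ - em φ ξ)) := by
  intro A B hAB
  simp only [Setup.adm, Matrix.of_apply, Matrix.smul_apply, smul_eq_mul]
  rw [← φ.sum_comp, Fintype.sum_sum_type]
  have h1 : ∀ C : Fin dm, (ξ - em φ ξ) (φ (Sum.inr C)) = 0 := by
    intro C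
    change ξ (φ (Sum.inr C)) - em φ ξ (φ (Sum.inr C)) = 0
    rw [em_apply]
    simp
  have h2 : ∀ C : Fin dh, S.f A (φ (Sum.inl C)) B = 0 := by
    intro C
    obtain ⟨A, rfl⟩ := φ.surjective A
    obtain ⟨B, rfl⟩ := φ.surjective B
    rcases A with A | A <;> rcases B with B | B
    · obtain ⟨A, rfl⟩ := ψ.surjective A
      obtain ⟨B, rfl⟩ := ψ.surjective B
      rcases A with A | A <;> rcases B with B | B
      · exact absurd (by simp) hAB
      · exact hZ _ _ _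
      · rw [S.f_cyc, S.f_cyc]
        exact hZ _ _ _
      · exact absurd (by simp) hAB
    · exact hsub _ _ _
    · rw [S.f_cyc]
      exact hsub _ _ _
    · exact absurd (by simp) hAB
  have h4 : ∀ C : Fin dm, S.f A (φ (Sum.inr C)) B *
      (ξ.ofLp - ((em φ) ξ).ofLp) (φ (Sum.inr C)) = 0 := fun C => mul_eq_zero_of_right _ (h1 C)
  rw [Finset.sum_eq_zero fun C _ => by rw [h2, zero_mul],
    Finset.sum_eq_zero fun C _ => h4 C, add_zero, mul_zero]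

/-- `[ξ_h, z] = 0` -/
lemma Lad_h_Ez (hsub : S.IsSub φ) (hZ : IsZ S φ ψ) (ξ : EuclideanSpace ℝ (Fin d)) (η : Cfg r) :
    Lad S (ξ - em φ ξ) (Ez φ ψ η) = 0 := by
  ext p
  rw [Lad_apply]
  change _ = (0 : ℝ)
  rw [neg_eq_zero]
  refine Finset.sum_eq_zero fun B _ => Finset.sum_eq_zero fun C _ => ?_
  obtain ⟨B, rfl⟩ := φ.surjective B
  obtain ⟨C, rfl⟩ := φ.surjective C
  rcases B with B | B
  · obtain ⟨B, rfl⟩ := ψ.surjective B
    rcases B with B | B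
    · rcases C with C | C
      · have h : S.f p.2 (φ (Sum.inl C)) (φ (Sum.inl (ψ (Sum.inl B)))) = 0 := by
          obtain ⟨A, hA⟩ := φ.surjective p.2
          rw [← hA]
          rcases A with A | A
          · rw [S.f_cyc, S.f_cyc]
            exact hZ _ _ _
          · rw [S.f_cyc]
            exact hsub _ _ _
        rw [h]
        ring
      · have h : (ξ - em φ ξ) (φ (Sum.inr C)) = 0 := by
          change ξ (φ (Sum.inr C)) - em φ ξ (φ (Sum.inr C)) = 0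
          rw [em_apply]
          simp
        rw [h]
        ring
    · rw [Ez_s, mul_zero]
  · rw [Ez_m, mul_zero]

/-- `m`-components of `-[ζ, Ez η]` for `ζ ∈ m` -/
lemma Lad_m_Ez {ζ : EuclideanSpace ℝ (Fin d)} (hζ : em φ ζ = ζ) (η : Cfg r) (i : Fin 9) (B : Fin dm) :
    Lad S ζ (Ez φ ψ η) (i, φ (Sum.inr B)) =
      (Dz S φ ψ η i).mulVec (fun C => ζ (φ (Sum.inr C))) B := by
  have h0 : ∀ C : Fin dh, ζ (φ (Sum.inl C)) = 0 := by
    intro C
    rw [← hζ, em_apply]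
    simp
  rw [Lad_apply]
  simp only [Matrix.mulVec, dotProduct, Dz, Setup.Dy, Setup.Dm, Matrix.of_apply]
  rw [← φ.sum_comp, Fintype.sum_sum_type, ← ψ.sum_comp, Fintype.sum_sum_type]
  have h1 : ∀ B', ∑ C, S.f (φ (Sum.inr B)) C B' * ζ C * 0 = 0 := by
    intro B'
    simp
  simp only [Ez_z, Ez_s, Ez_m, mul_zero, Finset.sum_const_zero, add_zero]
  have h2 : ∀ a : Fin r, ∑ C, S.f (φ (Sum.inr B)) C (φ (Sum.inl (ψ (Sum.inl a)))) * ζ C * η (i, a) =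
      ∑ C : Fin dm, -(S.f (φ (Sum.inr B)) (φ (Sum.inl (ψ (Sum.inl a)))) (φ (Sum.inr C)) * η (i, a) *
        ζ (φ (Sum.inr C))) := by
    intro a
    rw [← φ.sum_comp, Fintype.sum_sum_type]
    simp only [h0, mul_zero, zero_mul, Finset.sum_const_zero, zero_add]
    refine Finset.sum_congr rfl fun C _ => ?_
    rw [S.f_swap']
    ring
  have h3 : ∀ C : Fin dm, (∑ A, S.f (φ (Sum.inr B)) (φ (Sum.inl A)) (φ (Sum.inr C)) *
      cmb ψ η 0 (i, A)) = ∑ a : Fin r, S.f (φ (Sum.inr B)) (φ (Sum.inl (ψ (Sum.inl a))))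
        (φ (Sum.inr C)) * η (i, a) := by
    intro C
    rw [← ψ.sum_comp, Fintype.sum_sum_type]
    simp [cmb]
  simp only [h2, h3]
  rw [← Finset.sum_neg_distrib]
  simp only [← Finset.sum_neg_distrib, neg_neg, Finset.sum_mul]
  rw [Finset.sum_comm]

/-- lower bound for the gauge directions -/
lemma low {K : Set (Cfg r)} (hK : IsCompact K) (hR : ∀ η ∈ K, RegP S φ ψ η) :
    ∃ c₀ : ℝ, 0 < c₀ ∧ ∀ η ∈ K, ∀ ζ, em φ ζ = ζ → c₀ * ‖ζ‖ ≤ ‖Em φ (Lad S ζ (Ez φ ψ η))‖ := by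
  set T : Set (Cfg r × EuclideanSpace ℝ (Fin d)) :=
    K ×ˢ (Metric.sphere (0 : EuclideanSpace ℝ (Fin d)) 1 ∩ {ζ | em φ ζ = ζ}) with hT
  have hTc : IsCompact T :=
    hK.prod ((isCompact_sphere _ _).inter_right (isClosed_eq (em_cont φ) continuous_id))
  have hLc : Continuous (Lad S) := (Lad S).continuous_of_finiteDimensional
  have hfc : Continuous fun p : Cfg r × EuclideanSpace ℝ (Fin d) =>
      ‖Em φ (Lad S p.2 (Ez φ ψ p.1))‖ := by
    refine ((Em φ).continuous.comp ?_).norm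
    exact (hLc.comp continuous_snd).clm_apply ((Ez_cont φ ψ).comp continuous_fst)
  have hpos : ∀ p ∈ T, 0 < ‖Em φ (Lad S p.2 (Ez φ ψ p.1))‖ := by
    rintro ⟨η, ζ⟩ ⟨hη, hs, hζ⟩
    rw [norm_pos_iff]
    intro h0
    have hv := hR η hη (fun C => ζ (φ (Sum.inr C))) (fun i => by
      funext B
      rw [← Lad_m_Ez S hζ]
      have h1 := congrArg (fun x : Cfg d => x (i, φ (Sum.inr B))) h0
      simp only at h1
      rw [Em_apply] at h1
      simpa using h1)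
    have hz : ζ = 0 := by
      ext A
      obtain ⟨A, rfl⟩ := φ.surjective A
      rcases A with A | A
      · change ζ (φ (Sum.inl A)) = 0
        have hζ' : em φ ζ = ζ := hζ
        rw [← hζ', em_apply]
        simp
      · exact congrFun hv A
    rw [mem_sphere_zero_iff_norm, hz, norm_zero] at hs
    exact zero_ne_one hs
  have key : ∃ c₀ : ℝ, 0 < c₀ ∧ ∀ p ∈ T, c₀ ≤ ‖Em φ (Lad S p.2 (Ez φ ψ p.1))‖ := by
    rcases T.eq_empty_or_nonempty with hE | hE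
    · exact ⟨1, one_pos, fun p hp => by rw [hE] at hp; exact absurd hp (Set.notMem_empty p)⟩
    · obtain ⟨p₀, hp₀, hmin⟩ := hTc.exists_isMinOn hE hfc.continuousOn
      exact ⟨_, hpos p₀ hp₀, fun p hp => hmin hp⟩
  obtain ⟨c₀, hc₀, hmain⟩ := key
  refine ⟨c₀, hc₀, fun η hη ζ hζ => ?_⟩
  rcases eq_or_ne ζ 0 with rfl | hne
  · simp
  have hn : 0 < ‖ζ‖ := norm_pos_iff.2 hne
  have h1 := hmain (η, ‖ζ‖⁻¹ • ζ) ⟨hη, by
    rw [mem_sphere_zero_iff_norm, norm_smul, norm_inv, norm_norm, inv_mul_cancel₀ hn.ne'], by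
    change em φ (‖ζ‖⁻¹ • ζ) = ‖ζ‖⁻¹ • ζ
    rw [map_smul, hζ]⟩
  simp only [map_smul] at h1
  rw [_root_.smul_apply, map_smul, norm_smul, norm_inv, norm_norm, inv_mul_eq_div, le_div_iff₀ hn] at h1
  exact h1

end alg

/-! ### matrices -/

lemma fn_unit {W : Matrix (Fin N) (Fin N) ℂ} (hW : W.conjTranspose * W = 1) (X : Matrix (Fin N) (Fin N) ℂ) :
    fn (W * X) = fn X := by
  have h : ∀ Y : Matrix (Fin N) (Fin N) ℂ, ((∑ j, ∑ k, ‖Y j k‖ ^ 2 : ℝ) : ℂ) =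
      (Y.conjTranspose * Y).trace := by
    intro Y
    simp only [Matrix.trace, Matrix.diag, Matrix.mul_apply, Matrix.conjTranspose_apply]
    push_cast
    rw [Finset.sum_comm]
    refine Finset.sum_congr rfl fun k _ => Finset.sum_congr rfl fun j _ => ?_
    rw [← Complex.ofReal_pow, ← Complex.normSq_eq_norm_sq, Complex.normSq_eq_conj_mul_self]
    rfl
  unfold fn
  congr 1
  have h1 := h (W * X)
  rw [Matrix.conjTranspose_mul, Matrix.mul_assoc, ← Matrix.mul_assoc _ W X, hW, Matrix.one_mul,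
    ← h] at h1
  exact_mod_cast h1

lemma fn_inv_mul_sub (U V : BFSS.SU N) : fn ((U⁻¹ * V).val - 1) = fn (V.val - U.val) := by
  have hU := act_unit U
  have h1 : (U⁻¹ * V).val - 1 = U.val.conjTranspose * (V.val - U.val) := by
    rw [Matrix.mul_sub, hU]
    rfl
  rw [h1]
  refine fn_unit ?_ _
  rw [Matrix.conjTranspose_conjTranspose]
  exact mul_eq_one_comm.1 hU

/-! ### the key estimate -/

lemma exp_near : ∀ c : ℝ, 0 < c → ∃ δ : ℝ, 0 < δ ∧ ∀ A B : Cfg d →L[ℝ] Cfg d, ‖A‖ ≤ δ → ‖B‖ ≤ δ →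
    ‖NormedSpace.exp A - NormedSpace.exp B - (A - B)‖ ≤ c * ‖A - B‖ := by
  intro c hc
  have h : HasStrictFDerivAt (NormedSpace.exp : (Cfg d →L[ℝ] Cfg d) → (Cfg d →L[ℝ] Cfg d))
      (1 : (Cfg d →L[ℝ] Cfg d) →L[ℝ] (Cfg d →L[ℝ] Cfg d)) 0 :=
    hasStrictFDerivAt_exp_zero (𝕂 := ℝ)
  have h1 := h.isLittleO.def hc
  rw [Metric.eventually_nhds_iff] at h1
  obtain ⟨δ, hδ, h2⟩ := h1
  refine ⟨δ / 2, half_pos hδ, fun A B hA hB => ?_⟩
  refine h2 (y := (A, B)) ?_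
  rw [dist_eq_norm]
  have h3 : ‖((A, B) : (Cfg d →L[ℝ] Cfg d) × (Cfg d →L[ℝ] Cfg d)) - (0, 0)‖ ≤ δ / 2 := by
    rw [Prod.mk_sub_mk, sub_zero, sub_zero, Prod.norm_mk]
    exact max_le hA hB
  linarith

section alg

variable (S : Setup d F) {φ : Spl dh dm d} {ψ : Spz r ds dh}

lemma key (hsub : S.IsSub φ) (hZ : IsZ S φ ψ) {K : Set (Cfg r)} (hK : IsCompact K)
    (hR : ∀ η ∈ K, RegP S φ ψ η) (L : ℝ) (hL : 0 < L) :
    ∃ ρ R₁ C : ℝ, 0 < ρ ∧ 1 ≤ R₁ ∧ 0 < C ∧ ∀ R, R₁ ≤ R → ∀ η ∈ K, ∀ ξ, ‖ξ‖ ≤ ρ → ∀ y : Cfg d, ‖y‖ ≤ 2 * L →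
      ‖Em φ (R • Ez φ ψ η + y)‖ ≤ L / Real.sqrt R →
      ‖Em φ (NormedSpace.exp (Lad S ξ) (R • Ez φ ψ η + y))‖ ≤ L / Real.sqrt R →
      ‖em φ ξ‖ ≤ C / (R * Real.sqrt R) := by
  obtain ⟨Kb, hKb, hLad⟩ := Lad_bd S
  obtain ⟨c₀, hc₀, hlow⟩ := low S (φ := φ) (ψ := ψ) hK hR
  obtain ⟨Mk, hMk⟩ := hK.isBounded.exists_norm_le
  have hMk' : ∀ η ∈ K, ‖η‖ ≤ |Mk| := fun η hη => (hMk η hη).trans (le_abs_self _)
  set c : ℝ := min 1 (c₀ / (2 * (Kb * (|Mk| + 1)))) with hc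
  have hq : 0 < Kb * (|Mk| + 1) := by positivity
  have hc0 : 0 < c := lt_min one_pos (by positivity)
  have hc1 : c ≤ 1 := min_le_left _ _
  have hc2 : c * (Kb * (|Mk| + 1)) ≤ c₀ / 2 := by
    have h1 : c ≤ c₀ / (2 * (Kb * (|Mk| + 1))) := min_le_right _ _
    rw [le_div_iff₀ (by positivity)] at h1
    linarith
  obtain ⟨δ, hδ, hexp⟩ := exp_near (d := d) c hc0
  set δ' : ℝ := min δ (1 / 2) with hδ'
  have hδ0 : 0 < δ' := lt_min hδ (by norm_num)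
  refine ⟨δ' / Kb, max 1 (16 * L * Kb / c₀), 12 * L / c₀, by positivity, le_max_left _ _, by positivity,
    fun R hR1 η hη ξ hξ y hy hx hex => ?_⟩
  have hR0 : 1 ≤ R := (le_max_left _ _).trans hR1
  have hRp : 0 < R := by linarith
  have hsq : 0 < Real.sqrt R := Real.sqrt_pos.2 hRp
  have hR2 : 16 * L * Kb ≤ R * c₀ := by
    have := (le_max_right _ _).trans hR1
    rwa [div_le_iff₀ hc₀] at this
  set A := Lad S ξ with hA
  set B := Lad S (ξ - em φ ξ) with hB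
  have hAB : A - B = Lad S (em φ ξ) := by
    rw [hA, hB, ← map_sub, sub_sub_cancel]
  have hξK : Kb * ‖ξ‖ ≤ δ' := by
    rw [le_div_iff₀ hKb] at hξ
    linarith
  have hAn : ‖A‖ ≤ δ' := (hLad ξ).trans hξK
  have hBn : ‖B‖ ≤ δ' := (hLad _).trans ((mul_le_mul_of_nonneg_left (norm_sub_em φ ξ) hKb.le).trans hξK)
  have hδδ : δ' ≤ δ := min_le_left _ _
  have hδ2 : δ' ≤ 1 / 2 := min_le_right _ _
  set D := NormedSpace.exp A - NormedSpace.exp B with hD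
  have hABn : ‖A - B‖ ≤ Kb * ‖em φ ξ‖ := by rw [hAB]; exact hLad _
  have hem := norm_nonneg (em φ ξ)
  have hD1 : ‖D - (A - B)‖ ≤ c * (Kb * ‖em φ ξ‖) :=
    (hexp A B (hAn.trans hδδ) (hBn.trans hδδ)).trans (mul_le_mul_of_nonneg_left hABn hc0.le)
  have hD2 : ‖D‖ ≤ 2 * (Kb * ‖em φ ξ‖) := by
    have h1 : D = (D - (A - B)) + (A - B) := by abel
    rw [h1]
    refine (norm_add_le _ _).trans ?_
    have h2 : c * (Kb * ‖em φ ξ‖) ≤ 1 * (Kb * ‖em φ ξ‖) :=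
      mul_le_mul_of_nonneg_right hc1 (by positivity)
    linarith
  have hB1 : ‖NormedSpace.exp B‖ ≤ 2 := by
    have h1 := hexp B 0 (hBn.trans hδδ) (by rw [norm_zero]; exact hδ.le)
    rw [sub_zero, NormedSpace.exp_zero] at h1
    have h2 : NormedSpace.exp B = (NormedSpace.exp B - 1 - B) + B + 1 := by abel
    rw [h2]
    have h3 : ‖(1 : Cfg d →L[ℝ] Cfg d)‖ ≤ 1 := ContinuousLinearMap.norm_id_le
    have h4 : c * ‖B‖ ≤ 1 * ‖B‖ := mul_le_mul_of_nonneg_right hc1 (norm_nonneg _)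
    have h5 := norm_add₃_le (a := NormedSpace.exp B - 1 - B) (b := B) (c := 1)
    linarith
  have hcomm : Em φ (NormedSpace.exp B (R • Ez φ ψ η + y)) =
      NormedSpace.exp B (Em φ (R • Ez φ ψ η + y)) := by
    have h1 : Commute (Em φ) (NormedSpace.exp B) := (Em_comm (BD_adm S hsub hZ ξ)).exp_right
    exact congrArg (fun T : Cfg d →L[ℝ] Cfg d => T (R • Ez φ ψ η + y)) h1.eq
  have e1 : Em φ (NormedSpace.exp A (R • Ez φ ψ η + y)) =
      R • Em φ (Lad S (em φ ξ) (Ez φ ψ η)) + R • Em φ ((D - (A - B)) (Ez φ ψ η)) + Em φ (D y) +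
        NormedSpace.exp B (Em φ (R • Ez φ ψ η + y)) := by
    rw [← hcomm, ← hAB]
    have h1 : NormedSpace.exp A = D + NormedSpace.exp B := by rw [hD]; abel
    rw [h1]
    simp only [_root_.add_apply, _root_.sub_apply, map_add, map_sub, map_smul, smul_sub, smul_add]
    abel
  have e2 : R * ‖Em φ (Lad S (em φ ξ) (Ez φ ψ η))‖ ≤ ‖Em φ (NormedSpace.exp A (R • Ez φ ψ η + y))‖ +
      R * ‖Em φ ((D - (A - B)) (Ez φ ψ η))‖ + ‖Em φ (D y)‖ +
        ‖NormedSpace.exp B (Em φ (R • Ez φ ψ η + y))‖ := by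
    have h1 : R • Em φ (Lad S (em φ ξ) (Ez φ ψ η)) = Em φ (NormedSpace.exp A (R • Ez φ ψ η + y)) -
        R • Em φ ((D - (A - B)) (Ez φ ψ η)) - Em φ (D y) -
        NormedSpace.exp B (Em φ (R • Ez φ ψ η + y)) := by
      rw [e1]; abel
    have h2 : ∀ z : Cfg d, R * ‖z‖ = ‖R • z‖ := fun z => by
      rw [norm_smul, Real.norm_eq_abs, abs_of_pos hRp]
    rw [h2, h2, h1]
    refine (norm_sub_le _ _).trans (add_le_add ?_ le_rfl)
    refine (norm_sub_le _ _).trans (add_le_add ?_ le_rfl)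
    exact norm_sub_le _ _
  have e3 : c₀ * ‖em φ ξ‖ ≤ ‖Em φ (Lad S (em φ ξ) (Ez φ ψ η))‖ := hlow η hη _ (em_em φ ξ)
  have e4 : ‖Em φ ((D - (A - B)) (Ez φ ψ η))‖ ≤ c₀ / 2 * ‖em φ ξ‖ := by
    refine (norm_Em_le φ _).trans (((D - (A - B)).le_opNorm _).trans ?_)
    rw [norm_Ez]
    have h1 : ‖D - (A - B)‖ * ‖η‖ ≤ c * (Kb * ‖em φ ξ‖) * (|Mk| + 1) := by
      refine mul_le_mul hD1 ((hMk' η hη).trans (by linarith)) (norm_nonneg _) (by positivity)
    refine h1.trans ?_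
    have h2 := mul_le_mul_of_nonneg_right hc2 hem
    linarith
  have e5 : ‖Em φ (D y)‖ ≤ 4 * L * Kb * ‖em φ ξ‖ := by
    refine (norm_Em_le φ _).trans ((D.le_opNorm _).trans ?_)
    have h1 : ‖D‖ * ‖y‖ ≤ 2 * (Kb * ‖em φ ξ‖) * (2 * L) :=
      mul_le_mul hD2 hy (norm_nonneg _) (by positivity)
    linarith
  have e6 : ‖NormedSpace.exp B (Em φ (R • Ez φ ψ η + y))‖ ≤ 2 * (L / Real.sqrt R) :=
    ((NormedSpace.exp B).le_opNorm _).trans (mul_le_mul hB1 hx (norm_nonneg _) zero_le_two)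
  have e7 : R * (c₀ * ‖em φ ξ‖) ≤ L / Real.sqrt R + R * (c₀ / 2 * ‖em φ ξ‖) + 4 * L * Kb * ‖em φ ξ‖ +
      2 * (L / Real.sqrt R) := by
    have h1 := mul_le_mul_of_nonneg_left e3 hRp.le
    have h2 := mul_le_mul_of_nonneg_left e4 hRp.le
    linarith
  have e8 : 4 * L * Kb * ‖em φ ξ‖ ≤ R * c₀ / 4 * ‖em φ ξ‖ :=
    mul_le_mul_of_nonneg_right (by linarith) hem
  have e9 : R * c₀ / 4 * ‖em φ ξ‖ ≤ 3 * (L / Real.sqrt R) := by linarith
  have e10 : R * Real.sqrt R * ‖em φ ξ‖ * (c₀ / 4) ≤ 3 * L := by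
    have h1 := mul_le_mul_of_nonneg_right e9 hsq.le
    have h2 : 3 * (L / Real.sqrt R) * Real.sqrt R = 3 * L := by
      field_simp
    rw [h2] at h1
    linarith
  rw [le_div_iff₀ (by positivity), le_div_iff₀ hc₀]
  linarith

end alg

lemma norm_Em_act (M : BFSS.Model N d F) {φ : Spl dh dm d} {ψ : Spz r ds dh} {U₀ : BFSS.SU N}
    (h : BD φ ψ (actO M U₀)) (z : Cfg d) : ‖Em φ (M.act U₀ z)‖ = ‖Em φ z‖ := by
  have e2 : Commute (Em φ) (roA d (actO M U₀)) := Em_comm h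
  have e3 : Em φ (M.act U₀ z) = M.act U₀ (Em φ z) :=
    congrArg (fun T : Cfg d →L[ℝ] Cfg d => T z) e2.eq
  rw [e3]
  exact (act_stmt M).2.2.2.2.1 U₀ (Em φ z)

/-- decomposition of a point of `InB` -/
lemma inB_split {φ : Spl dh dm d} {ψ : Spz r ds dh} {K : Set (Cfg r)} {L R : ℝ} (hL : 0 < L)
    (hR : 1 ≤ R) {x : Cfg d} (hx : InB φ ψ K L R x) :
    ‖x - R • Ez φ ψ (R⁻¹ • hz ψ (zy φ x))‖ ≤ 2 * L ∧ ‖Em φ x‖ ≤ L / Real.sqrt R := by
  have hRp : 0 < R := by linarith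
  have hsq : 0 < Real.sqrt R := Real.sqrt_pos.2 hRp
  have hsq1 : 1 ≤ Real.sqrt R := Real.one_le_sqrt.2 hR
  have hpm : ‖pm φ x‖ ≤ L / Real.sqrt R := by
    have h1 := hx.2.2
    rw [norm_smul, Real.norm_eq_abs, abs_of_pos hsq] at h1
    rw [le_div_iff₀ hsq]
    linarith
  have hpm' : ‖pm φ x‖ ≤ L := hpm.trans (div_le_self hL.le hsq1)
  refine ⟨?_, by rw [norm_Em φ ψ]; exact hpm⟩
  set η := R⁻¹ • hz ψ (zy φ x) with hη
  set y := x - R • Ez φ ψ η with hy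
  have h1 : hz ψ (zy φ y) = 0 := by
    have h2 : hz ψ (zy φ y) = hz ψ (zy φ x) - R • hz ψ (zy φ (Ez φ ψ η)) := by ext p; rfl
    rw [h2, hz_Ez, hη, smul_smul, mul_inv_cancel₀ hRp.ne', one_smul, sub_self]
  have h2 : hs ψ (zy φ y) = hs ψ (zy φ x) := by
    have h2 : hs ψ (zy φ y) = hs ψ (zy φ x) - R • hs ψ (zy φ (Ez φ ψ η)) := by ext p; rfl
    rw [h2, hs_Ez, smul_zero, sub_zero]
  have h3 : pm φ y = pm φ x := by
    have h2 : pm φ y = pm φ x - R • pm φ (Ez φ ψ η) := by ext p; rfl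
    rw [h2, pm_Ez, smul_zero, sub_zero]
  have h4 := norm_split φ ψ y
  rw [h1, h2, h3, norm_zero] at h4
  have h5 := hx.2.1
  have h6 : ‖y‖ ^ 2 ≤ (2 * L) ^ 2 := by
    rw [h4]
    have a := norm_nonneg (hs ψ (zy φ x))
    have b := norm_nonneg (pm φ x)
    nlinarith
  exact (sq_le_sq₀ (norm_nonneg _) (by positivity)).1 h6

end Geo

open Geo

variable {N d : ℕ} {F : Type*} [NormedAddCommGroup F] [InnerProductSpace ℂ F]

/-- **LH8 Geo** -/
theorem geo_stmt [FiniteDimensional ℂ F] (M : BFSS.Model N d F) (h1 : LogStmt M) (h2 : ExpLipStmt M)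
    (h5 : AdEStmt M) (h6 : SUniStmt M) (h7 : NearStmt M) : GeoStmt M := by
  intro S hS dh dm r ds φ ψ hsub hZ hLess K hK hR L hL
  obtain ⟨δ₁, C₁, hδ₁, hC₁, hlog⟩ := h1
  obtain ⟨hmem, -, -, ρ, c₂, C₂, hρ, -, hC₂, hlip⟩ := h2
  obtain ⟨-, C₆, hC₆, huni⟩ := h6 inferInstance
  obtain ⟨ρ₁, R₁, Ck, hρ₁, hR₁, hCk, hkey⟩ := key S (φ := φ) (ψ := ψ) hsub hZ hK hR L hL
  obtain ⟨Mk, hMk⟩ := hK.isBounded.exists_norm_le
  obtain ⟨aMul, aOne, aAdd, aSmul, aNorm, -, -⟩ := act_stmt M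
  set ε : ℝ := min δ₁ (min ρ ρ₁ / C₁) with hε
  have hε0 : 0 < ε := lt_min hδ₁ (div_pos (lt_min hρ hρ₁) hC₁)
  obtain ⟨δ, hδ, hnear⟩ := h7 S hS dh dm r ds φ ψ hsub hZ hLess K hK hR ε hε0
  refine ⟨max R₁ (4 * L / δ), C₂ * Ck + C₆ * (C₂ * Ck) * (|Mk| + 2 * L), hR₁.trans (le_max_left _ _),
    by positivity, fun R hRR U x hx hUx => ?_⟩
  have hR1 : 1 ≤ R := hR₁.trans ((le_max_left _ _).trans hRR)
  have hRp : 0 < R := by linarith
  have hsq : 0 < Real.sqrt R := Real.sqrt_pos.2 hRp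
  have hR4 : 4 * L ≤ δ * R := by
    have h := (le_max_right _ _).trans hRR
    rw [div_le_iff₀ hδ] at h
    linarith
  obtain ⟨hy, hex⟩ := inB_split hL hR1 hx
  obtain ⟨hy', hex'⟩ := inB_split hL hR1 hUx
  set η := R⁻¹ • hz ψ (zy φ x) with hη
  set η' := R⁻¹ • hz ψ (zy φ (M.act U x)) with hη'
  set y := x - R • Ez φ ψ η with hyd
  set y' := M.act U x - R • Ez φ ψ η' with hyd'
  have hxy : x = R • Ez φ ψ η + y := by rw [hyd]; abel
  have hηK : η ∈ K := hx.1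
  have hηK' : η' ∈ K := hUx.1
  have hmove : ‖M.act U (Ez φ ψ η) - Ez φ ψ η'‖ ≤ δ := by
    have e1 : R • (M.act U (Ez φ ψ η) - Ez φ ψ η') = y' - M.act U y := by
      have e2 : M.act U x = R • M.act U (Ez φ ψ η) + M.act U y := by
        rw [← aSmul, ← aAdd, ← hxy]
      rw [hyd', e2, smul_sub]
      abel
    have e3 : R * ‖M.act U (Ez φ ψ η) - Ez φ ψ η'‖ ≤ 4 * L := by
      rw [← abs_of_pos hRp, ← Real.norm_eq_abs, ← norm_smul, e1]
      refine (norm_sub_le _ _).trans ?_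
      rw [aNorm]
      linarith
    have e4 : R * ‖M.act U (Ez φ ψ η) - Ez φ ψ η'‖ ≤ R * δ := by linarith
    exact le_of_mul_le_mul_left e4 hRp
  obtain ⟨U₀, hN0, hfn0⟩ := hnear U η η' hηK hηK' hmove
  set V₀ : BFSS.SU N := U₀⁻¹ * U with hV₀
  have hUV : U = U₀ * V₀ := by rw [hV₀, mul_inv_cancel_left]
  have hfnV : fn (V₀.val - 1) ≤ ε := by
    rw [hV₀, fn_inv_mul_sub]
    exact hfn0
  obtain ⟨ξ, hξV, hξn⟩ := hlog V₀ (hfnV.trans (min_le_left _ _))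
  have hξb : ‖ξ‖ ≤ min ρ ρ₁ := by
    refine hξn.trans ?_
    have e1 : fn (V₀.val - 1) ≤ min ρ ρ₁ / C₁ := hfnV.trans (min_le_right _ _)
    rw [le_div_iff₀ hC₁] at e1
    linarith
  have hact : ∀ z, M.act V₀ z = NormedSpace.exp (Lad S ξ) z := by
    intro z
    rw [act_eq_ro, ← roA_apply]
    have e1 : actO M V₀ = NormedSpace.exp ((-1 : ℝ) • S.adm ξ) := h5 S hS V₀ ξ hξV
    rw [e1, roA_exp]
    rfl
  have hEm : ‖Em φ (M.act V₀ x)‖ = ‖Em φ (M.act U x)‖ := by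
    have e1 : M.act U x = M.act U₀ (M.act V₀ x) := by
      rw [hUV]
      exact aMul U₀ V₀ x
    rw [e1]
    exact (norm_Em_act M hN0 (M.act V₀ x)).symm
  have hkk : ‖em φ ξ‖ ≤ Ck / (R * Real.sqrt R) := by
    refine hkey R ((le_max_left _ _).trans hRR) η hηK ξ (hξb.trans (min_le_right _ _)) y hy ?_ ?_
    · rw [← hxy]; exact hex
    · rw [← hxy, ← hact, hEm]; exact hex'
  set W : BFSS.SU N := ⟨eT M (ξ - em φ ξ), hmem _⟩ with hW
  have hWB : BD φ ψ (actO M W) := by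
    have e1 : actO M W = NormedSpace.exp ((-1 : ℝ) • S.adm (ξ - em φ ξ)) := h5 S hS W _ rfl
    rw [e1]
    exact BD_exp (BD_adm S hsub hZ ξ)
  have hV : fn ((W⁻¹ * V₀).val - 1) ≤ C₂ * Ck / (R * Real.sqrt R) := by
    rw [fn_inv_mul_sub, hξV]
    refine (hlip ξ (ξ - em φ ξ) (hξb.trans (min_le_left _ _))
      ((norm_sub_em φ ξ).trans (hξb.trans (min_le_left _ _)))).2.trans ?_
    rw [sub_sub_cancel, mul_div_assoc]
    exact mul_le_mul_of_nonneg_left hkk hC₂.le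
  refine ⟨U₀ * W, W⁻¹ * V₀, ?_, ?_, ?_, ?_⟩
  · rw [mul_assoc, mul_inv_cancel_left]
    exact hUV
  · have e1 : BD φ ψ (actO M (U₀ * W)) := by
      rw [actO_mul]
      exact BD_mul hN0 hWB
    exact e1
  · refine hV.trans ?_
    gcongr
    have : 0 ≤ C₆ * (C₂ * Ck) * (|Mk| + 2 * L) := by positivity
    linarith
  · have e1 := huni (W⁻¹ * V₀) 1 x
    rw [aOne] at e1
    have e2 : (1 : BFSS.SU N).val = 1 := rfl
    rw [e2] at e1
    refine e1.trans ?_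
    have hxn : ‖x‖ ≤ R * (|Mk| + 2 * L) := by
      rw [hxy]
      refine (norm_add_le _ _).trans ?_
      rw [norm_smul, norm_Ez, Real.norm_eq_abs, abs_of_pos hRp]
      have e3 : ‖η‖ ≤ |Mk| := (hMk η hηK).trans (le_abs_self _)
      have e4 := mul_le_mul_of_nonneg_left e3 hRp.le
      have e5 : 1 * (2 * L) ≤ R * (2 * L) := mul_le_mul_of_nonneg_right hR1 (by positivity)
      linarith
    have e3 : C₆ * fn ((W⁻¹ * V₀).val - 1) * ‖x‖ ≤
        C₆ * (C₂ * Ck / (R * Real.sqrt R)) * (R * (|Mk| + 2 * L)) :=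
      mul_le_mul (mul_le_mul_of_nonneg_left hV hC₆.le) hxn (norm_nonneg _) (by positivity)
    refine e3.trans ?_
    have e4 : C₆ * (C₂ * Ck / (R * Real.sqrt R)) * (R * (|Mk| + 2 * L)) =
        C₆ * (C₂ * Ck) * (|Mk| + 2 * L) / Real.sqrt R := by
      field_simp
    rw [e4]
    gcongr
    have : 0 ≤ C₂ * Ck := by positivity
    linarith

end Vale.Agent.P353.AN.LW
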