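import Vale.Agent.P353.AN.LOW.StmtH

/-! # P353, all `N`, block LOW, part H: `GoodStmt` (helper862) -/

open MeasureTheory Filter Topology
open scoped ContDiff

namespace Vale.Agent.P353.AN.LW.LH4

open Vale.Agent.P353.Z Vale.Agent.P353.Z.U Vale.Agent.P353.Z.AN Vale.Agent.P353.AN.G
  Vale.Agent.P353.AN.LW

variable {N d dh dm : ℕ} {F : Type*} [NormedAddCommGroup F] [InnerProductSpace ℂ F]

/-- the parameter set -/
def Kc (φ : Spl dh dm d) (ρ δ : ℝ) : Set (EuclideanSpace ℝ (Fin d)) :=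
  {ξ | ‖ξ‖ ≤ ρ ∧ ∀ B : Fin dm, |ξ (φ (Sum.inr B))| ≤ δ}

theorem isCompact_Kc (φ : Spl dh dm d) (ρ δ : ℝ) : IsCompact (Kc φ ρ δ) := by
  have h1 : IsCompact (Metric.closedBall (0 : EuclideanSpace ℝ (Fin d)) ρ) :=
    isCompact_closedBall _ _
  refine h1.of_isClosed_subset ?_ fun ξ hξ => by
    rw [mem_closedBall_zero_iff]
    exact hξ.1
  have h2 : Kc φ ρ δ = {ξ : EuclideanSpace ℝ (Fin d) | ‖ξ‖ ≤ ρ} ∩
      ⋂ B : Fin dm, {ξ | |ξ (φ (Sum.inr B))| ≤ δ} := by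
    ext ξ
    simp [Kc]
  rw [h2]
  refine (isClosed_le continuous_norm continuous_const).inter (isClosed_iInter fun B => ?_)
  refine isClosed_le (Continuous.abs ?_) continuous_const
  fun_prop

/-- volume of a box -/
theorem vol_box (r : Fin d → ℝ) :
    (volume : Measure (EuclideanSpace ℝ (Fin d))) {ξ | ∀ A, |ξ A| ≤ r A} =
      ∏ A, ENNReal.ofReal (2 * r A) := by
  have h1 : {ξ : EuclideanSpace ℝ (Fin d) | ∀ A, |ξ A| ≤ r A} =
      (@WithLp.ofLp 2 (Fin d → ℝ)) ⁻¹' (Set.Icc (fun A => - r A) r) := by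
    ext ξ
    simp only [Set.mem_ofPred_eq, Set.mem_preimage, Set.mem_Icc, Pi.le_def]
    constructor
    · intro h
      exact ⟨fun A => (abs_le.1 (h A)).1, fun A => (abs_le.1 (h A)).2⟩
    · intro h A
      exact abs_le.2 ⟨h.1 A, h.2 A⟩
  rw [h1, (PiLp.volume_preserving_ofLp (Fin d)).measure_preimage
    measurableSet_Icc.nullMeasurableSet, Real.volume_Icc_pi]
  refine Finset.prod_congr rfl fun A _ => ?_
  congr 1
  ring

theorem good_stmt (M : BFSS.Model N d F) (h2 : ExpLipStmt M) (h3 : HLStmt M) : GoodStmt M := by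
  intro dh dm φ
  obtain ⟨hSU, hcont, -, -⟩ := h2
  obtain ⟨ρ, C, hρ, hC, hH⟩ := h3
  refine ⟨ρ, hρ, fun ρ' hρ' hle => ?_⟩
  set s : ℝ := 1 / ((d : ℝ) + 1) with hs
  have hs0 : 0 < s := by positivity
  have hsd : (d : ℝ) * s ^ 2 ≤ 1 := by
    rw [hs, div_pow, one_pow, mul_one_div, div_le_one (by positivity)]
    nlinarith [(Nat.cast_nonneg d : (0 : ℝ) ≤ d)]
  refine ⟨(2 * (ρ' * s)) ^ dh * (2 * s) ^ dm / C, by positivity, fun δ hδ hδ' => ?_⟩
  set E : Set (BFSS.SU N) := {U : BFSS.SU N |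
    ∃ ξ : EuclideanSpace ℝ (Fin d), ‖ξ‖ ≤ ρ' ∧ (∀ B : Fin dm, |ξ (φ (Sum.inr B))| ≤ δ) ∧ U.val = eT M ξ}
    with hE
  set g : EuclideanSpace ℝ (Fin d) → BFSS.SU N := fun ξ => ⟨eT M ξ, hSU ξ⟩ with hg
  have hgc : Continuous g := Continuous.subtype_mk hcont _
  have hEi : E = g '' Kc φ ρ' δ := by
    ext U
    simp only [hE, Set.mem_ofPred_eq, Set.mem_image, Kc, hg]
    constructor
    · rintro ⟨ξ, h1, h2, h3⟩
      exact ⟨ξ, ⟨h1, h2⟩, Subtype.ext h3.symm⟩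
    · rintro ⟨ξ, ⟨h1, h2⟩, h3⟩
      exact ⟨ξ, h1, h2, by rw [← h3]⟩
  have hEm : MeasurableSet E := by
    rw [hEi]
    exact ((isCompact_Kc φ ρ' δ).image hgc).isClosed.measurableSet
  refine ⟨?_, hEm⟩
  have h4 := hH E hEm
  have h5 : (volume : Measure (EuclideanSpace ℝ (Fin d))) {ξ | ∀ A, |ξ A| ≤
      Sum.elim (fun _ => ρ' * s) (fun _ => δ * s) (φ.symm A)} ≤
      volume {ξ : EuclideanSpace ℝ (Fin d) | ‖ξ‖ ≤ ρ ∧ ∃ U ∈ E, U.val = eT M ξ} := by
    refine measure_mono fun ξ hξ => ?_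
    have hξ' : ∀ A, |ξ A| ≤ ρ' * s := by
      intro A
      refine (hξ A).trans ?_
      rcases φ.symm A with a | a
      · simp
      · simp only [Sum.elim_inr]
        gcongr
    have hn : ‖ξ‖ ≤ ρ' := by
      rw [EuclideanSpace.norm_eq]
      refine Real.sqrt_le_iff.2 ⟨hρ'.le, ?_⟩
      calc ∑ A, ‖ξ A‖ ^ 2 ≤ ∑ _A : Fin d, (ρ' * s) ^ 2 := by
            refine Finset.sum_le_sum fun A _ => ?_
            rw [Real.norm_eq_abs]
            exact pow_le_pow_left₀ (abs_nonneg _) (hξ' A) 2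
        _ = ρ' ^ 2 * (d * s ^ 2) := by
            rw [Finset.sum_const, Finset.card_univ, Fintype.card_fin, nsmul_eq_mul]
            ring
        _ ≤ ρ' ^ 2 := mul_le_of_le_one_right (sq_nonneg _) hsd
    refine ⟨hn.trans hle, g ξ, ?_, rfl⟩
    rw [hEi]
    refine ⟨ξ, ⟨hn, fun B => ?_⟩, rfl⟩
    have := hξ (φ (Sum.inr B))
    rw [Equiv.symm_apply_apply, Sum.elim_inr] at this
    refine this.trans (mul_le_of_le_one_right hδ.le ?_)
    rw [hs, div_le_one (by positivity)]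
    linarith [(Nat.cast_nonneg d : (0 : ℝ) ≤ d)]
  rw [vol_box] at h5
  have h6 : (∏ A, ENNReal.ofReal (2 * Sum.elim (fun _ => ρ' * s) (fun _ => δ * s) (φ.symm A))) =
      ENNReal.ofReal ((2 * (ρ' * s)) ^ dh * (2 * (δ * s)) ^ dm) := by
    rw [← ENNReal.ofReal_prod_of_nonneg (fun A _ => by
      rcases φ.symm A with a | a
      · simp only [Sum.elim_inl]
        positivity
      · simp only [Sum.elim_inr]
        positivity)]
    congr 1
    rw [← Equiv.prod_comp φ, Fintype.prod_sum_type]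
    simp
  rw [h6] at h5
  have h7 := h5.trans h4
  have h8 : hm N E = ENNReal.ofReal ((hm N).real E) := by
    rw [measureReal_def, ENNReal.ofReal_toReal (measure_ne_top _ _)]
  rw [h8, ← ENNReal.ofReal_mul hC.le, ENNReal.ofReal_le_ofReal_iff (by positivity)] at h7
  calc (2 * (ρ' * s)) ^ dh * (2 * s) ^ dm / C * δ ^ dm
      = ((2 * (ρ' * s)) ^ dh * (2 * (δ * s)) ^ dm) / C := by
        rw [show 2 * (δ * s) = (2 * s) * δ by ring, mul_pow (2 * s)]
        ring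
    _ ≤ (C * (hm N).real E) / C := by gcongr
    _ = (hm N).real E := by field_simp

end Vale.Agent.P353.AN.LW.LH4
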