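import Vale.Agent.P353.AN.LOW.StmtH
import Vale.Agent.P353.Z.U.Grp
import Vale.Agent.P353.Z.U.GrpExp

/-! # P353, all `N`, block LOW, LH9: the good elements move points of `InB` only little (helper793) -/

open MeasureTheory Filter Topology
open scoped ContDiff

namespace Vale.Agent.P353.AN.LW.GA

open Vale.Agent.P353.Z Vale.Agent.P353.Z.U Vale.Agent.P353.Z.AN Vale.Agent.P353.AN.G

variable {N d dh dm r ds : ℕ} {F : Type*} [NormedAddCommGroup F] [InnerProductSpace ℂ F]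

lemma ro_add (O : Matrix (Fin d) (Fin d) ℝ) (x y : Cfg d) : ro O (x + y) = ro O x + ro O y := by
  ext p
  simp only [grp_ro_apply, PiLp.add_apply, mul_add, Finset.sum_add_distrib]

lemma ro_sub (O : Matrix (Fin d) (Fin d) ℝ) (x y : Cfg d) : ro O (x - y) = ro O x - ro O y := by
  ext p
  simp only [grp_ro_apply, PiLp.sub_apply, mul_sub, Finset.sum_sub_distrib]

lemma ro_addl (O O' : Matrix (Fin d) (Fin d) ℝ) (x : Cfg d) : ro (O + O') x = ro O x + ro O' x := by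
  ext p
  simp only [grp_ro_apply, PiLp.add_apply, Matrix.add_apply, add_mul, Finset.sum_add_distrib]

lemma ro_subl (O O' : Matrix (Fin d) (Fin d) ℝ) (x : Cfg d) : ro (O - O') x = ro O x - ro O' x := by
  ext p
  simp only [grp_ro_apply, PiLp.sub_apply, Matrix.sub_apply, sub_mul, Finset.sum_sub_distrib]

lemma ro_zerol (x : Cfg d) : ro (0 : Matrix (Fin d) (Fin d) ℝ) x = 0 := by
  ext p
  simp [grp_ro_apply]

/-- norm of a configuration is at most the sum of the absolute values of the entries -/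
lemma norm_le_sum (y : Cfg d) : ‖y‖ ≤ ∑ p, |y p| := by
  rw [EuclideanSpace.norm_eq]
  refine Real.sqrt_le_iff.2 ⟨Finset.sum_nonneg fun p _ => abs_nonneg _, ?_⟩
  simp only [Real.norm_eq_abs]
  exact Finset.sum_sq_le_sq_sum_of_nonneg fun p _ => abs_nonneg _

lemma ro_bd (O : Matrix (Fin d) (Fin d) ℝ) (x : Cfg d) (b : ℝ) (hb : ∀ A C, |O A C| ≤ b) :
    ‖ro O x‖ ≤ (9 * d * d) * b * ‖x‖ := by
  refine (norm_le_sum _).trans ?_
  have h1 : ∀ p : Fin 9 × Fin d, |ro O x p| ≤ d * (b * ‖x‖) := by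
    intro p
    rw [grp_ro_apply]
    refine (Finset.abs_sum_le_sum_abs _ _).trans ?_
    refine (Finset.sum_le_card_nsmul _ _ (b * ‖x‖) fun C _ => ?_).trans ?_
    · rw [abs_mul]
      have h2 : |x (p.1, C)| ≤ ‖x‖ := by
        have := PiLp.norm_apply_le x (p.1, C)
        rwa [Real.norm_eq_abs] at this
      exact mul_le_mul (hb _ _) h2 (abs_nonneg _) ((abs_nonneg _).trans (hb p.2 C))
    · simp
  refine (Finset.sum_le_card_nsmul _ _ _ fun p _ => h1 p).trans ?_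
  simp only [Finset.card_univ, Fintype.card_prod, Fintype.card_fin, nsmul_eq_mul]
  push_cast
  apply le_of_eq
  ring

/-- sum of the absolute values of the structure constants -/
noncomputable def F0 (S : Setup d F) : ℝ := ∑ A, ∑ B, ∑ C, |S.f A B C|

lemma F0_nonneg (S : Setup d F) : 0 ≤ F0 S :=
  Finset.sum_nonneg fun _ _ => Finset.sum_nonneg fun _ _ => Finset.sum_nonneg fun _ _ => abs_nonneg _

lemma adm_le (S : Setup d F) (a : Fin d → ℝ) (s : ℝ) (hs : ∀ B, |a B| ≤ s) (A C : Fin d) :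
    |S.adm a A C| ≤ F0 S * s := by
  have e : S.adm a A C = ∑ B, S.f A B C * a B := rfl
  rw [e]
  refine (Finset.abs_sum_le_sum_abs _ _).trans ?_
  have h1 : ∑ B, |S.f A B C * a B| ≤ ∑ B, |S.f A B C| * s := by
    refine Finset.sum_le_sum fun B _ => ?_
    rw [abs_mul]
    exact mul_le_mul_of_nonneg_left (hs B) (abs_nonneg _)
  refine h1.trans ?_
  rw [← Finset.sum_mul]
  rcases (Finset.univ : Finset (Fin d)).eq_empty_or_nonempty with h0 | ⟨B0, _⟩
  · exact absurd (Finset.mem_univ A) (by rw [h0]; simp)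
  have hs0 : 0 ≤ s := (abs_nonneg _).trans (hs B0)
  refine mul_le_mul_of_nonneg_right ?_ hs0
  have h2 : ∑ B, |S.f A B C| ≤ ∑ B, ∑ C', |S.f A B C'| :=
    Finset.sum_le_sum fun B _ => Finset.single_le_sum (f := fun C' => |S.f A B C'|)
      (fun _ _ => abs_nonneg _) (Finset.mem_univ C)
  refine h2.trans ?_
  exact Finset.single_le_sum (f := fun A' => ∑ B, ∑ C', |S.f A' B C'|)
    (fun _ _ => Finset.sum_nonneg fun _ _ => Finset.sum_nonneg fun _ _ => abs_nonneg _)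
    (Finset.mem_univ A)

/-- `‖[a, x]‖ ≤ C₀ sup|a| ‖x‖` -/
lemma adm_bd (S : Setup d F) (a : Fin d → ℝ) (s : ℝ) (hs : ∀ B, |a B| ≤ s) (x : Cfg d) :
    ‖ro (S.adm a) x‖ ≤ ((9 * d * d) * F0 S) * s * ‖x‖ := by
  refine (ro_bd (S.adm a) x (F0 S * s) (adm_le S a s hs)).trans (le_of_eq ?_)
  ring

lemma adm_add (S : Setup d F) (a b : Fin d → ℝ) : S.adm (a + b) = S.adm a + S.adm b := by
  ext A C
  show ∑ B, S.f A B C * (a B + b B) = ∑ B, S.f A B C * a B + ∑ B, S.f A B C * b B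
  rw [← Finset.sum_add_distrib]
  exact Finset.sum_congr rfl fun B _ => by ring

lemma adm_smul (S : Setup d F) (c : ℝ) (a : Fin d → ℝ) : S.adm (c • a) = c • S.adm a := by
  ext A C
  show ∑ B, S.f A B C * (c * a B) = c * ∑ B, S.f A B C * a B
  rw [Finset.mul_sum]
  exact Finset.sum_congr rfl fun B _ => by ring

lemma norm_exp (S : Setup d F) (a : Fin d → ℝ) (t : ℝ) (x : Cfg d) :
    ‖ro (NormedSpace.exp (t • S.adm a)) x‖ = ‖x‖ := grp_norm (gx983_orth S a t) x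

open scoped Matrix.Norms.Operator in
lemma exp_comm (A : Matrix (Fin d) (Fin d) ℝ) (t : ℝ) :
    A * NormedSpace.exp (t • A) = NormedSpace.exp (t • A) * A :=
  (((Commute.refl A).smul_right t).exp_right).eq

open scoped Matrix.Norms.Operator in
lemma exp_comm' (Q A : Matrix (Fin d) (Fin d) ℝ) (h : Q * A = A * Q) (t : ℝ) :
    Q * NormedSpace.exp (t • A) = NormedSpace.exp (t • A) * Q :=
  ((Commute.smul_right (show Commute Q A from h) t).exp_right).eq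

/-- `‖exp(t ad a)x - x‖ ≤ |t| ‖[a,x]‖` -/
lemma exp_sub (S : Setup d F) (a : Fin d → ℝ) (t : ℝ) (x : Cfg d) :
    ‖ro (NormedSpace.exp (t • S.adm a)) x - x‖ ≤ ‖ro (S.adm a) x‖ * |t| := by
  have h := Convex.norm_image_sub_le_of_norm_hasDerivWithin_le (s := Set.univ) (x := (0 : ℝ))
    (y := t) (f := fun t : ℝ => ro (NormedSpace.exp (t • S.adm a)) x)
    (f' := fun t => ro (S.adm a) (ro (NormedSpace.exp (t • S.adm a)) x))
    (C := ‖ro (S.adm a) x‖)
    (fun s _ => (gx983_hasDerivAt_ro (S.adm a) s x).hasDerivWithinAt)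
    (fun s _ => by
      rw [← grp_ro_mul, exp_comm, grp_ro_mul, norm_exp])
    convex_univ (Set.mem_univ _) (Set.mem_univ _)
  simp only [zero_smul, NormedSpace.exp_zero, grp_ro_one, sub_zero, Real.norm_eq_abs] at h
  exact h

/-- derivative of `exp(-sA)exp(sB)x` -/
lemma hasDeriv_prod (A B : Matrix (Fin d) (Fin d) ℝ) (x : Cfg d) (s : ℝ) :
    HasDerivAt (fun s : ℝ => ro (NormedSpace.exp (s • (-A)) * NormedSpace.exp (s • B)) x)
      (ro (NormedSpace.exp (s • (-A)) * (B - A) * NormedSpace.exp (s • B)) x) s := by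
  have h0 : ∀ i j, HasDerivAt (fun s : ℝ => (NormedSpace.exp (s • (-A)) * NormedSpace.exp (s • B)) i j)
      ((NormedSpace.exp (s • (-A)) * (B - A) * NormedSpace.exp (s • B)) i j) s := by
    intro i j
    have h1 : HasDerivAt (fun s : ℝ => ∑ k, NormedSpace.exp (s • (-A)) i k * NormedSpace.exp (s • B) k j)
        (∑ k, (((-A) * NormedSpace.exp (s • (-A))) i k * NormedSpace.exp (s • B) k j +
          NormedSpace.exp (s • (-A)) i k * (B * NormedSpace.exp (s • B)) k j)) s :=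
      HasDerivAt.fun_sum fun k _ => (gx983_hasDerivAt_exp (-A) s i k).mul
        (gx983_hasDerivAt_exp B s k j)
    have e : (NormedSpace.exp (s • (-A)) * (B - A) * NormedSpace.exp (s • B)) i j =
        ∑ k, (((-A) * NormedSpace.exp (s • (-A))) i k * NormedSpace.exp (s • B) k j +
          NormedSpace.exp (s • (-A)) i k * (B * NormedSpace.exp (s • B)) k j) := by
      rw [Finset.sum_add_distrib, ← Matrix.mul_apply, ← Matrix.mul_apply, exp_comm, ← Matrix.add_apply]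
      simp only [Matrix.mul_sub, Matrix.sub_mul, Matrix.mul_neg, Matrix.neg_mul, Matrix.mul_assoc]
      rw [sub_eq_add_neg, add_comm]
    rw [e]
    exact h1
  have h1 : HasDerivAt (fun s : ℝ => fun p : Fin 9 × Fin d =>
      ∑ C, (NormedSpace.exp (s • (-A)) * NormedSpace.exp (s • B)) p.2 C * x (p.1, C))
      (fun p : Fin 9 × Fin d => ∑ C,
        (NormedSpace.exp (s • (-A)) * (B - A) * NormedSpace.exp (s • B)) p.2 C * x (p.1, C)) s :=
    hasDerivAt_pi.2 fun p => HasDerivAt.fun_sum fun C _ => (h0 p.2 C).mul_const _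
  exact (PiLp.continuousLinearEquiv 2 ℝ (fun _ : Fin 9 × Fin d => ℝ)).symm.hasFDerivAt.comp_hasDerivAt
    s h1

/-- `‖exp(t ad a)x - exp(t ad b)x‖ ≤ C |t| ‖x‖` if `‖[b - a, y]‖ ≤ C ‖y‖` -/
lemma exp_diff (S : Setup d F) (a b : Fin d → ℝ) (C : ℝ)
    (hC : ∀ y : Cfg d, ‖ro (S.adm b - S.adm a) y‖ ≤ C * ‖y‖) (t : ℝ) (x : Cfg d) :
    ‖ro (NormedSpace.exp (t • S.adm a)) x - ro (NormedSpace.exp (t • S.adm b)) x‖ ≤ C * ‖x‖ * |t| := by
  have hneg : ∀ s : ℝ, s • (-S.adm a) = (-s) • S.adm a := fun s => by rw [smul_neg, neg_smul]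
  have h := Convex.norm_image_sub_le_of_norm_hasDerivWithin_le (s := Set.univ) (x := (0 : ℝ))
    (y := t) (f := fun s : ℝ => ro (NormedSpace.exp (s • (-S.adm a)) * NormedSpace.exp (s • S.adm b)) x)
    (f' := fun s => ro (NormedSpace.exp (s • (-S.adm a)) * (S.adm b - S.adm a) *
      NormedSpace.exp (s • S.adm b)) x)
    (C := C * ‖x‖)
    (fun s _ => (hasDeriv_prod (S.adm a) (S.adm b) x s).hasDerivWithinAt)
    (fun s _ => by
      rw [grp_ro_mul, grp_ro_mul, hneg, norm_exp]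
      refine (hC _).trans ?_
      rw [norm_exp])
    convex_univ (Set.mem_univ _) (Set.mem_univ _)
  simp only [zero_smul, NormedSpace.exp_zero, grp_ro_one, sub_zero, Real.norm_eq_abs, mul_one] at h
  have h2 : ro (NormedSpace.exp (t • (-S.adm a)) * NormedSpace.exp (t • S.adm b)) x - x =
      ro (NormedSpace.exp (t • (-S.adm a))) (ro (NormedSpace.exp (t • S.adm b)) x -
        ro (NormedSpace.exp (t • S.adm a)) x) := by
    rw [ro_sub, ← grp_ro_mul, ← grp_ro_mul]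
    congr 1
    have : NormedSpace.exp (t • (-S.adm a)) * NormedSpace.exp (t • S.adm a) = 1 := by
      have h3 := gx983_orth S a t
      rwa [← Matrix.exp_transpose, Matrix.transpose_smul, gx983_adm_transpose] at h3
    rw [this, grp_ro_one]
  rw [h2, hneg, norm_exp] at h
  rw [norm_sub_rev]
  exact h

/-! ## the splitting -/

/-- `m`-part of a colour vector -/
noncomputable def am (φ : Spl dh dm d) (a : Fin d → ℝ) : Fin d → ℝ :=
  fun A => Sum.elim (fun _ => 0) (fun B => a (φ (Sum.inr B))) (φ.symm A)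

/-- `h`-part of a colour vector -/
noncomputable def ah (φ : Spl dh dm d) (a : Fin d → ℝ) : Fin d → ℝ :=
  fun A => Sum.elim (fun B => a (φ (Sum.inl B))) (fun _ => 0) (φ.symm A)

lemma am_ah (φ : Spl dh dm d) (a : Fin d → ℝ) : a = ah φ a + am φ a := by
  funext A
  obtain ⟨B, rfl⟩ := φ.surjective A
  rcases B with B | B <;> simp [am, ah]

/-- `z`-part of a configuration -/
noncomputable def x1 (φ : Spl dh dm d) (ψ : Spz r ds dh) (x : Cfg d) : Cfg d :=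
  WithLp.toLp 2 fun p => Sum.elim (fun B => Sum.elim (fun _ => x p) (fun _ => 0) (ψ.symm B))
    (fun _ => 0) (φ.symm p.2)

/-- `s`-part of a configuration -/
noncomputable def x2 (φ : Spl dh dm d) (ψ : Spz r ds dh) (x : Cfg d) : Cfg d :=
  WithLp.toLp 2 fun p => Sum.elim (fun B => Sum.elim (fun _ => 0) (fun _ => x p) (ψ.symm B))
    (fun _ => 0) (φ.symm p.2)

/-- `m`-part of a configuration -/
noncomputable def x3 (φ : Spl dh dm d) (x : Cfg d) : Cfg d :=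
  WithLp.toLp 2 fun p => Sum.elim (fun _ => 0) (fun _ => x p) (φ.symm p.2)

lemma x123 (φ : Spl dh dm d) (ψ : Spz r ds dh) (x : Cfg d) : x = x1 φ ψ x + x2 φ ψ x + x3 φ x := by
  ext ⟨i, A⟩
  obtain ⟨B, rfl⟩ := φ.surjective A
  rcases B with B | B
  · obtain ⟨C, rfl⟩ := ψ.surjective B
    rcases C with C | C <;> simp [x1, x2, x3]
  · simp [x1, x2, x3]

lemma nsq (φ : Spl dh dm d) (ψ : Spz r ds dh) (y : Cfg d) :
    ‖y‖ ^ 2 = ‖hz ψ (zy φ y)‖ ^ 2 + ‖hs ψ (zy φ y)‖ ^ 2 + ‖pm φ y‖ ^ 2 := by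
  simp only [EuclideanSpace.norm_sq_eq, Fintype.sum_prod_type, ← Finset.sum_add_distrib]
  refine Finset.sum_congr rfl fun i _ => ?_
  rw [← φ.sum_comp, Fintype.sum_sum_type, ← ψ.sum_comp, Fintype.sum_sum_type]
  rfl

lemma hz_le (φ : Spl dh dm d) (ψ : Spz r ds dh) (y : Cfg d) : ‖hz ψ (zy φ y)‖ ≤ ‖y‖ := by
  refine le_of_sq_le_sq ?_ (norm_nonneg _)
  rw [nsq φ ψ y]
  nlinarith [sq_nonneg ‖hs ψ (zy φ y)‖, sq_nonneg ‖pm φ y‖]

lemma hs_le (φ : Spl dh dm d) (ψ : Spz r ds dh) (y : Cfg d) : ‖hs ψ (zy φ y)‖ ≤ ‖y‖ := by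
  refine le_of_sq_le_sq ?_ (norm_nonneg _)
  rw [nsq φ ψ y]
  nlinarith [sq_nonneg ‖hz ψ (zy φ y)‖, sq_nonneg ‖pm φ y‖]

lemma pm_le (φ : Spl dh dm d) (ψ : Spz r ds dh) (y : Cfg d) : ‖pm φ y‖ ≤ ‖y‖ := by
  refine le_of_sq_le_sq ?_ (norm_nonneg _)
  rw [nsq φ ψ y]
  nlinarith [sq_nonneg ‖hz ψ (zy φ y)‖, sq_nonneg ‖hs ψ (zy φ y)‖]

lemma n1 (φ : Spl dh dm d) (ψ : Spz r ds dh) (x : Cfg d) : ‖x1 φ ψ x‖ = ‖hz ψ (zy φ x)‖ := by
  refine (sq_eq_sq₀ (norm_nonneg _) (norm_nonneg _)).1 ?_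
  rw [nsq φ ψ (x1 φ ψ x)]
  have h1 : hz ψ (zy φ (x1 φ ψ x)) = hz ψ (zy φ x) := by
    ext p; simp [hz, zy, x1]
  have h2 : hs ψ (zy φ (x1 φ ψ x)) = 0 := by
    ext p; simp [hs, zy, x1]
  have h3 : pm φ (x1 φ ψ x) = 0 := by
    ext p; simp [pm, x1]
  rw [h1, h2, h3]
  simp

lemma n2 (φ : Spl dh dm d) (ψ : Spz r ds dh) (x : Cfg d) : ‖x2 φ ψ x‖ = ‖hs ψ (zy φ x)‖ := by
  refine (sq_eq_sq₀ (norm_nonneg _) (norm_nonneg _)).1 ?_
  rw [nsq φ ψ (x2 φ ψ x)]
  have h1 : hz ψ (zy φ (x2 φ ψ x)) = 0 := by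
    ext p; simp [hz, zy, x2]
  have h2 : hs ψ (zy φ (x2 φ ψ x)) = hs ψ (zy φ x) := by
    ext p; simp [hs, zy, x2]
  have h3 : pm φ (x2 φ ψ x) = 0 := by
    ext p; simp [pm, x2]
  rw [h1, h2, h3]
  simp

lemma n3 (φ : Spl dh dm d) (ψ : Spz r ds dh) (x : Cfg d) : ‖x3 φ x‖ = ‖pm φ x‖ := by
  refine (sq_eq_sq₀ (norm_nonneg _) (norm_nonneg _)).1 ?_
  rw [nsq φ ψ (x3 φ x)]
  have h1 : hz ψ (zy φ (x3 φ x)) = 0 := by
    ext p; simp [hz, zy, x3]
  have h2 : hs ψ (zy φ (x3 φ x)) = 0 := by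
    ext p; simp [hs, zy, x3]
  have h3 : pm φ (x3 φ x) = pm φ x := by
    ext p; simp [pm, x3]
  rw [h1, h2, h3]
  simp

/-! ## structure -/

lemma fml (S : Setup d F) (φ : Spl dh dm d) (h : S.IsSub φ) (A B C) :
    S.f (φ (Sum.inr A)) (φ (Sum.inl B)) (φ (Sum.inl C)) = 0 := by
  rw [S.f_cyc]; exact h _ _ _

lemma flm (S : Setup d F) (φ : Spl dh dm d) (h : S.IsSub φ) (A B C) :
    S.f (φ (Sum.inl A)) (φ (Sum.inr B)) (φ (Sum.inl C)) = 0 := by
  rw [← S.f_cyc]; exact h _ _ _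

/-- `[ξ_h, z] = 0` -/
lemma ad_z (S : Setup d F) (φ : Spl dh dm d) (ψ : Spz r ds dh) (h : S.IsSub φ) (hZ : IsZ S φ ψ)
    (a : Fin d → ℝ) (x : Cfg d) : ro (S.adm (ah φ a)) (x1 φ ψ x) = 0 := by
  ext ⟨i, A⟩
  rw [grp_ro_apply]
  show ∑ C, (∑ B, S.f A B C * ah φ a B) * x1 φ ψ x (i, C) = 0
  rw [← φ.sum_comp, Fintype.sum_sum_type]
  have e2 : ∀ C : Fin dm, x1 φ ψ x (i, φ (Sum.inr C)) = 0 := fun C => by simp [x1]
  simp only [e2, mul_zero, Finset.sum_const_zero, add_zero]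
  rw [← ψ.sum_comp, Fintype.sum_sum_type]
  have e3 : ∀ C : Fin ds, x1 φ ψ x (i, φ (Sum.inl (ψ (Sum.inr C)))) = 0 := fun C => by simp [x1]
  simp only [e3, mul_zero, Finset.sum_const_zero, add_zero]
  refine Finset.sum_eq_zero fun C _ => ?_
  rw [mul_eq_zero]
  left
  rw [← φ.sum_comp, Fintype.sum_sum_type]
  have e4 : ∀ B : Fin dm, ah φ a (φ (Sum.inr B)) = 0 := fun B => by simp [ah]
  simp only [e4, mul_zero, Finset.sum_const_zero, add_zero]
  refine Finset.sum_eq_zero fun B _ => ?_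
  rw [mul_eq_zero]
  left
  obtain ⟨A', rfl⟩ := φ.surjective A
  rcases A' with A' | A'
  · rw [← S.f_cyc]
    exact hZ C A' B
  · exact fml S φ h _ _ _

/-- projection onto `h` -/
noncomputable def QQ (φ : Spl dh dm d) : Matrix (Fin d) (Fin d) ℝ :=
  Matrix.diagonal fun A => Sum.elim (fun _ => 1) (fun _ => 0) (φ.symm A)

lemma QQ_comm (S : Setup d F) (φ : Spl dh dm d) (h : S.IsSub φ) (a : Fin d → ℝ) :
    QQ φ * S.adm (ah φ a) = S.adm (ah φ a) * QQ φ := by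
  ext A C
  rw [QQ, Matrix.diagonal_mul, Matrix.mul_diagonal]
  have hz : ∀ A C, S.adm (ah φ a) A C = ∑ B : Fin dh, S.f A (φ (Sum.inl B)) C * a (φ (Sum.inl B)) := by
    intro A C
    show ∑ B, S.f A B C * ah φ a B = _
    rw [← φ.sum_comp, Fintype.sum_sum_type]
    simp [ah]
  obtain ⟨A', rfl⟩ := φ.surjective A
  obtain ⟨C', rfl⟩ := φ.surjective C
  rcases A' with A' | A' <;> rcases C' with C' | C'
  · simp
  · rw [hz]
    simp [h A' _ C']
  · rw [hz]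
    simp [fml S φ h A' _ C']
  · simp

lemma exp_hm (S : Setup d F) (φ : Spl dh dm d) (h : S.IsSub φ) (a : Fin d → ℝ) (t : ℝ)
    (A : Fin dm) (C : Fin dh) :
    NormedSpace.exp (t • S.adm (ah φ a)) (φ (Sum.inr A)) (φ (Sum.inl C)) = 0 := by
  have e := exp_comm' (QQ φ) (S.adm (ah φ a)) (QQ_comm S φ h a) t
  have e2 := congrFun (congrFun e (φ (Sum.inr A))) (φ (Sum.inl C))
  rw [QQ, Matrix.diagonal_mul, Matrix.mul_diagonal] at e2
  simpa using e2.symm

/-- `exp(t ad ξ_h)` maps the `s`-part into `h` -/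
lemma pm_x2 (S : Setup d F) (φ : Spl dh dm d) (ψ : Spz r ds dh) (h : S.IsSub φ)
    (a : Fin d → ℝ) (t : ℝ) (x : Cfg d) :
    pm φ (ro (NormedSpace.exp (t • S.adm (ah φ a))) (x2 φ ψ x)) = 0 := by
  ext ⟨i, A⟩
  show ∑ C, NormedSpace.exp (t • S.adm (ah φ a)) (φ (Sum.inr A)) C * x2 φ ψ x (i, C) = 0
  rw [← φ.sum_comp, Fintype.sum_sum_type]
  have e2 : ∀ C : Fin dm, x2 φ ψ x (i, φ (Sum.inr C)) = 0 := fun C => by simp [x2]
  simp [e2, exp_hm S φ h]

lemma pm_add (φ : Spl dh dm d) (x y : Cfg d) : pm φ (x + y) = pm φ x + pm φ y := rfl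
lemma pm_sub (φ : Spl dh dm d) (x y : Cfg d) : pm φ (x - y) = pm φ x - pm φ y := rfl
lemma hz_sub (φ : Spl dh dm d) (ψ : Spz r ds dh) (x y : Cfg d) :
    hz ψ (zy φ (x - y)) = hz ψ (zy φ x) - hz ψ (zy φ y) := rfl
lemma hs_sub (φ : Spl dh dm d) (ψ : Spz r ds dh) (x y : Cfg d) :
    hs ψ (zy φ (x - y)) = hs ψ (zy φ x) - hs ψ (zy φ y) := rfl

end Vale.Agent.P353.AN.LW.GA

namespace Vale.Agent.P353.AN.LW

open Vale.Agent.P353.Z Vale.Agent.P353.Z.U Vale.Agent.P353.Z.AN Vale.Agent.P353.AN.G GA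

variable {N d : ℕ} {F : Type*} [NormedAddCommGroup F] [InnerProductSpace ℂ F]

/-- **LH9 GoodA** -/
theorem goodA_stmt (M : BFSS.Model N d F) (h5 : AdEStmt M) : GoodAStmt M := by
  intro S hS dh dm r ds φ ψ hsub hZ K hK L hL
  obtain ⟨B₀, hB₀⟩ := hK.isBounded.exists_norm_le
  obtain ⟨B, hB, hB0⟩ : ∃ B : ℝ, (∀ x ∈ K, ‖x‖ ≤ B) ∧ 0 ≤ B :=
    ⟨max B₀ 0, fun x hx => (hB₀ x hx).trans (le_max_left _ _), le_max_right _ _⟩
  obtain ⟨c, hc⟩ : ∃ c : ℝ, c = (9 * d * d) * F0 S := ⟨_, rfl⟩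
  have hc0 : 0 ≤ c := by
    rw [hc]
    have := F0_nonneg S
    positivity
  refine ⟨1, c * B + c * L + 2 * L + 1, one_pos, by positivity, ?_⟩
  intro R hR U ξ hξ hm hU x hx
  obtain ⟨hx1, hx2, hx3⟩ := hx
  have hR0 : 0 < R := by linarith
  obtain ⟨q, hq⟩ : ∃ q : ℝ, q = Real.sqrt R := ⟨_, rfl⟩
  have hq1 : 1 ≤ q := by
    rw [hq]
    exact Real.one_le_sqrt.2 hR
  have hq0 : 0 < q := by linarith
  have hqq : q * q = R := by rw [hq]; exact Real.mul_self_sqrt hR0.le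
  rw [← hq] at hm hx3 ⊢
  obtain ⟨a, ha⟩ : ∃ a : Fin d → ℝ, a = ξ := ⟨_, rfl⟩
  have hact : M.act U x = ro (NormedSpace.exp ((-1 : ℝ) • S.adm a)) x := by
    rw [ha, ← h5 S hS U ξ hU]
    rfl
  obtain ⟨μ, hμ⟩ : ∃ μ : ℝ, μ = (R * q)⁻¹ := ⟨_, rfl⟩
  have hμ0 : 0 < μ := by rw [hμ]; positivity
  have hμR : μ * R = q⁻¹ := by
    rw [hμ]
    field_simp
  have hqμ : q * μ ≤ 1 := by
    have : q * μ = R⁻¹ := by
      rw [hμ]
      field_simp
    rw [this]
    exact inv_le_one_of_one_le₀ hR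
  have ham : ∀ A, |am φ a A| ≤ μ := by
    intro A
    obtain ⟨A', rfl⟩ := φ.surjective A
    rcases A' with A' | A'
    · simp only [am, Equiv.symm_apply_apply, Sum.elim_inl, abs_zero]
      exact hμ0.le
    · simp only [am, Equiv.symm_apply_apply, Sum.elim_inr]
      rw [ha, hμ]
      exact hm A'
  have haξ : ∀ A, |a A| ≤ ‖ξ‖ := by
    intro A
    have := PiLp.norm_apply_le ξ A
    rw [Real.norm_eq_abs] at this
    rw [ha]
    exact this
  have hN1 : ‖x1 φ ψ x‖ ≤ R * B := by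
    rw [n1]
    have h1 := hB _ hx1
    rw [norm_smul, norm_inv, Real.norm_of_nonneg hR0.le] at h1
    rwa [inv_mul_le_iff₀ hR0] at h1
  have hN2 : ‖x2 φ ψ x‖ ≤ L := by
    rw [n2]
    exact hx2
  have hN3 : q * ‖x3 φ x‖ ≤ L := by
    rw [n3 φ ψ x]
    rwa [norm_smul, Real.norm_of_nonneg hq0.le] at hx3
  -- the three differences
  have hD1 : ‖ro (NormedSpace.exp ((-1 : ℝ) • S.adm a)) (x1 φ ψ x) - x1 φ ψ x‖ ≤ c * B * q⁻¹ := by
    refine (exp_sub S a (-1) _).trans ?_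
    have h1 : ro (S.adm a) (x1 φ ψ x) = ro (S.adm (am φ a)) (x1 φ ψ x) := by
      conv_lhs => rw [am_ah φ a, adm_add, ro_addl, ad_z S φ ψ hsub hZ, zero_add]
    rw [h1]
    have h2 := adm_bd S (am φ a) μ ham (x1 φ ψ x)
    rw [← hc] at h2
    have h3 : c * μ * ‖x1 φ ψ x‖ ≤ c * μ * (R * B) := by
      have : 0 ≤ c * μ := by positivity
      gcongr
    calc _ ≤ c * μ * (R * B) * |(-1 : ℝ)| := by
            have : (0 : ℝ) ≤ |(-1 : ℝ)| := abs_nonneg _
            gcongr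
            exact h2.trans h3
      _ = c * B * (μ * R) := by rw [abs_neg, abs_one]; ring
      _ = _ := by rw [hμR]
  have hD2 : ‖ro (NormedSpace.exp ((-1 : ℝ) • S.adm a)) (x2 φ ψ x) - x2 φ ψ x‖ ≤ c * L * ‖ξ‖ := by
    refine (exp_sub S a (-1) _).trans ?_
    rw [abs_neg, abs_one, mul_one]
    have h2 := adm_bd S a ‖ξ‖ haξ (x2 φ ψ x)
    rw [← hc] at h2
    refine h2.trans ?_
    have : c * ‖ξ‖ * ‖x2 φ ψ x‖ ≤ c * ‖ξ‖ * L := by
      have : 0 ≤ c * ‖ξ‖ := by positivity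
      gcongr
    linarith
  have hD3 : ‖ro (NormedSpace.exp ((-1 : ℝ) • S.adm a)) (x3 φ x) - x3 φ x‖ ≤ 2 * L * q⁻¹ := by
    refine (norm_sub_le _ _).trans ?_
    rw [norm_exp]
    have : ‖x3 φ x‖ ≤ L * q⁻¹ := by
      rw [← div_eq_mul_inv, le_div_iff₀ hq0]
      linarith
    linarith
  have hdiff : ‖M.act U x - x‖ ≤ (c * B + c * L + 2 * L + 1) * (‖ξ‖ + q⁻¹) := by
    have e : M.act U x - x =
        (ro (NormedSpace.exp ((-1 : ℝ) • S.adm a)) (x1 φ ψ x) - x1 φ ψ x) +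
        (ro (NormedSpace.exp ((-1 : ℝ) • S.adm a)) (x2 φ ψ x) - x2 φ ψ x) +
        (ro (NormedSpace.exp ((-1 : ℝ) • S.adm a)) (x3 φ x) - x3 φ x) := by
      rw [hact]
      conv_lhs => rw [x123 φ ψ x, ro_add, ro_add]
      abel
    rw [e]
    refine (norm_add₃_le).trans ?_
    have h1 : 0 ≤ q⁻¹ := by positivity
    have h2 : 0 ≤ ‖ξ‖ := norm_nonneg _
    have h3 : 0 ≤ c * B := by positivity
    have h4 : 0 ≤ c * L := by positivity
    nlinarith [mul_nonneg h3 h2, mul_nonneg h4 h1, mul_nonneg hL.le h2]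
  refine ⟨?_, ?_, ?_⟩
  · rw [← hz_sub]
    exact (hz_le φ ψ _).trans hdiff
  · rw [← hs_sub]
    exact (hs_le φ ψ _).trans hdiff
  · have e : pm φ (M.act U x) =
        pm φ (ro (NormedSpace.exp ((-1 : ℝ) • S.adm a)) (x1 φ ψ x) - x1 φ ψ x) +
        pm φ (ro (NormedSpace.exp ((-1 : ℝ) • S.adm a)) (x2 φ ψ x) -
          ro (NormedSpace.exp ((-1 : ℝ) • S.adm (ah φ a))) (x2 φ ψ x)) +
        pm φ (ro (NormedSpace.exp ((-1 : ℝ) • S.adm a)) (x3 φ x)) := by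
      rw [hact]
      conv_lhs => rw [x123 φ ψ x, ro_add, ro_add]
      rw [pm_add, pm_add, pm_sub, pm_sub, pm_x2 S φ ψ hsub, sub_zero]
      have : pm φ (x1 φ ψ x) = 0 := by
        ext p; simp [pm, x1]
      rw [this, sub_zero]
    have h2 : ‖ro (NormedSpace.exp ((-1 : ℝ) • S.adm a)) (x2 φ ψ x) -
          ro (NormedSpace.exp ((-1 : ℝ) • S.adm (ah φ a))) (x2 φ ψ x)‖ ≤ c * μ * L := by
      have h3 := exp_diff S a (ah φ a) (c * μ) (fun y => by
        have e1 : S.adm (ah φ a) - S.adm a = S.adm ((-1 : ℝ) • am φ a) := by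
          conv_lhs => rw [am_ah φ a, adm_add]
          rw [adm_smul]
          have : ah φ (ah φ a + am φ a) = ah φ a := by rw [← am_ah]
          rw [this, neg_one_smul]
          abel
        rw [e1, hc]
        refine adm_bd S _ μ (fun A => ?_) y
        simp only [Pi.smul_apply, smul_eq_mul, neg_mul, one_mul, abs_neg]
        exact ham A) (-1) (x2 φ ψ x)
      rw [abs_neg, abs_one, mul_one] at h3
      refine h3.trans ?_
      have : 0 ≤ c * μ := by positivity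
      gcongr
    rw [norm_smul, Real.norm_of_nonneg hq0.le, e]
    have h4 := (norm_add₃_le (a := pm φ (ro (NormedSpace.exp ((-1 : ℝ) • S.adm a)) (x1 φ ψ x) - x1 φ ψ x))
      (b := pm φ (ro (NormedSpace.exp ((-1 : ℝ) • S.adm a)) (x2 φ ψ x) -
          ro (NormedSpace.exp ((-1 : ℝ) • S.adm (ah φ a))) (x2 φ ψ x)))
      (c := pm φ (ro (NormedSpace.exp ((-1 : ℝ) • S.adm a)) (x3 φ x))))
    have h5 := (pm_le φ ψ (ro (NormedSpace.exp ((-1 : ℝ) • S.adm a)) (x1 φ ψ x) - x1 φ ψ x)).trans hD1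
    have h6 := (pm_le φ ψ (ro (NormedSpace.exp ((-1 : ℝ) • S.adm a)) (x2 φ ψ x) -
          ro (NormedSpace.exp ((-1 : ℝ) • S.adm (ah φ a))) (x2 φ ψ x))).trans h2
    have h7 := pm_le φ ψ (ro (NormedSpace.exp ((-1 : ℝ) • S.adm a)) (x3 φ x))
    rw [norm_exp] at h7
    have h8 : q * (c * B * q⁻¹) = c * B := by field_simp
    have h9 : q * (c * μ * L) ≤ c * L := by
      have : q * (c * μ * L) = (q * μ) * (c * L) := by ring
      rw [this]
      have h4 : 0 ≤ c * L := by positivity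
      nlinarith
    calc _ ≤ q * (c * B * q⁻¹ + c * μ * L + ‖x3 φ x‖) := by
            apply mul_le_mul_of_nonneg_left _ hq0.le
            linarith
      _ = q * (c * B * q⁻¹) + q * (c * μ * L) + q * ‖x3 φ x‖ := by ring
      _ ≤ _ := by rw [h8]; linarith

end Vale.Agent.P353.AN.LW
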