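import Vale.Agent.P353.AN.LOW.MolG
import Vale.Agent.P353.AN.X.VFr
import Vale.Agent.P353.AN.NF.Defs

/-! # P353, all `N`, block LOW: ground state data from the vacuum bundle -/

open MeasureTheory Filter Topology
open scoped ContDiff

namespace Vale.Agent.P353.AN.LW

open Vale.Agent.P353.Z Vale.Agent.P353.Z.U Vale.Agent.P353.Z.AN Vale.Agent.P353.AN.G

variable {N d dh dm dz ds : ℕ} {F : Type*} [NormedAddCommGroup F] [InnerProductSpace ℂ F]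

lemma gs_bl_z (φ : Spl dh dm d) (ψ : Spl ds dz dh) (a : Fin dz) : bl φ (spsw ψ) (φ (Sum.inl (ψ (Sum.inr a)))) = 0 := by
  have h : φ (Sum.inl (ψ (Sum.inr a))) = φ (Sum.inl (spsw ψ (Sum.inl a))) := rfl
  rw [h]
  simp [bl]

lemma gs_bl_s (φ : Spl dh dm d) (ψ : Spl ds dz dh) (a : Fin ds) : bl φ (spsw ψ) (φ (Sum.inl (ψ (Sum.inl a)))) = 1 := by
  have h : φ (Sum.inl (ψ (Sum.inl a))) = φ (Sum.inl (spsw ψ (Sum.inr a))) := rfl
  rw [h]
  simp [bl]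

lemma gs_bl_m (φ : Spl dh dm d) (ψ : Spl ds dz dh) (a : Fin dm) : bl φ (spsw ψ) (φ (Sum.inr a)) = 2 := by
  simp [bl]

lemma gs_bl_h (φ : Spl dh dm d) (ψ : Spl ds dz dh) (a : Fin dh) : bl φ (spsw ψ) (φ (Sum.inl a)) ≠ 2 := by
  obtain ⟨c, rfl⟩ := ψ.surjective a
  rcases c with c | c
  · rw [gs_bl_s]
    decide
  · rw [gs_bl_z]
    decide

/-- normaliser elements respect the splitting -/
theorem gs_blk {M : BFSS.Model N d F} {φ : Spl dh dm d} {ψ : Spl ds dz dh} {U : BFSS.SU N} (h : Nrm M φ (spsw ψ) U) :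
    Blk φ ψ (adO M.T U) := by
  refine ⟨fun A B => h _ _ ?_, fun A B => h _ _ ?_, fun A B => h _ _ ?_, fun A B => h _ _ ?_⟩
  · rw [gs_bl_m]
    exact gs_bl_h φ ψ A
  · rw [gs_bl_m]
    exact (gs_bl_h φ ψ A).symm
  · rw [gs_bl_s, gs_bl_z]
    decide
  · rw [gs_bl_s, gs_bl_z]
    decide

lemma gs_sum (φ : Spl dh dm d) (ψ : Spl ds dz dh) (g : Fin d → ℝ) : ∑ A, g A =
    (∑ a, g (φ (Sum.inl (ψ (Sum.inl a)))) + ∑ b, g (φ (Sum.inl (ψ (Sum.inr b))))) + ∑ c, g (φ (Sum.inr c)) := by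
  rw [← φ.sum_comp, Fintype.sum_sum_type]
  congr 1
  rw [← ψ.sum_comp (fun B => g (φ (Sum.inl B))), Fintype.sum_sum_type]

/-- the action on the `z`-part -/
theorem gs_z {M : BFSS.Model N d F} {φ : Spl dh dm d} {ψ : Spl ds dz dh} {U : BFSS.SU N} {η η' : Cfg dz}
    (h : M.act U (ezs φ (spsw ψ) η 0) = ezs φ (spsw ψ) η' 0) : η' = ro (zO φ ψ (adO M.T U)) η := by
  ext ⟨i, a⟩
  have h1 : η' (i, a) = M.act U (ezs φ (spsw ψ) η 0) (i, φ (Sum.inl (spsw ψ (Sum.inl a)))) := by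
    rw [h, ezs_z]
  rw [h1]
  show ∑ A, BFSS.adCoeff M.T U (φ (Sum.inl (spsw ψ (Sum.inl a)))) A * ezs φ (spsw ψ) η 0 (i, A) =
    ∑ B, zO φ ψ (adO M.T U) a B * η (i, B)
  rw [gs_sum φ ψ]
  have e1 : ∀ b : Fin ds, ezs φ (spsw ψ) η 0 (i, φ (Sum.inl (ψ (Sum.inl b)))) = 0 := fun b =>
    (ezs_s φ (spsw ψ) η 0 i b).trans rfl
  have e2 : ∀ b : Fin dz, ezs φ (spsw ψ) η 0 (i, φ (Sum.inl (ψ (Sum.inr b)))) = η (i, b) := fun b =>
    ezs_z φ (spsw ψ) η 0 i b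
  have e3 : ∀ b : Fin dm, ezs φ (spsw ψ) η 0 (i, φ (Sum.inr b)) = 0 := fun b => ezs_m φ (spsw ψ) η 0 i b
  simp only [e1, e2, e3, mul_zero, Finset.sum_const_zero, zero_add, add_zero]
  rfl

/-- the action on the `s`-part -/
theorem gs_s (M : BFSS.Model N d F) (φ : Spl dh dm d) (ψ : Spl ds dz dh) (U : BFSS.SU N) (s : Cfg ds) :
    hs (spsw ψ) (zy φ (M.act U (ezs φ (spsw ψ) 0 s))) = ro (sO φ ψ (adO M.T U)) s := by
  ext ⟨i, a⟩
  show ∑ A, BFSS.adCoeff M.T U (φ (Sum.inl (spsw ψ (Sum.inr a)))) A * ezs φ (spsw ψ) 0 s (i, A) =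
    ∑ B, sO φ ψ (adO M.T U) a B * s (i, B)
  rw [gs_sum φ ψ]
  have e1 : ∀ b : Fin ds, ezs φ (spsw ψ) 0 s (i, φ (Sum.inl (ψ (Sum.inl b)))) = s (i, b) := fun b =>
    ezs_s φ (spsw ψ) 0 s i b
  have e2 : ∀ b : Fin dz, ezs φ (spsw ψ) 0 s (i, φ (Sum.inl (ψ (Sum.inr b)))) = 0 := fun b =>
    (ezs_z φ (spsw ψ) 0 s i b).trans rfl
  have e3 : ∀ b : Fin dm, ezs φ (spsw ψ) 0 s (i, φ (Sum.inr b)) = 0 := fun b => ezs_m φ (spsw ψ) 0 s i b
  simp only [e1, e2, e3, mul_zero, Finset.sum_const_zero, zero_add, add_zero]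
  rfl

/-- **ground state data from the vacuum bundle** -/
theorem gsd_of {M : BFSS.Model N d F} (hA : ActStmt M) {S : Setup d F} {φ : Spl dh dm d} {ψ : Spl ds dz dh}
    {L : Finset (Fin dz → ℝ)} {Om : Cfg dz → Matrix (Fin dm) (Fin dm) ℝ} {K : Submodule ℂ F} {V : Cfg dz → F →L[ℂ] F}
    (hB : AX.Bun S φ (AX.Mz S φ (spsw (spsw ψ))) L Om K V) {w₀ : Cfg ds → F}
    (hw : MemLp w₀ 2 (volume : Measure (Cfg ds))) (hw1 : ∫ s, ‖w₀ s‖ ^ 2 = 1)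
    (hcov : ∀ U : BFSS.SU N, Blk φ ψ (adO M.T U) → ∀ η ∉ Coll L, ∀ᵐ s ∂(volume : Measure (Cfg ds)),
      M.S U (V η (hw.toLp w₀ s)) = V (ro (zO φ ψ (adO M.T U)) η) (hw.toLp w₀ (ro (sO φ ψ (adO M.T U)) s))) :
    Gsd M S φ (spsw ψ) L V w₀ Om := by
  have hrg : ∀ η, η ∉ Coll L → η ∈ Reg S φ (spsw ψ) := by
    intro η hη x hx
    have h := hB.det η hη
    rw [AX.DM_Dz] at h
    refine Matrix.eq_zero_of_mulVec_eq_zero h ?_
    rw [Matrix.sum_mulVec]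
    refine Finset.sum_eq_zero fun i _ => ?_
    have h1 : (Setup.Dz S φ (spsw ψ) η i).mulVec x = 0 := hx i
    rw [← Matrix.mulVec_mulVec, h1, Matrix.mulVec_zero]
  have hdet : ∀ η, η ∉ Coll L → (∑ i, DM (AX.Mz S φ (spsw (spsw ψ))) η i * DM (AX.Mz S φ (spsw (spsw ψ))) η i).det ≠ 0 :=
    fun η hη => hB.det η hη
  refine ⟨hB.L_ne, hB.closed, hrg, fun η v => ?_, hB.U_smooth.continuousOn,
    hB.U_surj, fun η hη => ?_, ?_, hw, hw1, ?_⟩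
  · have h := hB.U_inner η v v
    rw [inner_self_eq_norm_sq_to_K, inner_self_eq_norm_sq_to_K] at h
    have h2 : ‖V η v‖ ^ 2 = ‖v‖ ^ 2 := by exact_mod_cast h
    exact (pow_left_inj₀ (norm_nonneg _) (norm_nonneg _) two_ne_zero).1 h2
  · have h := hB.om η (hdet η hη)
    exact ⟨h.symm, h.pos⟩
  · refine continuousOn_pi.2 fun A => continuousOn_pi.2 fun B => ?_
    exact (hB.om_smooth A B).continuousOn.mono fun η hη => hdet η hη
  · intro U hU η η' hη hη' h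
    have h1 := gs_z h
    have hc := hcov U (gs_blk hU) η hη
    have hO : ∀ s, Os M φ (spsw ψ) U s = ro (sO φ ψ (adO M.T U)) s := fun s => gs_s M φ ψ U s
    have hae := hw.coeFn_toLp
    have hmp : MeasurePreserving (OsI hA hU : Cfg ds → Cfg ds) volume volume := (OsI hA hU).measurePreserving
    have hae2 := hmp.quasiMeasurePreserving.ae hae
    filter_upwards [hc, hae, hae2] with s k1 k2 k3
    rw [OsI_apply, hO] at k3
    rw [k2, k3, ← h1] at k1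
    rw [k1, gs_s]

end Vale.Agent.P353.AN.LW
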