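import Vale.Agent.P353.AN.LOW.StmtH

/-! # P353, all `N`, block LOW, LH3: Haar measure dominates Lebesgue measure in the exponential chart (helper378) -/

open MeasureTheory Filter Topology
open scoped ContDiff ENNReal NNReal

namespace Vale.Agent.P353.AN.LW

open Vale.Agent.P353.Z Vale.Agent.P353.Z.U Vale.Agent.P353.Z.AN Vale.Agent.P353.AN.G

namespace HL

variable {N d : ℕ} {F : Type*} [NormedAddCommGroup F] [InnerProductSpace ℂ F]

/-- the matrix as a Euclidean vector -/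
noncomputable def vv (X : Matrix (Fin N) (Fin N) ℂ) : EuclideanSpace ℂ (Fin N × Fin N) :=
  WithLp.toLp 2 fun p => X p.1 p.2

theorem fn_vv (X : Matrix (Fin N) (Fin N) ℂ) : fn X = ‖vv X‖ := by
  unfold fn
  rw [EuclideanSpace.norm_eq, Fintype.sum_prod_type]
  rfl

theorem fn_add (X Y : Matrix (Fin N) (Fin N) ℂ) : fn (X + Y) ≤ fn X + fn Y := by
  rw [fn_vv, fn_vv, fn_vv]
  exact norm_add_le (vv X) (vv Y)

theorem fn_neg (X : Matrix (Fin N) (Fin N) ℂ) : fn (-X) = fn X := by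
  unfold fn
  simp only [Matrix.neg_apply, norm_neg]

theorem fn_cont : Continuous (fn : Matrix (Fin N) (Fin N) ℂ → ℝ) := by
  unfold fn
  refine Real.continuous_sqrt.comp ?_
  refine continuous_finsetSum _ fun j _ => continuous_finsetSum _ fun k _ => ?_
  exact (continuous_norm.comp ((continuous_apply k).comp (continuous_apply j))).pow 2

theorem fn_sq (X : Matrix (Fin N) (Fin N) ℂ) :
    ((∑ j, ∑ k, ‖X j k‖ ^ 2 : ℝ) : ℂ) = (star X * X).trace := by
  rw [Matrix.trace]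
  push_cast
  rw [Finset.sum_comm]
  refine Finset.sum_congr rfl fun k _ => ?_
  rw [Matrix.diag_apply, Matrix.mul_apply]
  refine Finset.sum_congr rfl fun j _ => ?_
  rw [Matrix.star_apply, Complex.star_def, Complex.conj_mul']

theorem fn_mul (U : BFSS.SU N) (X : Matrix (Fin N) (Fin N) ℂ) : fn (U.val * X) = fn X := by
  have h : star U.val * U.val = 1 :=
    Matrix.mem_unitaryGroup_iff'.1 (Matrix.mem_specialUnitaryGroup_iff.1 U.2).1
  have h1 : ((∑ j, ∑ k, ‖(U.val * X) j k‖ ^ 2 : ℝ) : ℂ) = ((∑ j, ∑ k, ‖X j k‖ ^ 2 : ℝ) : ℂ) := by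
    rw [fn_sq, fn_sq, star_mul, mul_assoc, ← mul_assoc (star U.val), h, one_mul]
  unfold fn
  rw [Complex.ofReal_injective h1]

/-- Lipschitz images of sets in `ℝ^d` -/
theorem vol_image {s : Set (EuclideanSpace ℝ (Fin d))} {K : ℝ≥0}
    {g : EuclideanSpace ℝ (Fin d) → EuclideanSpace ℝ (Fin d)} (hg : LipschitzOnWith K g s) :
    (volume : Measure (EuclideanSpace ℝ (Fin d))) (g '' s) ≤ (K : ℝ≥0∞) ^ (d : ℝ) * volume s := by
  have h0 : (volume : Measure (EuclideanSpace ℝ (Fin d))) =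
      Measure.addHaarScalarFactor (volume : Measure (EuclideanSpace ℝ (Fin d)))
        (μH[(Module.finrank ℝ (EuclideanSpace ℝ (Fin d)) : ℝ)]) •
        (μH[(Module.finrank ℝ (EuclideanSpace ℝ (Fin d)) : ℝ)]) :=
    Measure.isAddLeftInvariant_eq_smul _ _
  have h1 := hg.hausdorffMeasure_image_le
    (d := (Module.finrank ℝ (EuclideanSpace ℝ (Fin d)) : ℝ)) (Nat.cast_nonneg _)
  have hd : (Module.finrank ℝ (EuclideanSpace ℝ (Fin d)) : ℝ) = (d : ℝ) := by
    rw [finrank_euclideanSpace_fin]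
  have h2 : (K : ℝ≥0∞) ^ (Module.finrank ℝ (EuclideanSpace ℝ (Fin d)) : ℝ) =
      (K : ℝ≥0∞) ^ (d : ℝ) := by rw [hd]
  rw [h2] at h1
  generalize Measure.addHaarScalarFactor (volume : Measure (EuclideanSpace ℝ (Fin d)))
        (μH[(Module.finrank ℝ (EuclideanSpace ℝ (Fin d)) : ℝ)]) = c at h0
  rw [h0, Measure.smul_apply, Measure.smul_apply]
  simp only [ENNReal.smul_def, smul_eq_mul]
  calc _ ≤ _ * ((K : ℝ≥0∞) ^ (d : ℝ) *
        (μH[(Module.finrank ℝ (EuclideanSpace ℝ (Fin d)) : ℝ)]) s) := mul_le_mul_right h1 _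
    _ = _ := by ring

end HL

open HL in
/-- **LH3** -/
theorem hl_stmt {N d : ℕ} {F : Type*} [NormedAddCommGroup F] [InnerProductSpace ℂ F]
    (M : BFSS.Model N d F) (h1 : LogStmt M) (h2 : ExpLipStmt M) : HLStmt M := by
  obtain ⟨δ, C₁, hδ, hC₁, hlog⟩ := h1
  obtain ⟨hmem, hcont, hzero, ρ₀, c, C₀, hρ₀, hc, hC₀, hlip⟩ := h2
  -- the exponential as a map into the group
  let e : EuclideanSpace ℝ (Fin d) → BFSS.SU N := fun ξ => ⟨eT M ξ, hmem ξ⟩
  have he : Continuous e := hcont.subtype_mk _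
  have hev : ∀ ξ, (e ξ).val = eT M ξ := fun _ => rfl
  -- radii
  let δ' : ℝ := min (δ / 2) (ρ₀ / (2 * C₁))
  have hδ' : 0 < δ' := lt_min (by positivity) (by positivity)
  let ρ : ℝ := min ρ₀ (δ' / C₀)
  have hρ : 0 < ρ := lt_min hρ₀ (by positivity)
  have hρρ : ρ ≤ ρ₀ := min_le_left _ _
  have hCρ : C₀ * ρ ≤ δ' := by
    have : ρ ≤ δ' / C₀ := min_le_right _ _
    rw [le_div_iff₀ hC₀] at this
    linarith
  -- the neighbourhood
  let W : Set (BFSS.SU N) := {U | fn (U.val - 1) < δ'}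
  have hWo : IsOpen W := by
    refine isOpen_lt ?_ continuous_const
    exact fn_cont.comp (continuous_subtype_val.sub continuous_const)
  have hW1 : (1 : BFSS.SU N) ∈ W := by
    show fn ((1 : BFSS.SU N).val - 1) < δ'
    have : ((1 : BFSS.SU N).val - 1 : Matrix (Fin N) (Fin N) ℂ) = 0 := sub_self _
    rw [this]
    have h0 : fn (0 : Matrix (Fin N) (Fin N) ℂ) = 0 := by
      unfold fn; simp
    rw [h0]; exact hδ'
  have hWpos : 0 < hm N W := hWo.measure_pos _ ⟨1, hW1⟩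
  have hWfin : hm N W ≠ ⊤ := measure_ne_top _ _
  -- constants
  let K : ℝ≥0 := ⟨C₀ / c, by positivity⟩
  let B : ℝ≥0∞ := (volume : Measure (EuclideanSpace ℝ (Fin d))) (Metric.closedBall 0 ρ₀)
  have hB : B ≠ ⊤ := (isCompact_closedBall _ _).measure_lt_top.ne
  let D : ℝ≥0∞ := (K : ℝ≥0∞) ^ (d : ℝ) * B / hm N W
  have hD : D ≠ ⊤ := by
    refine ENNReal.div_ne_top (ENNReal.mul_ne_top ?_ hB) hWpos.ne'
    exact ENNReal.rpow_ne_top_of_nonneg (Nat.cast_nonneg _) ENNReal.coe_ne_top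
  refine ⟨ρ, D.toReal + 1, hρ, by positivity, fun E hE => ?_⟩
  -- the counted sets
  let S : Set (BFSS.SU N × EuclideanSpace ℝ (Fin d)) :=
    {p | ‖p.2‖ ≤ ρ₀ ∧ p.1 * e p.2 ∈ E}
  have hS : MeasurableSet S := by
    refine MeasurableSet.inter ?_ ?_
    · exact measurableSet_le (measurable_norm.comp measurable_snd) measurable_const
    · exact (measurable_fst.mul (he.measurable.comp measurable_snd)) hE
  let A : Set (EuclideanSpace ℝ (Fin d)) := {ξ | ‖ξ‖ ≤ ρ ∧ ∃ U ∈ E, U.val = eT M ξ}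
  have hA : ∀ ξ ∈ A, ‖ξ‖ ≤ ρ ∧ e ξ ∈ E := by
    rintro ξ ⟨h, U, hU, hUe⟩
    refine ⟨h, ?_⟩
    have : e ξ = U := Subtype.ext hUe.symm
    rw [this]; exact hU
  -- key estimate
  have key : ∀ U ∈ W, volume A ≤ (K : ℝ≥0∞) ^ (d : ℝ) * volume (Prod.mk U ⁻¹' S) := by
    intro U hU
    let T : Set (EuclideanSpace ℝ (Fin d)) :=
      {ξ | (‖ξ‖ ≤ ρ₀ ∧ U * e ξ ∈ E) ∧ ∃ ξ', ‖ξ'‖ ≤ ρ ∧ e ξ' = U * e ξ}
    have hT : ∀ ξ, ∃ ξ' : EuclideanSpace ℝ (Fin d), ξ ∈ T → ‖ξ'‖ ≤ ρ ∧ e ξ' = U * e ξ := by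
      intro ξ
      by_cases h : ξ ∈ T
      · obtain ⟨ξ', h'⟩ := h.2
        exact ⟨ξ', fun _ => h'⟩
      · exact ⟨0, fun h' => absurd h' h⟩
    choose g hg using hT
    have hgl : LipschitzOnWith K g T := by
      refine LipschitzOnWith.of_dist_le_mul fun ξ hξ ζ hζ => ?_
      obtain ⟨a1, a2⟩ := hg ξ hξ
      obtain ⟨b1, b2⟩ := hg ζ hζ
      have h3 := (hlip (g ξ) (g ζ) (a1.trans hρρ) (b1.trans hρρ)).1
      have h4 := (hlip ξ ζ hξ.1.1 hζ.1.1).2
      have h5 : fn (eT M (g ξ) - eT M (g ζ)) = fn (eT M ξ - eT M ζ) := by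
        have e1 : eT M (g ξ) = U.val * eT M ξ := congrArg Subtype.val a2
        have e2 : eT M (g ζ) = U.val * eT M ζ := congrArg Subtype.val b2
        rw [e1, e2, ← mul_sub, fn_mul]
      rw [dist_eq_norm, dist_eq_norm]
      show ‖g ξ - g ζ‖ ≤ C₀ / c * ‖ξ - ζ‖
      rw [div_mul_eq_mul_div, le_div_iff₀ hc]
      rw [h5] at h3
      linarith
    have hsub : A ⊆ g '' T := by
      intro ξ' hξ'
      obtain ⟨hn, hE'⟩ := hA ξ' hξ'
      have h3 : fn ((U⁻¹ * e ξ').val - 1) ≤ 2 * δ' := by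
        rw [← fn_mul U]
        have e1 : U.val * ((U⁻¹ * e ξ').val - 1) = eT M ξ' - U.val := by
          rw [mul_sub, mul_one]
          congr 1
          exact congrArg Subtype.val (mul_inv_cancel_left U (e ξ'))
        rw [e1]
        have e2 : eT M ξ' - U.val = (eT M ξ' - eT M 0) + -(U.val - 1) := by
          rw [hzero]; abel
        rw [e2]
        refine (fn_add _ _).trans ?_
        rw [fn_neg]
        have h4 := (hlip ξ' 0 (hn.trans hρρ) (by simpa using hρ₀.le)).2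
        rw [sub_zero] at h4
        have h5 : C₀ * ‖ξ'‖ ≤ δ' := (mul_le_mul_of_nonneg_left hn hC₀.le).trans hCρ
        have h6 : fn (U.val - 1) < δ' := hU
        linarith
      have h7 : 2 * δ' ≤ δ := by
        have : δ' ≤ δ / 2 := min_le_left _ _
        linarith
      obtain ⟨ξ, hξ1, hξ2⟩ := hlog (U⁻¹ * e ξ') (h3.trans h7)
      have hξ3 : ‖ξ‖ ≤ ρ₀ := by
        have h8 : δ' ≤ ρ₀ / (2 * C₁) := min_le_right _ _
        rw [le_div_iff₀ (by positivity)] at h8
        have h9 := mul_le_mul_of_nonneg_left h3 hC₁.le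
        linarith
      have hξ4 : e ξ' = U * e ξ := by
        have : U⁻¹ * e ξ' = e ξ := Subtype.ext hξ1
        rw [← this, mul_inv_cancel_left]
      have hξT : ξ ∈ T := ⟨⟨hξ3, hξ4 ▸ hE'⟩, ξ', hn, hξ4⟩
      refine ⟨ξ, hξT, ?_⟩
      obtain ⟨a1, a2⟩ := hg ξ hξT
      have h10 := (hlip (g ξ) ξ' (a1.trans hρρ) (hn.trans hρρ)).1
      have e3 : eT M (g ξ) - eT M ξ' = 0 := by
        have : e (g ξ) = e ξ' := a2.trans hξ4.symm
        rw [sub_eq_zero]; exact congrArg Subtype.val this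
      rw [e3] at h10
      have h0 : fn (0 : Matrix (Fin N) (Fin N) ℂ) = 0 := by
        unfold fn; simp
      rw [h0] at h10
      have h11 : ‖g ξ - ξ'‖ ≤ 0 := by
        by_contra hh
        push Not at hh
        have := mul_pos hc hh
        linarith
      exact sub_eq_zero.1 (norm_le_zero_iff.1 h11)
    calc volume A ≤ volume (g '' T) := measure_mono hsub
      _ ≤ (K : ℝ≥0∞) ^ (d : ℝ) * volume T := vol_image hgl
      _ ≤ _ := mul_le_mul_right (measure_mono fun ξ hξ => hξ.1) _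
  -- Tonelli
  have hton : ∫⁻ U, volume (Prod.mk U ⁻¹' S) ∂(hm N) ≤ B * hm N E := by
    rw [← Measure.prod_apply hS, Measure.prod_apply_symm hS]
    have h3 : ∀ ξ : EuclideanSpace ℝ (Fin d), hm N ((fun U => (U, ξ)) ⁻¹' S) ≤
        (Metric.closedBall (0 : EuclideanSpace ℝ (Fin d)) ρ₀).indicator (fun _ => hm N E) ξ := by
      intro ξ
      by_cases h : ξ ∈ Metric.closedBall (0 : EuclideanSpace ℝ (Fin d)) ρ₀
      · rw [Set.indicator_of_mem h]
        calc _ ≤ hm N ((fun U => U * e ξ) ⁻¹' E) := measure_mono fun U hU => hU.2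
          _ = hm N E := measure_preimage_mul_right _ _ _
      · rw [Set.indicator_of_notMem h]
        have : (fun U : BFSS.SU N => (U, ξ)) ⁻¹' S = ∅ := by
          ext U
          simp only [Set.mem_preimage, Set.mem_empty_iff_false, iff_false]
          intro hU
          exact h (mem_closedBall_zero_iff.2 hU.1)
        rw [this, measure_empty]
    refine (lintegral_mono h3).trans ?_
    rw [lintegral_indicator Metric.isClosed_closedBall.measurableSet, lintegral_const,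
      Measure.restrict_apply MeasurableSet.univ, Set.univ_inter, mul_comm]
  -- integrate over `W`
  have hint : volume A * hm N W ≤ (K : ℝ≥0∞) ^ (d : ℝ) * (B * hm N E) := by
    calc volume A * hm N W = ∫⁻ _ in W, volume A ∂(hm N) := by
          rw [lintegral_const, Measure.restrict_apply MeasurableSet.univ, Set.univ_inter]
      _ ≤ ∫⁻ U in W, (K : ℝ≥0∞) ^ (d : ℝ) * volume (Prod.mk U ⁻¹' S) ∂(hm N) :=
          setLIntegral_mono' hWo.measurableSet key
      _ ≤ ∫⁻ U, (K : ℝ≥0∞) ^ (d : ℝ) * volume (Prod.mk U ⁻¹' S) ∂(hm N) :=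
          setLIntegral_le_lintegral _ _
      _ = (K : ℝ≥0∞) ^ (d : ℝ) * ∫⁻ U, volume (Prod.mk U ⁻¹' S) ∂(hm N) :=
          lintegral_const_mul _ (measurable_measure_prodMk_left hS)
      _ ≤ _ := mul_le_mul_right hton _
  have hfin : volume A ≤ D * hm N E := by
    have h3 : volume A ≤ (K : ℝ≥0∞) ^ (d : ℝ) * (B * hm N E) / hm N W :=
      (ENNReal.le_div_iff_mul_le (Or.inl hWpos.ne') (Or.inl hWfin)).2 hint
    refine h3.trans (le_of_eq ?_)
    show _ = (K : ℝ≥0∞) ^ (d : ℝ) * B / hm N W * hm N E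
    rw [← mul_assoc, ENNReal.div_eq_inv_mul, ENNReal.div_eq_inv_mul]
    ring
  refine hfin.trans (mul_le_mul_left ?_ _)
  rw [ENNReal.ofReal_add ENNReal.toReal_nonneg zero_le_one, ENNReal.ofReal_toReal hD]
  exact le_self_add

end Vale.Agent.P353.AN.LW
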