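import Vale.Agent.P353.AN.LOW.StmtH
import Vale.Agent.P353.AN.G.Act

/-! # P353, all `N`, block LOW: LH7 Near (helper491)

Elements that move a regular point of a compact set close to another one are close to the normaliser of the
splitting. -/

open MeasureTheory Filter Topology
open scoped ContDiff

namespace Vale.Agent.P353.AN.LW.Near

open Vale.Agent.P353.Z Vale.Agent.P353.Z.U Vale.Agent.P353.Z.AN Vale.Agent.P353.AN.G

variable {N d dh dm r ds : ℕ} {F : Type*} [NormedAddCommGroup F] [InnerProductSpace ℂ F]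

/-- the three kinds of colour indices -/
theorem nr_cases (φ : Spl dh dm d) (ψ : Spz r ds dh) (A : Fin d) :
    (∃ a, A = φ (Sum.inl (ψ (Sum.inl a)))) ∨ (∃ b, A = φ (Sum.inl (ψ (Sum.inr b)))) ∨
      ∃ c, A = φ (Sum.inr c) := by
  obtain ⟨q, rfl⟩ := φ.surjective A
  rcases q with B | c
  · obtain ⟨q, rfl⟩ := ψ.surjective B
    rcases q with a | b
    · exact Or.inl ⟨a, rfl⟩
    · exact Or.inr (Or.inl ⟨b, rfl⟩)
  · exact Or.inr (Or.inr ⟨c, rfl⟩)

theorem nr_sum (φ : Spl dh dm d) (g : Fin d → ℝ) :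
    ∑ A, g A = ∑ B, g (φ (Sum.inl B)) + ∑ C, g (φ (Sum.inr C)) := by
  rw [← φ.sum_comp, Fintype.sum_sum_type]

theorem nr_Ez_h (φ : Spl dh dm d) (ψ : Spz r ds dh) (η : Cfg r) (i : Fin 9) (A : Fin dh) :
    Ez φ ψ η (i, φ (Sum.inl A)) = cmb ψ η 0 (i, A) := by
  show Sum.elim (fun A => cmb ψ η 0 (i, A)) _ (φ.symm (φ (Sum.inl A))) = _
  rw [Equiv.symm_apply_apply]
  rfl

theorem nr_Ez_m (φ : Spl dh dm d) (ψ : Spz r ds dh) (η : Cfg r) (i : Fin 9) (C : Fin dm) :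
    Ez φ ψ η (i, φ (Sum.inr C)) = 0 := by
  show Sum.elim _ (fun B => Fin.lastCases (motive := fun _ => ℝ) 0 (fun j => (0 : Wsp dm) (j, B)) i)
    (φ.symm (φ (Sum.inr C))) = _
  rw [Equiv.symm_apply_apply]
  show Fin.lastCases (motive := fun _ => ℝ) 0 (fun j => (0 : Wsp dm) (j, C)) i = 0
  refine Fin.lastCases ?_ (fun j => ?_) i
  · rw [Fin.lastCases_last]
  · rw [Fin.lastCases_castSucc]
    rfl

theorem nr_Ez_s (φ : Spl dh dm d) (ψ : Spz r ds dh) (η : Cfg r) (i : Fin 9) (b : Fin ds) :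
    Ez φ ψ η (i, φ (Sum.inl (ψ (Sum.inr b)))) = 0 := by
  rw [nr_Ez_h]
  show Sum.elim _ (fun b => (0 : Cfg ds) (i, b)) (ψ.symm (ψ (Sum.inr b))) = _
  rw [Equiv.symm_apply_apply]
  rfl

/-- `z` commutes with `h` -/
theorem nr_fz (S : Setup d F) {φ : Spl dh dm d} {ψ : Spz r ds dh} (hsub : S.IsSub φ) (hZ : IsZ S φ ψ)
    (D : Fin d) (a : Fin r) (B : Fin dh) :
    S.f D (φ (Sum.inl (ψ (Sum.inl a)))) (φ (Sum.inl B)) = 0 := by
  rw [S.f_cyc]
  obtain ⟨q, rfl⟩ := φ.surjective D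
  rcases q with D' | c
  · exact hZ a B D'
  · exact hsub _ B c

/-- bracket of `Ez η` with an element of `h` -/
theorem nr_fe (S : Setup d F) {φ : Spl dh dm d} {ψ : Spz r ds dh} (hsub : S.IsSub φ) (hZ : IsZ S φ ψ)
    (η : Cfg r) (i : Fin 9) (D E : Fin d) (B : Fin dh) :
    S.f D E (φ (Sum.inl B)) * Ez φ ψ η (i, E) = 0 := by
  rcases nr_cases φ ψ E with ⟨a, rfl⟩ | ⟨b, rfl⟩ | ⟨c, rfl⟩
  · rw [nr_fz S hsub hZ, zero_mul]
  · rw [nr_Ez_s, mul_zero]
  · rw [nr_Ez_m, mul_zero]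

/-- an element of the colour group moving `Ez η` to `Ez η'`, `η'` regular, maps `h` into `h` -/
theorem nr_mh (S : Setup d F) {φ : Spl dh dm d} {ψ : Spz r ds dh} (hsub : S.IsSub φ) (hZ : IsZ S φ ψ)
    {O : Matrix (Fin d) (Fin d) ℝ} (hO : O ∈ S.grp) {η η' : Cfg r} (he : ro O (Ez φ ψ η) = Ez φ ψ η')
    (hη : RegP S φ ψ η') (C : Fin dm) (B : Fin dh) : O (φ (Sum.inr C)) (φ (Sum.inl B)) = 0 := by
  have hv : (fun C : Fin dm => O (φ (Sum.inr C)) (φ (Sum.inl B))) = 0 := by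
    refine hη _ fun i => ?_
    funext B'
    have h1 : (Dz S φ ψ η' i).mulVec (fun C : Fin dm => O (φ (Sum.inr C)) (φ (Sum.inl B))) B' =
        ∑ C' : Fin d, ∑ A' : Fin d, S.f (φ (Sum.inr B')) A' C' * Ez φ ψ η' (i, A') *
          O C' (φ (Sum.inl B)) := by
      rw [nr_sum φ]
      have h2 : ∀ C' : Fin dh, ∑ A' : Fin d, S.f (φ (Sum.inr B')) A' (φ (Sum.inl C')) *
          Ez φ ψ η' (i, A') * O (φ (Sum.inl C')) (φ (Sum.inl B)) = 0 := by
        intro C'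
        refine Finset.sum_eq_zero fun A' _ => ?_
        rw [nr_fe S hsub hZ, zero_mul]
      rw [Finset.sum_eq_zero fun C' _ => h2 C', zero_add]
      show ∑ C, (Dz S φ ψ η' i) B' C * O (φ (Sum.inr C)) (φ (Sum.inl B)) = _
      refine Finset.sum_congr rfl fun C' _ => ?_
      rw [nr_sum φ]
      have h3 : ∀ A' : Fin dm, S.f (φ (Sum.inr B')) (φ (Sum.inr A')) (φ (Sum.inr C')) *
          Ez φ ψ η' (i, φ (Sum.inr A')) * O (φ (Sum.inr C')) (φ (Sum.inl B)) = 0 := by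
        intro A'
        rw [nr_Ez_m, mul_zero, zero_mul]
      rw [Finset.sum_eq_zero fun A' _ => h3 A', add_zero]
      show (∑ A, S.f (φ (Sum.inr B')) (φ (Sum.inl A)) (φ (Sum.inr C')) * cmb ψ η' 0 (i, A)) *
        O (φ (Sum.inr C')) (φ (Sum.inl B)) = _
      rw [Finset.sum_mul]
      refine Finset.sum_congr rfl fun A _ => ?_
      rw [nr_Ez_h]
    have h4 : ∀ A', Ez φ ψ η' (i, A') = ∑ E, O A' E * Ez φ ψ η (i, E) := by
      intro A'
      rw [← he, grp_ro_apply]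
    have h5 : ∑ C' : Fin d, ∑ A' : Fin d, S.f (φ (Sum.inr B')) A' C' * Ez φ ψ η' (i, A') *
          O C' (φ (Sum.inl B)) =
        ∑ E, Ez φ ψ η (i, E) * ∑ A', ∑ C', O A' E * O C' (φ (Sum.inl B)) *
          S.f (φ (Sum.inr B')) A' C' := by
      simp only [h4, Finset.mul_sum, Finset.sum_mul]
      rw [Finset.sum_comm]
      conv_lhs =>
        enter [2, A']
        rw [Finset.sum_comm]
      rw [Finset.sum_comm]
      refine Finset.sum_congr rfl fun E _ => Finset.sum_congr rfl fun A' _ =>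
        Finset.sum_congr rfl fun C' _ => ?_
      ring
    rw [h1, h5]
    show _ = (0 : ℝ)
    simp only [grp_f S hO.1 hO.2.1, Finset.mul_sum]
    refine Finset.sum_eq_zero fun E _ => Finset.sum_eq_zero fun D _ => ?_
    have h6 := nr_fe S hsub hZ η i D E B
    linear_combination O (φ (Sum.inr B')) D * h6
  exact congrFun hv C

/-- an element of the colour group preserving `h` maps `z` into `z` -/
theorem nr_sz (S : Setup d F) {φ : Spl dh dm d} {ψ : Spz r ds dh} (hsub : S.IsSub φ) (hZ : IsZ S φ ψ)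
    (hL : Less S φ ψ) {O : Matrix (Fin d) (Fin d) ℝ} (hO : O ∈ S.grp)
    (hhm : ∀ (B : Fin dh) (C : Fin dm), O (φ (Sum.inl B)) (φ (Sum.inr C)) = 0) (b : Fin ds) (a : Fin r) :
    O (φ (Sum.inl (ψ (Sum.inr b)))) (φ (Sum.inl (ψ (Sum.inl a)))) = 0 := by
  have hv : (fun b : Fin ds => O (φ (Sum.inl (ψ (Sum.inr b)))) (φ (Sum.inl (ψ (Sum.inl a))))) = 0 := by
    refine hL _ fun B' C' => ?_
    have hT := grp_transpose S hO
    have h1 := grp_f S hT.1 hT.2.1 (φ (Sum.inl (ψ (Sum.inl a)))) (φ (Sum.inl (ψ (Sum.inr B'))))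
      (φ (Sum.inl (ψ (Sum.inr C'))))
    simp only [Matrix.transpose_apply] at h1
    have h2 : ∑ B, ∑ C, O (φ (Sum.inl (ψ (Sum.inr B')))) B * O (φ (Sum.inl (ψ (Sum.inr C')))) C *
        S.f (φ (Sum.inl (ψ (Sum.inl a)))) B C = 0 := by
      refine Finset.sum_eq_zero fun B _ => Finset.sum_eq_zero fun C _ => ?_
      obtain ⟨q, rfl⟩ := φ.surjective B
      rcases q with B | B
      · obtain ⟨p, rfl⟩ := φ.surjective C
        rcases p with C | C
        · rw [hZ, mul_zero]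
        · rw [hsub, mul_zero]
      · rw [hhm, zero_mul, zero_mul]
    rw [h2, nr_sum φ, ← ψ.sum_comp, Fintype.sum_sum_type] at h1
    have h3 : ∀ A' : Fin r, O (φ (Sum.inl (ψ (Sum.inl A')))) (φ (Sum.inl (ψ (Sum.inl a)))) *
        S.f (φ (Sum.inl (ψ (Sum.inl A')))) (φ (Sum.inl (ψ (Sum.inr B'))))
          (φ (Sum.inl (ψ (Sum.inr C')))) = 0 := by
      intro A'
      rw [hZ, mul_zero]
    have h4 : ∀ A' : Fin dm, O (φ (Sum.inr A')) (φ (Sum.inl (ψ (Sum.inl a)))) *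
        S.f (φ (Sum.inr A')) (φ (Sum.inl (ψ (Sum.inr B')))) (φ (Sum.inl (ψ (Sum.inr C')))) = 0 := by
      intro A'
      rw [S.f_cyc, hsub, mul_zero]
    rw [Finset.sum_eq_zero fun A' _ => h3 A', Finset.sum_eq_zero fun A' _ => h4 A', zero_add,
      add_zero] at h1
    rw [h1]
    refine Finset.sum_congr rfl fun A _ => mul_comm _ _
  exact congrFun hv b

/-- exact version: an element moving a regular point of `z` to a regular point of `z` is in the normaliser -/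
theorem nr_exact (M : BFSS.Model N d F) (S : Setup d F) (hS : Rep M S) {φ : Spl dh dm d}
    {ψ : Spz r ds dh} (hsub : S.IsSub φ) (hZ : IsZ S φ ψ) (hL : Less S φ ψ) {η η' : Cfg r}
    (hη : RegP S φ ψ η) (hη' : RegP S φ ψ η') (U : BFSS.SU N)
    (he : M.act U (Ez φ ψ η) = Ez φ ψ η') : Nrm M φ ψ U := by
  have hO : actO M U ∈ S.grp := actO_mem M S hS U
  have hT := grp_transpose S hO
  rw [act_eq_ro] at he
  have he' : ro (actO M U).transpose (Ez φ ψ η') = Ez φ ψ η := by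
    rw [← he, ← grp_ro_mul, hO.1, grp_ro_one]
  have m1 : ∀ C B, actO M U (φ (Sum.inr C)) (φ (Sum.inl B)) = 0 := nr_mh S hsub hZ hO he hη'
  have m2 : ∀ B C, actO M U (φ (Sum.inl B)) (φ (Sum.inr C)) = 0 := fun B C =>
    nr_mh S hsub hZ hT he' hη C B
  have m3 : ∀ b a, actO M U (φ (Sum.inl (ψ (Sum.inr b)))) (φ (Sum.inl (ψ (Sum.inl a)))) = 0 :=
    nr_sz S hsub hZ hL hO m2
  have m4 : ∀ a b, actO M U (φ (Sum.inl (ψ (Sum.inl a)))) (φ (Sum.inl (ψ (Sum.inr b)))) = 0 :=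
    fun a b => nr_sz S hsub hZ hL hT (fun B C => m1 C B) b a
  intro A B hAB
  show actO M U A B = 0
  rcases nr_cases φ ψ A with ⟨a, rfl⟩ | ⟨b, rfl⟩ | ⟨c, rfl⟩ <;>
    rcases nr_cases φ ψ B with ⟨a', rfl⟩ | ⟨b', rfl⟩ | ⟨c', rfl⟩
  · exact absurd (by simp [bl]) hAB
  · exact m4 _ _
  · exact m2 _ _
  · exact m3 _ _
  · exact absurd (by simp [bl]) hAB
  · exact m2 _ _
  · exact m1 _ _
  · exact m1 _ _
  · exact absurd (by simp [bl]) hAB

theorem nr_Ez_cont (φ : Spl dh dm d) (ψ : Spz r ds dh) : Continuous fun η : Cfg r => Ez φ ψ η := by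
  refine (PiLp.continuous_toLp 2 _).comp (continuous_pi fun p => ?_)
  obtain ⟨i, A⟩ := p
  show Continuous fun η : Cfg r => Ez φ ψ η (i, A)
  rcases nr_cases φ ψ A with ⟨a, rfl⟩ | ⟨b, rfl⟩ | ⟨c, rfl⟩
  · have h1 : ∀ η : Cfg r, Ez φ ψ η (i, φ (Sum.inl (ψ (Sum.inl a)))) = η (i, a) := by
      intro η
      rw [nr_Ez_h]
      show Sum.elim (fun a => η (i, a)) _ (ψ.symm (ψ (Sum.inl a))) = _
      rw [Equiv.symm_apply_apply]
      rfl
    simp only [h1]
    exact (EuclideanSpace.proj (𝕜 := ℝ) (i, a)).continuous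
  · simp only [nr_Ez_s]
    exact continuous_const
  · simp only [nr_Ez_m]
    exact continuous_const

theorem nr_fn_cont : Continuous (fn : Matrix (Fin N) (Fin N) ℂ → ℝ) := by
  unfold fn
  refine Real.continuous_sqrt.comp ?_
  refine continuous_finsetSum _ fun j _ => continuous_finsetSum _ fun k _ => ?_
  exact ((continuous_id.matrix_elem j k).norm).pow 2

theorem nr_fn_zero : fn (0 : Matrix (Fin N) (Fin N) ℂ) = 0 := by
  simp [fn]

/-- **LH7 Near** -/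
theorem near_stmt (M : BFSS.Model N d F) : NearStmt M := by
  intro S hS dh dm r ds φ ψ hsub hZ hL K hK hreg ε hε
  obtain ⟨-, -, -, -, -, hact, -⟩ := act_stmt M
  -- the bad set
  have hc1 : ∀ U₀ : BFSS.SU N, Continuous fun p : BFSS.SU N × Cfg r × Cfg r =>
      fn (p.1.val - U₀.val) := fun U₀ =>
    nr_fn_cont.comp ((continuous_subtype_val.comp continuous_fst).sub continuous_const)
  have hBc : IsClosed {p : BFSS.SU N × Cfg r × Cfg r |
      ∀ U₀ : BFSS.SU N, Nrm M φ ψ U₀ → ε ≤ fn (p.1.val - U₀.val)} := by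
    simp only [Set.ofPred_forall]
    exact isClosed_iInter fun U₀ => isClosed_iInter fun _ =>
      isClosed_le continuous_const (hc1 U₀)
  have hAc : IsCompact (((Set.univ : Set (BFSS.SU N)) ×ˢ (K ×ˢ K)) ∩
      {p : BFSS.SU N × Cfg r × Cfg r |
        ∀ U₀ : BFSS.SU N, Nrm M φ ψ U₀ → ε ≤ fn (p.1.val - U₀.val)}) :=
    (isCompact_univ.prod (hK.prod hK)).inter_right hBc
  have hg : Continuous fun p : BFSS.SU N × Cfg r × Cfg r =>
      ‖M.act p.1 (Ez φ ψ p.2.1) - Ez φ ψ p.2.2‖ := by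
    have h1 : Continuous fun p : BFSS.SU N × Cfg r × Cfg r => (p.1, Ez φ ψ p.2.1) :=
      continuous_fst.prodMk ((nr_Ez_cont φ ψ).comp (continuous_fst.comp continuous_snd))
    exact ((hact.comp h1).sub
      ((nr_Ez_cont φ ψ).comp (continuous_snd.comp continuous_snd))).norm
  rcases Set.eq_empty_or_nonempty (((Set.univ : Set (BFSS.SU N)) ×ˢ (K ×ˢ K)) ∩
      {p : BFSS.SU N × Cfg r × Cfg r |
        ∀ U₀ : BFSS.SU N, Nrm M φ ψ U₀ → ε ≤ fn (p.1.val - U₀.val)}) with hemp | hne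
  · refine ⟨1, one_pos, fun U η η' hη hη' _ => ?_⟩
    by_contra hcon
    push Not at hcon
    have : (U, η, η') ∈ (((Set.univ : Set (BFSS.SU N)) ×ˢ (K ×ˢ K)) ∩
      {p : BFSS.SU N × Cfg r × Cfg r |
        ∀ U₀ : BFSS.SU N, Nrm M φ ψ U₀ → ε ≤ fn (p.1.val - U₀.val)}) :=
      ⟨⟨Set.mem_univ _, hη, hη'⟩, fun U₀ h0 => (hcon U₀ h0).le⟩
    rw [hemp] at this
    exact this
  · obtain ⟨p₀, hp₀, hmin⟩ := hAc.exists_isMinOn hne hg.continuousOn
    have hpos : 0 < ‖M.act p₀.1 (Ez φ ψ p₀.2.1) - Ez φ ψ p₀.2.2‖ := by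
      rcases (norm_nonneg (M.act p₀.1 (Ez φ ψ p₀.2.1) - Ez φ ψ p₀.2.2)).lt_or_eq with h | h
      · exact h
      · exfalso
        have h0 : M.act p₀.1 (Ez φ ψ p₀.2.1) = Ez φ ψ p₀.2.2 :=
          sub_eq_zero.1 (norm_eq_zero.1 h.symm)
        have hN := nr_exact M S hS hsub hZ hL (hreg _ hp₀.1.2.1) (hreg _ hp₀.1.2.2) p₀.1 h0
        have h2 := hp₀.2 p₀.1 hN
        rw [sub_self, nr_fn_zero] at h2
        exact absurd h2 (not_le.2 hε)
    refine ⟨‖M.act p₀.1 (Ez φ ψ p₀.2.1) - Ez φ ψ p₀.2.2‖ / 2, by positivity,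
      fun U η η' hη hη' hle => ?_⟩
    by_contra hcon
    push Not at hcon
    have hmem : (U, η, η') ∈ (((Set.univ : Set (BFSS.SU N)) ×ˢ (K ×ˢ K)) ∩
      {p : BFSS.SU N × Cfg r × Cfg r |
        ∀ U₀ : BFSS.SU N, Nrm M φ ψ U₀ → ε ≤ fn (p.1.val - U₀.val)}) :=
      ⟨⟨Set.mem_univ _, hη, hη'⟩, fun U₀ h0 => (hcon U₀ h0).le⟩
    have h3 := isMinOn_iff.1 hmin (U, η, η') hmem
    dsimp only at h3
    linarith

end Vale.Agent.P353.AN.LW.Near

namespace Vale.Agent.P353.AN.LW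

open Vale.Agent.P353.Z Vale.Agent.P353.Z.U Vale.Agent.P353.Z.AN Vale.Agent.P353.AN.G

variable {N d : ℕ} {F : Type*} [NormedAddCommGroup F] [InnerProductSpace ℂ F]

/-- **LH7 Near** -/
theorem near_stmt (M : BFSS.Model N d F) : NearStmt M := Near.near_stmt M

end Vale.Agent.P353.AN.LW
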