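import Vale.Agent.P353.AN.LOW.StmtH
import Vale.Agent.P353.AN.G.Act

/-! # P353, all `N`, block LOW, part H: LH6 `SUniStmt` (helper805) -/

open MeasureTheory Filter Topology
open scoped ContDiff

namespace Vale.Agent.P353.AN.LW

open Vale.Agent.P353.Z Vale.Agent.P353.Z.U Vale.Agent.P353.Z.AN Vale.Agent.P353.AN.G

variable {N d : ℕ} {F : Type*} [NormedAddCommGroup F] [InnerProductSpace ℂ F]

namespace SUni

theorem entry_le (X : Matrix (Fin N) (Fin N) ℂ) (j k : Fin N) : ‖X j k‖ ≤ fn X := by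
  unfold fn
  refine Real.le_sqrt_of_sq_le ?_
  have h1 : ‖X j k‖ ^ 2 ≤ ∑ k', ‖X j k'‖ ^ 2 :=
    Finset.single_le_sum (f := fun k' => ‖X j k'‖ ^ 2) (fun _ _ => sq_nonneg _) (Finset.mem_univ k)
  have h2 : ∑ k', ‖X j k'‖ ^ 2 ≤ ∑ j', ∑ k', ‖X j' k'‖ ^ 2 :=
    Finset.single_le_sum (f := fun j' => ∑ k', ‖X j' k'‖ ^ 2)
      (fun _ _ => Finset.sum_nonneg fun _ _ => sq_nonneg _) (Finset.mem_univ j)
  exact h1.trans h2

theorem fn_nonneg (X : Matrix (Fin N) (Fin N) ℂ) : 0 ≤ fn X := Real.sqrt_nonneg _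

theorem eq_of_fn_le {X Y : Matrix (Fin N) (Fin N) ℂ} (h : fn (X - Y) ≤ 0) : X = Y := by
  ext j k
  have := (entry_le (X - Y) j k).trans h
  have h2 : ‖(X - Y) j k‖ = 0 := le_antisymm this (norm_nonneg _)
  rw [Matrix.sub_apply, norm_eq_zero, sub_eq_zero] at h2
  exact h2

theorem fn_cont : Continuous fun p : BFSS.SU N × BFSS.SU N => fn (p.1.val - p.2.val) := by
  unfold fn
  refine Real.continuous_sqrt.comp ?_
  refine continuous_finsetSum _ fun j _ => continuous_finsetSum _ fun k _ => ?_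
  refine (Continuous.norm ?_).pow 2
  have h1 : Continuous fun p : BFSS.SU N × BFSS.SU N => p.1.val - p.2.val :=
    (continuous_subtype_val.comp continuous_fst).sub (continuous_subtype_val.comp continuous_snd)
  exact (continuous_apply k).comp ((continuous_apply j).comp h1)

theorem mul_bd {P Q : Matrix (Fin N) (Fin N) ℂ} {a b : ℝ} (ha : ∀ j k, ‖P j k‖ ≤ a)
    (hb : ∀ j k, ‖Q j k‖ ≤ b) (ha0 : 0 ≤ a) (j k : Fin N) : ‖(P * Q) j k‖ ≤ N * (a * b) := by
  rw [Matrix.mul_apply]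
  refine (norm_sum_le _ _).trans ?_
  calc ∑ i, ‖P j i * Q i k‖ ≤ ∑ _i : Fin N, a * b := by
        refine Finset.sum_le_sum fun i _ => ?_
        rw [norm_mul]
        exact mul_le_mul (ha j i) (hb i k) (norm_nonneg _) ha0
    _ = N * (a * b) := by simp

theorem tr_bd {P : Matrix (Fin N) (Fin N) ℂ} {a : ℝ} (ha : ∀ j k, ‖P j k‖ ≤ a) :
    ‖P.trace‖ ≤ N * a := by
  unfold Matrix.trace
  refine (norm_sum_le _ _).trans ?_
  calc ∑ i, ‖P.diag i‖ ≤ ∑ _i : Fin N, a := Finset.sum_le_sum fun i _ => ha i i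
    _ = N * a := by simp

theorem ent_bd (U : BFSS.SU N) (j k : Fin N) : ‖U.val j k‖ ≤ 1 :=
  entry_norm_bound_of_unitary (Matrix.mem_specialUnitaryGroup_iff.1 U.2).1 j k

theorem ent_bd_star (U : BFSS.SU N) (j k : Fin N) : ‖U.val.conjTranspose j k‖ ≤ 1 := by
  rw [Matrix.conjTranspose_apply, norm_star]
  exact ent_bd U k j

theorem coeff_lip (M : BFSS.Model N d F) : ∃ C : ℝ, 0 ≤ C ∧ ∀ (U V : BFSS.SU N) (B A : Fin d),
    |BFSS.adCoeff M.T U B A - BFSS.adCoeff M.T V B A| ≤ C * fn (U.val - V.val) := by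
  obtain ⟨t, ht0, hT⟩ : ∃ t : ℝ, 0 ≤ t ∧ ∀ A j k, ‖M.T A j k‖ ≤ t :=
    ⟨∑ A, fn (M.T A), Finset.sum_nonneg fun A _ => fn_nonneg _, fun A j k =>
      (entry_le (M.T A) j k).trans
        (Finset.single_le_sum (f := fun A => fn (M.T A)) (fun _ _ => fn_nonneg _)
          (Finset.mem_univ A))⟩
  refine ⟨N * (N * (t * (2 * (N * (N * t))))), by positivity, fun U V B A => ?_⟩
  obtain ⟨x, hx⟩ : ∃ x : ℝ, x = fn (U.val - V.val) := ⟨_, rfl⟩
  have hx0 : 0 ≤ x := hx ▸ fn_nonneg _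
  rw [← hx]
  have e : BFSS.adCoeff M.T U B A - BFSS.adCoeff M.T V B A =
      (M.T B * ((U.val - V.val) * M.T A * U.val.conjTranspose +
        V.val * M.T A * (U.val - V.val).conjTranspose)).trace.re := by
    unfold BFSS.adCoeff
    rw [← Complex.sub_re, ← Matrix.trace_sub, ← Matrix.mul_sub, Matrix.conjTranspose_sub]
    congr 3
    rw [Matrix.sub_mul, Matrix.sub_mul, Matrix.mul_sub]
    abel_nf
  rw [e]
  refine (Complex.abs_re_le_norm _).trans ?_
  have h1 : ∀ j k, ‖(U.val - V.val) j k‖ ≤ x := fun j k => hx ▸ entry_le _ j k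
  have h1s : ∀ j k, ‖(U.val - V.val).conjTranspose j k‖ ≤ x := fun j k => by
    rw [Matrix.conjTranspose_apply, norm_star]
    exact h1 k j
  have h2 : ∀ j k, ‖((U.val - V.val) * M.T A) j k‖ ≤ N * (x * t) := mul_bd h1 (hT A) hx0
  have h3 : ∀ j k, ‖((U.val - V.val) * M.T A * U.val.conjTranspose) j k‖ ≤ N * (N * (x * t) * 1) :=
    mul_bd h2 (ent_bd_star U) (mul_nonneg N.cast_nonneg (mul_nonneg hx0 ht0))
  have h4 : ∀ j k, ‖(V.val * M.T A) j k‖ ≤ N * (1 * t) := mul_bd (ent_bd V) (hT A) (by norm_num)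
  have h5 : ∀ j k, ‖(V.val * M.T A * (U.val - V.val).conjTranspose) j k‖ ≤ N * (N * (1 * t) * x) :=
    mul_bd h4 h1s (mul_nonneg N.cast_nonneg (mul_nonneg (by norm_num) ht0))
  have h6 : ∀ j k, ‖((U.val - V.val) * M.T A * U.val.conjTranspose +
      V.val * M.T A * (U.val - V.val).conjTranspose) j k‖ ≤ 2 * (N * (N * t)) * x := fun j k => by
    rw [Matrix.add_apply]
    refine (norm_add_le _ _).trans ((add_le_add (h3 j k) (h5 j k)).trans (le_of_eq ?_))
    ring
  refine (tr_bd (mul_bd (hT B) h6 ht0)).trans (le_of_eq ?_)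
  ring

theorem norm_le_sum {ι : Type*} [Fintype ι] (v : EuclideanSpace ℝ ι) : ‖v‖ ≤ ∑ i, ‖v i‖ := by
  rw [EuclideanSpace.norm_eq]
  refine Real.sqrt_le_iff.2 ⟨Finset.sum_nonneg fun _ _ => norm_nonneg _, ?_⟩
  exact Finset.sum_sq_le_sq_sum_of_nonneg fun _ _ => norm_nonneg _

end SUni

open SUni in
/-- **LH6 SUni** -/
theorem sUni_stmt (M : BFSS.Model N d F) : SUniStmt M := by
  intro hF
  constructor
  · intro ε hε
    have hS : Continuous fun p : BFSS.SU N × BFSS.SU N => ‖M.S p.1 - M.S p.2‖ := by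
      have h : Continuous M.S := continuous_clm_apply.2 M.S_continuous
      exact ((h.comp continuous_fst).sub (h.comp continuous_snd)).norm
    set K : Set (BFSS.SU N × BFSS.SU N) := {p | ε ≤ ‖M.S p.1 - M.S p.2‖} with hK
    have hKc : IsCompact K := (isClosed_le continuous_const hS).isCompact
    rcases K.eq_empty_or_nonempty with hE | hne
    · refine ⟨1, one_pos, fun U V _ v => ?_⟩
      have : (U, V) ∉ K := by rw [hE]; exact Set.notMem_empty _
      have h1 : ‖M.S U - M.S V‖ < ε := by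
        rw [hK, Set.mem_ofPred_eq, not_le] at this
        exact this
      rw [← sub_apply]
      exact ((M.S U - M.S V).le_opNorm v).trans
        (mul_le_mul_of_nonneg_right h1.le (norm_nonneg v))
    · obtain ⟨p, hp, hmin⟩ := hKc.exists_isMinOn hne fn_cont.continuousOn
      have hpos : 0 < fn (p.1.val - p.2.val) := by
        by_contra hcon
        have h1 : p.1 = p.2 := Subtype.ext (eq_of_fn_le (not_lt.1 hcon))
        have h2 : ε ≤ ‖M.S p.1 - M.S p.2‖ := hp
        rw [h1, sub_self, norm_zero] at h2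
        exact absurd hε (not_lt.2 h2)
      refine ⟨fn (p.1.val - p.2.val) / 2, half_pos hpos, fun U V hUV v => ?_⟩
      have h1 : ‖M.S U - M.S V‖ < ε := by
        by_contra hcon
        have hmem : (U, V) ∈ K := not_lt.1 hcon
        have h2 : fn (p.1.val - p.2.val) ≤ fn (U.val - V.val) :=
          isMinOn_iff.1 hmin (U, V) hmem
        exact absurd (h2.trans hUV) (not_le.2 (half_lt_self hpos))
      rw [← sub_apply]
      exact ((M.S U - M.S V).le_opNorm v).trans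
        (mul_le_mul_of_nonneg_right h1.le (norm_nonneg v))
  · obtain ⟨C, hC0, hC⟩ := coeff_lip M
    refine ⟨(9 * d) * (d * C) + 1, by positivity, fun U V x => ?_⟩
    obtain ⟨y, hy⟩ : ∃ y : ℝ, y = fn (U.val - V.val) := ⟨_, rfl⟩
    have hy0 : 0 ≤ y := hy ▸ fn_nonneg _
    have hCy : ∀ B A, |BFSS.adCoeff M.T U B A - BFSS.adCoeff M.T V B A| ≤ C * y :=
      fun B A => hy ▸ hC U V B A
    rw [← hy]
    have h1 : ∀ p : Fin 9 × Fin d, ‖(M.act U x - M.act V x) p‖ ≤ d * C * y * ‖x‖ := fun p => by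
      have e : (M.act U x - M.act V x) p = ∑ A, (BFSS.adCoeff M.T U p.2 A -
          BFSS.adCoeff M.T V p.2 A) * x (p.1, A) := by
        show ∑ A, BFSS.adCoeff M.T U p.2 A * x (p.1, A) -
          ∑ A, BFSS.adCoeff M.T V p.2 A * x (p.1, A) = _
        rw [← Finset.sum_sub_distrib]
        exact Finset.sum_congr rfl fun A _ => by ring
      rw [e]
      refine (norm_sum_le _ _).trans ?_
      calc ∑ A, ‖(BFSS.adCoeff M.T U p.2 A - BFSS.adCoeff M.T V p.2 A) * x (p.1, A)‖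
          ≤ ∑ _A : Fin d, C * y * ‖x‖ := by
            refine Finset.sum_le_sum fun A _ => ?_
            rw [norm_mul]
            exact mul_le_mul (hCy p.2 A) (PiLp.norm_apply_le x (p.1, A)) (norm_nonneg _)
              (mul_nonneg hC0 hy0)
        _ = d * C * y * ‖x‖ := by simp; ring
    calc ‖M.act U x - M.act V x‖ ≤ ∑ p, ‖(M.act U x - M.act V x) p‖ := norm_le_sum _
      _ ≤ ∑ _p : Fin 9 × Fin d, d * C * y * ‖x‖ := Finset.sum_le_sum fun p _ => h1 p
      _ = (9 * d) * (d * C) * y * ‖x‖ := by simp; ring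
      _ ≤ ((9 * d) * (d * C) + 1) * y * ‖x‖ := by
          have : 0 ≤ y * ‖x‖ := by positivity
          nlinarith

end Vale.Agent.P353.AN.LW
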