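import Vale.Agent.P353.AN.LOW.Log
import Vale.Agent.P353.AN.LOW.ExpLip
import Vale.Agent.P353.AN.LOW.HL
import Vale.Agent.P353.AN.LOW.Good
import Vale.Agent.P353.AN.LOW.AdE
import Vale.Agent.P353.AN.LOW.SUni
import Vale.Agent.P353.AN.LOW.Near
import Vale.Agent.P353.AN.LOW.Geo
import Vale.Agent.P353.AN.LOW.GoodA

/-! P353, all N, block LOW part H: unconditional outputs. -/

namespace Vale.Agent.P353.AN.LW.H

open Vale.Agent.P353 Vale.Agent.P353.AN.LW

variable {N d : ℕ} {F : Type*} [NormedAddCommGroup F] [InnerProductSpace ℂ F]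

theorem log (M : BFSS.Model N d F) : LogStmt M := log_stmt M

theorem expLip (M : BFSS.Model N d F) : ExpLipStmt M := expLip_stmt M

theorem hl (M : BFSS.Model N d F) : HLStmt M := hl_stmt M (log M) (expLip M)

theorem good (M : BFSS.Model N d F) : GoodStmt M := LH4.good_stmt M (expLip M) (hl M)

theorem adE (M : BFSS.Model N d F) : AdEStmt M := adE_stmt M

theorem sUni (M : BFSS.Model N d F) : SUniStmt M := sUni_stmt M

theorem near (M : BFSS.Model N d F) : NearStmt M := near_stmt M

theorem geo [FiniteDimensional ℂ F] (M : BFSS.Model N d F) : GeoStmt M :=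
  geo_stmt M (log M) (expLip M) (adE M) (sUni M) (near M)

theorem goodA (M : BFSS.Model N d F) : GoodAStmt M := goodA_stmt M (adE M)

end Vale.Agent.P353.AN.LW.H
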