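import Vale.Agent.P353.AN.LOW.StmtH
import Vale.Agent.P353.AN.LOW.ExpLip
import Vale.Agent.P353.Z.U.MAd

/-! # P353, all `N`, block LOW, LH1: the logarithm near `1` (helper409) -/

open MeasureTheory Filter Topology
open scoped ContDiff

namespace Vale.Agent.P353.AN.LW

open Vale.Agent.P353.Z Vale.Agent.P353.Z.U Vale.Agent.P353.Z.AN Vale.Agent.P353.AN.G

namespace LogS

variable {N d : ℕ} {F : Type*} [NormedAddCommGroup F] [InnerProductSpace ℂ F]

/-- `|θ| ≤ (π/2)|exp(iθ) - 1|` for `|θ| ≤ π` -/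
lemma abs_le {θ : ℝ} (hθ : |θ| ≤ Real.pi) :
    |θ| ≤ Real.pi / 2 * ‖Complex.exp ((θ : ℂ) * Complex.I) - 1‖ := by
  have h1 : ‖Complex.exp ((θ : ℂ) * Complex.I) - 1‖ = 2 * |Real.sin (θ / 2)| := by
    rw [mul_comm, Complex.norm_exp_I_mul_ofReal_sub_one, norm_mul, Real.norm_eq_abs,
      Real.norm_eq_abs, abs_two]
  have h2 : 2 / Real.pi * |θ / 2| ≤ |Real.sin (θ / 2)| := by
    apply Real.mul_abs_le_abs_sin
    rw [abs_div, abs_two]
    linarith
  rw [h1]
  rw [abs_div, abs_two] at h2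
  have hπ := Real.pi_pos
  have h3 : |θ| = Real.pi / 2 * (2 * (2 / Real.pi * (|θ| / 2))) := by
    field_simp
  rw [h3]
  gcongr

lemma fn_nonneg (X : Matrix (Fin N) (Fin N) ℂ) : 0 ≤ fn X := Real.sqrt_nonneg _

/-- `fn` is invariant under conjugation -/
lemma fn_mgc (U : BFSS.SU N) (X : Matrix (Fin N) (Fin N) ℂ) : fn (mgc U.val X) = fn X := by
  have h1 : fn (mgc U.val X) ^ 2 = fn X ^ 2 := by
    apply Complex.ofReal_injective
    rw [ExpLip.fn_sq, ExpLip.fn_sq, mgc, Matrix.conjTranspose_mul, Matrix.conjTranspose_mul,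
      Matrix.conjTranspose_conjTranspose, Matrix.trace_mul_comm]
    have h2 : U.val * X * U.val.conjTranspose * (U.val * (X.conjTranspose * U.val.conjTranspose)) =
        U.val * (X * (U.val.conjTranspose * U.val) * X.conjTranspose) * U.val.conjTranspose := by
      simp only [Matrix.mul_assoc]
    rw [h2, (mg_unit U).1, Matrix.mul_one, Matrix.trace_mul_comm, ← Matrix.mul_assoc,
      (mg_unit U).1, Matrix.one_mul, Matrix.trace_mul_comm]
  exact (pow_left_inj₀ (fn_nonneg _) (fn_nonneg _) two_ne_zero).1 h1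

lemma fn_diag (z : Fin N → ℂ) : fn (Matrix.diagonal z) = Real.sqrt (∑ j, ‖z j‖ ^ 2) := by
  rw [fn]
  congr 1
  refine Finset.sum_congr rfl fun j _ => ?_
  rw [Finset.sum_eq_single j]
  · rw [Matrix.diagonal_apply_eq]
  · intro k _ hk
    rw [Matrix.diagonal_apply_ne _ (Ne.symm hk), norm_zero]
    simp
  · simp

lemma fn_I (X : Matrix (Fin N) (Fin N) ℂ) : fn (Complex.I • X) = fn X := by
  rw [fn, fn]
  congr 1
  refine Finset.sum_congr rfl fun j _ => Finset.sum_congr rfl fun k _ => ?_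
  rw [Matrix.smul_apply, norm_smul, Complex.norm_I, one_mul]

lemma mgc_sub (U X Y : Matrix (Fin N) (Fin N) ℂ) : mgc U (X - Y) = mgc U X - mgc U Y := by
  rw [mgc, mgc, mgc, Matrix.mul_sub, Matrix.sub_mul]

lemma mgc_one (U : BFSS.SU N) : mgc U.val (1 : Matrix (Fin N) (Fin N) ℂ) = 1 := by
  rw [mgc, Matrix.mul_one, (mg_unit U).2]

/-- exponential of a conjugate of a diagonal matrix -/
lemma exp_mgc (U : BFSS.SU N) (x : Fin N → ℝ) :
    NormedSpace.exp (Complex.I • mgc U.val (Matrix.diagonal fun j => (x j : ℂ))) =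
      mgc U.val (Matrix.diagonal fun j => Complex.exp ((x j : ℂ) * Complex.I)) := by
  have hinv : (U.val)⁻¹ = U.val.conjTranspose :=
    Matrix.inv_eq_right_inv (mg_unit U).2
  have hU : IsUnit U.val := by
    rw [Matrix.isUnit_iff_isUnit_det]
    rw [(Matrix.mem_specialUnitaryGroup_iff.1 U.2).2]
    exact isUnit_one
  have h1 : Complex.I • mgc U.val (Matrix.diagonal fun j => (x j : ℂ)) =
      U.val * (Complex.I • Matrix.diagonal fun j => (x j : ℂ)) * (U.val)⁻¹ := by
    rw [hinv, mgc, Matrix.mul_smul, Matrix.smul_mul]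
  rw [h1, Matrix.exp_conj _ _ hU, hinv, mgc]
  congr 2
  rw [← Matrix.diagonal_smul, Matrix.exp_diagonal]
  congr 1
  funext j
  rw [Pi.coe_exp, ← Complex.exp_eq_exp_ℂ]
  show Complex.exp (Complex.I * _) = _
  rw [mul_comm]

/-- `U = V diag(z) V*` with `|z_j| = 1` -/
lemma diag_unitary (hN : 0 < N) (U : BFSS.SU N) : ∃ (V : BFSS.SU N) (x : Fin N → ℝ),
    U.val = mgc V.val (Matrix.diagonal fun j => Complex.exp ((x j : ℂ) * Complex.I)) := by
  have hU : U.val ∈ unitary (Matrix (Fin N) (Fin N) ℂ) :=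
    (Matrix.mem_specialUnitaryGroup_iff.1 U.2).1
  obtain ⟨K, hK, hKU⟩ := mad_log U.val hU
  obtain ⟨V, hV⟩ := mg_phase hN (hK.eigenvectorUnitary : Matrix (Fin N) (Fin N) ℂ)
    hK.eigenvectorUnitary.2
  have h1 : mgc (hK.eigenvectorUnitary : Matrix (Fin N) (Fin N) ℂ)
      (Matrix.diagonal fun j => ((hK.eigenvalues j : ℝ) : ℂ)) = K := by
    have h2 := hK.spectral_theorem
    rw [Unitary.conjStarAlgAut_apply] at h2
    exact h2.symm
  refine ⟨V, hK.eigenvalues, ?_⟩
  rw [← exp_mgc, hV, h1, hKU]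

end LogS

variable {N d : ℕ} {F : Type*} [NormedAddCommGroup F] [InnerProductSpace ℂ F]

open LogS in
/-- **LH1 Log** -/
theorem log_stmt (M : BFSS.Model N d F) : LogStmt M := by
  refine ⟨1 / (N + 1), Real.pi / 2, by positivity, by positivity, fun U hU => ?_⟩
  rcases Nat.eq_zero_or_pos N with hN | hN
  · subst hN
    refine ⟨0, Subsingleton.elim _ _, ?_⟩
    rw [norm_zero]
    exact mul_nonneg (by positivity) (fn_nonneg _)
  obtain ⟨V, x, hx⟩ := diag_unitary hN U
  set z : Fin N → ℂ := fun j => Complex.exp ((x j : ℂ) * Complex.I) with hz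
  set μ : Fin N → ℝ := fun j => (z j).arg with hμ
  have hz1 : ∀ j, ‖z j‖ = 1 := fun j => Complex.norm_exp_ofReal_mul_I _
  have hμz : ∀ j, Complex.exp ((μ j : ℂ) * Complex.I) = z j := by
    intro j
    have h := Complex.norm_mul_exp_arg_mul_I (z j)
    rw [hz1 j, Complex.ofReal_one, one_mul] at h
    exact h
  have hμa : ∀ j, |μ j| ≤ Real.pi / 2 * ‖z j - 1‖ := by
    intro j
    have h := LogS.abs_le (Complex.abs_arg_le_pi (z j))
    rw [hμz j] at h
    exact h
  have hfn : fn (U.val - 1) = Real.sqrt (∑ j, ‖z j - 1‖ ^ 2) := by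
    have h1 : U.val - 1 = mgc V.val (Matrix.diagonal fun j => z j - 1) := by
      have h2 : (Matrix.diagonal fun j => z j - 1) = Matrix.diagonal z - 1 := by
        rw [← Matrix.diagonal_one, Matrix.diagonal_sub]
      rw [h2, mgc_sub, mgc_one, hx]
    rw [h1, fn_mgc, fn_diag]
  have hle : ∀ j, ‖z j - 1‖ ≤ fn (U.val - 1) := by
    intro j
    rw [hfn]
    apply Real.le_sqrt_of_sq_le
    exact Finset.single_le_sum (f := fun j => ‖z j - 1‖ ^ 2) (fun _ _ => sq_nonneg _)
      (Finset.mem_univ j)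
  have hdet : Complex.exp (((∑ j, μ j : ℝ) : ℂ) * Complex.I) = 1 := by
    have h1 := (Matrix.mem_specialUnitaryGroup_iff.1 U.2).2
    have h2 : U.val.det = ∏ j, z j := by
      rw [hx, mgc, Matrix.det_mul, Matrix.det_mul, Matrix.det_diagonal, mul_right_comm,
        ← Matrix.det_mul, (mg_unit V).2, Matrix.det_one, one_mul]
    rw [h2] at h1
    rw [← h1, Complex.ofReal_sum, Finset.sum_mul, Complex.exp_sum]
    exact Finset.prod_congr rfl fun j _ => hμz j
  have hsum : ∑ j, μ j = 0 := by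
    rw [Complex.exp_eq_one_iff] at hdet
    obtain ⟨n, hn⟩ := hdet
    have h1 : ∑ j, μ j = n * (2 * Real.pi) := by
      have h2 : ((∑ j, μ j : ℝ) : ℂ) = ((n * (2 * Real.pi) : ℝ) : ℂ) := by
        apply mul_right_cancel₀ Complex.I_ne_zero
        rw [hn]
        push_cast
        ring
      exact_mod_cast h2
    have hπ := Real.pi_pos
    have h3 : |∑ j, μ j| < 2 * Real.pi := by
      calc |∑ j, μ j| ≤ ∑ j, |μ j| := Finset.abs_sum_le_sum_abs _ _
        _ ≤ ∑ _j : Fin N, Real.pi / 2 * (1 / (N + 1)) := by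
            refine Finset.sum_le_sum fun j _ => (hμa j).trans ?_
            have := (hle j).trans hU
            gcongr
        _ = Real.pi / 2 * (N / (N + 1)) := by
            rw [Finset.sum_const, Finset.card_univ, Fintype.card_fin, nsmul_eq_mul]
            ring
        _ ≤ Real.pi / 2 * 1 := by
            have h4 : (N : ℝ) / (N + 1) ≤ 1 := by
              rw [div_le_one (by positivity)]
              linarith
            gcongr
        _ < 2 * Real.pi := by linarith
    rw [h1, abs_mul, abs_of_pos (by positivity : 0 < 2 * Real.pi)] at h3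
    have h5 : |(n : ℝ)| < 1 := by
      by_contra hcon
      push Not at hcon
      nlinarith
    have h6 : n = 0 := by
      rw [← Int.cast_abs] at h5
      have h7 : |n| < 1 := by exact_mod_cast h5
      exact Int.abs_lt_one_iff.1 h7
    rw [h1, h6]
    simp
  set K : Matrix (Fin N) (Fin N) ℂ := mgc V.val (Matrix.diagonal fun j => (μ j : ℂ)) with hK
  have hKU : NormedSpace.exp (Complex.I • K) = U.val := by
    rw [hK, exp_mgc, hx]
    congr 2
    funext j
    exact hμz j
  have hKh : K.conjTranspose = K := by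
    rw [hK, mgc, Matrix.conjTranspose_mul, Matrix.conjTranspose_mul,
      Matrix.conjTranspose_conjTranspose, Matrix.diagonal_conjTranspose, Matrix.mul_assoc]
    congr 3
    funext j
    rw [Pi.star_apply, RCLike.star_def, Complex.conj_ofReal]
  have hKt : K.trace = 0 := by
    rw [hK, mgc, Matrix.trace_mul_comm, ← Matrix.mul_assoc, (mg_unit V).1, Matrix.one_mul,
      Matrix.trace_diagonal, ← Complex.ofReal_sum, hsum, Complex.ofReal_zero]
  have hreal : ∀ A, (M.T A * K).trace = (((M.T A * K).trace.re : ℝ) : ℂ) := by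
    intro A
    symm
    rw [← Complex.conj_eq_iff_re]
    have h1 : (M.T A * K).conjTranspose.trace = star (M.T A * K).trace :=
      Matrix.trace_conjTranspose _
    rw [Matrix.conjTranspose_mul, M.T_hermitian, hKh, Matrix.trace_mul_comm] at h1
    exact h1.symm
  let ξ : EuclideanSpace ℝ (Fin d) := WithLp.toLp 2 fun A => (M.T A * K).trace.re
  have hξ : ∑ A, (ξ A : ℂ) • M.T A = K := by
    have h1 := mad_complete M hN K
    rw [hKt, zero_div, zero_smul, add_zero] at h1
    rw [h1]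
    refine Finset.sum_congr rfl fun A _ => ?_
    rw [hreal A]
  refine ⟨ξ, ?_, ?_⟩
  · rw [eT, hξ, hKU]
  · have h1 := ExpLip.fn_lin M ξ
    rw [← h1, hξ, fn_I, hK, fn_mgc, fn_diag, hfn]
    have hπ := Real.pi_pos
    rw [← Real.sqrt_sq (by positivity : 0 ≤ Real.pi / 2), ← Real.sqrt_mul (sq_nonneg _),
      Finset.mul_sum]
    apply Real.sqrt_le_sqrt
    refine Finset.sum_le_sum fun j _ => ?_
    rw [Complex.norm_real, Real.norm_eq_abs, ← mul_pow]
    exact pow_le_pow_left₀ (abs_nonneg _) (hμa j) 2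

end Vale.Agent.P353.AN.LW
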