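import Vale.Agent.P353.Z.U.MollRad

/-! # P353, all `N`, block LOW: covariant regularisation of an `L²` function (analysis half of `MolStmt`; helper755) -/

open MeasureTheory Filter Topology
open scoped ContDiff

namespace Vale.Agent.P353.Z.LowMolA

open Vale.Agent.P353.Z.Moll

variable {ds : ℕ} {F : Type*} [NormedAddCommGroup F] [InnerProductSpace ℂ F]

/-- continuous radial cutoff -/
noncomputable def kk (L : ℝ) (s : Cfg ds) : ℝ := max 0 (min 1 (L + 1 - ‖s‖))

lemma kk_cont (L : ℝ) : Continuous (kk (ds := ds) L) := by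
  unfold kk
  fun_prop

lemma kk_bd (L : ℝ) (s : Cfg ds) : 0 ≤ kk L s ∧ kk L s ≤ 1 :=
  ⟨le_max_left _ _, max_le zero_le_one (min_le_left _ _)⟩

lemma kk_one {L : ℝ} {s : Cfg ds} (h : ‖s‖ ≤ L) : kk L s = 1 := by
  unfold kk
  rw [min_eq_left (by linarith), max_eq_right zero_le_one]

lemma kk_zero {L : ℝ} {s : Cfg ds} (h : L + 1 ≤ ‖s‖) : kk L s = 0 := by
  unfold kk
  rw [min_eq_right (by linarith), max_eq_left (by linarith)]

lemma kk_iso (L : ℝ) (O : Cfg ds ≃ₗᵢ[ℝ] Cfg ds) (s : Cfg ds) : kk L (O s) = kk L s := by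
  unfold kk
  rw [O.norm_map]

omit [InnerProductSpace ℂ F] in
lemma nsq_add_two {f g : Cfg ds → F} (hf : MemLp f 2 (volume : Measure (Cfg ds)))
    (hg : MemLp g 2 (volume : Measure (Cfg ds))) : nsq (fun x => f x + g x) ≤ 2 * nsq f + 2 * nsq g := by
  have i1 := memLp_norm_sq_int hf
  have i2 := memLp_norm_sq_int hg
  have i3 : Integrable (fun x => ‖f x + g x‖ ^ 2) := memLp_norm_sq_int (hf.add hg)
  unfold nsq
  rw [← integral_const_mul, ← integral_const_mul, ← integral_add (i1.const_mul 2) (i2.const_mul 2)]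
  refine integral_mono i3 ((i1.const_mul 2).add (i2.const_mul 2)) fun w => ?_
  have h1 : ‖f w + g w‖ ≤ ‖f w‖ + ‖g w‖ := norm_add_le _ _
  have h2 : ‖f w + g w‖ ^ 2 ≤ (‖f w‖ + ‖g w‖) ^ 2 := by gcongr
  show ‖f w + g w‖ ^ 2 ≤ 2 * ‖f w‖ ^ 2 + 2 * ‖g w‖ ^ 2
  nlinarith [sq_nonneg (‖f w‖ - ‖g w‖)]

/-- covariance of the radial mollification -/
lemma mo_cov [CompleteSpace F] {g : ℝ → ℝ} {w : Cfg ds → F} (hw : MemLp w 2 (volume : Measure (Cfg ds)))
    {ε : ℝ} (hg : IsMol ε (rad (dc := ds) g)) (T : F →L[ℂ] F) (O : Cfg ds ≃ₗᵢ[ℝ] Cfg ds)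
    (hT : ∀ᵐ s ∂(volume : Measure (Cfg ds)), T (w s) = w (O s)) (s : Cfg ds) :
    T (mo (rad g) w s) = mo (rad g) w (O s) := by
  have h1 : mo (rad g) w (O s) = ∫ y, rad g (O s - O y) • w (O y) := by
    unfold mo
    exact (O.measurePreserving.integral_comp' (f := O.toHomeomorph.toMeasurableEquiv)
      (fun y => rad g (O s - y) • w y)).symm
  have h2 : (∫ y, rad g (O s - O y) • w (O y)) = ∫ y, T (rad g (s - y) • w y) := by
    refine integral_congr_ae ?_
    filter_upwards [hT] with y hy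
    have e1 : rad g (O s - O y) = rad g (s - y) := by
      unfold rad
      rw [← map_sub, O.norm_map]
    rw [e1, ← hy]
    exact (map_smul (T.restrictScalars ℝ) _ _).symm
  rw [h1, h2]
  have h3 := integrable_mo hg.contDiff.continuous hg.hcs (locInt hw) s
  exact ((T.restrictScalars ℝ).integral_comp_comm h3).symm

theorem mol_ana [CompleteSpace F] {w₀ : Cfg ds → F} (hw : MemLp w₀ 2 (volume : Measure (Cfg ds))) {ε : ℝ} (hε : 0 < ε) :
    ∃ (β₁ : Cfg ds → ℝ) (om : Cfg ds → F), Continuous β₁ ∧ HasCompactSupport β₁ ∧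
      (∀ s, 0 ≤ β₁ s) ∧ ContinuousOn om (tsupport β₁) ∧ (∀ s ∈ tsupport β₁, ‖om s‖ = 1) ∧
      Continuous (fun s => ((β₁ s : ℝ) : ℂ) • om s) ∧ (∫ s, ‖w₀ s - ((β₁ s : ℝ) : ℂ) • om s‖ ^ 2) ≤ ε ∧
      ∀ (T : F →L[ℂ] F) (O : Cfg ds ≃ₗᵢ[ℝ] Cfg ds), (∀ v, ‖T v‖ = ‖v‖) →
        (∀ᵐ s ∂(volume : Measure (Cfg ds)), T (w₀ s) = w₀ (O s)) →
        (∀ s, β₁ (O s) = β₁ s) ∧ ∀ s, T (om s) = om (O s) := by
  -- mollification
  obtain ⟨δ, hδ, hmo⟩ := mo_approx hw (show 0 < ε / 12 by positivity)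
  obtain ⟨g, hg, hgm⟩ := exists_mol (dc := ds) hδ
  set w' := mo (rad g) w₀ with hw'
  have hn1 : nsq (fun x => w' x - w₀ x) ≤ ε / 12 := hmo δ le_rfl _ hgm
  have hw'L : MemLp w' 2 (volume : Measure (Cfg ds)) := (nsq_mo_le hgm hw).1
  have hw'c : Continuous w' := (contDiff_mo hgm.contDiff hgm.hcs (locInt hw)).continuous
  -- cutoff
  have hkint : Tendsto (fun m : ℕ => ∫ s, (1 - kk (ds := ds) (m : ℝ) s) ^ 2 * ‖w' s‖ ^ 2) atTop (𝓝 0) := by
    have e0 : (0 : ℝ) = ∫ _x : Cfg ds, (0 : ℝ) := by simp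
    rw [e0]
    refine tendsto_integral_of_dominated_convergence (fun x => ‖w' x‖ ^ 2) ?_ (memLp_norm_sq_int hw'L) ?_ ?_
    · intro m
      exact (((continuous_const.sub (kk_cont _)).pow 2).mul (hw'c.norm.pow 2)).aestronglyMeasurable
    · intro m
      refine Filter.Eventually.of_forall fun x => ?_
      rw [norm_mul, Real.norm_eq_abs, Real.norm_eq_abs, abs_of_nonneg (sq_nonneg _), abs_of_nonneg (sq_nonneg _)]
      have h2 : (1 - kk (m : ℝ) x) ^ 2 ≤ 1 := by
        have := kk_bd (m : ℝ) x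
        nlinarith
      calc (1 - kk (m : ℝ) x) ^ 2 * ‖w' x‖ ^ 2 ≤ 1 * ‖w' x‖ ^ 2 := mul_le_mul_of_nonneg_right h2 (sq_nonneg _)
        _ = _ := one_mul _
    · refine Filter.Eventually.of_forall fun x => ?_
      obtain ⟨N, hN⟩ := exists_nat_gt ‖x‖
      refine tendsto_const_nhds.congr' ?_
      filter_upwards [Filter.eventually_ge_atTop N] with m hm
      have : ‖x‖ ≤ m := by
        have : (N : ℝ) ≤ m := by exact_mod_cast hm
        linarith
      rw [kk_one this]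
      ring
  obtain ⟨m, hm⟩ := (hkint.eventually_lt_const (show (0 : ℝ) < ε / 12 by positivity)).exists
  set L : ℝ := (m : ℝ) with hL
  set w₁ : Cfg ds → F := fun s => ((kk L s : ℝ) : ℂ) • w' s with hw₁
  have hw₁c : Continuous w₁ := (Complex.continuous_ofReal.comp (kk_cont L)).smul hw'c
  have hw₁0 : ∀ s, L + 1 ≤ ‖s‖ → w₁ s = 0 := by
    intro s hs
    rw [hw₁]
    simp only [kk_zero hs, Complex.ofReal_zero, zero_smul]
  have hn2 : nsq (fun x => w' x - w₁ x) ≤ ε / 12 := by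
    have e : ∀ x, ‖w' x - w₁ x‖ ^ 2 = (1 - kk L x) ^ 2 * ‖w' x‖ ^ 2 := by
      intro x
      have e1 : w' x - w₁ x = ((1 - kk L x : ℝ) : ℂ) • w' x := by
        rw [hw₁, Complex.ofReal_sub, Complex.ofReal_one, sub_smul, one_smul]
      rw [e1, norm_smul, Complex.norm_real, mul_pow, Real.norm_eq_abs, sq_abs]
    unfold nsq
    simp only [e]
    exact hm.le
  -- truncation
  set B : Set (Cfg ds) := Metric.closedBall 0 (L + 1) with hB
  set Vo : ℝ := (volume : Measure (Cfg ds)).real B with hVo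
  have hVo0 : 0 ≤ Vo := measureReal_nonneg
  set κ : ℝ := Real.sqrt (ε / (12 * (Vo + 1))) with hκ
  have hκ0 : 0 < κ := Real.sqrt_pos.2 (by positivity)
  have hκ2 : κ ^ 2 * Vo ≤ ε / 12 := by
    rw [hκ, Real.sq_sqrt (by positivity)]
    rw [div_mul_eq_mul_div, div_le_div_iff₀ (by positivity) (by positivity)]
    nlinarith
  set β₁ : Cfg ds → ℝ := fun s => max (‖w₁ s‖ - κ) 0 with hβ
  set om : Cfg ds → F := fun s => ((‖w₁ s‖⁻¹ : ℝ) : ℂ) • w₁ s with hom
  have hβc : Continuous β₁ := (hw₁c.norm.sub continuous_const).max continuous_const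
  have hβ0 : ∀ s, β₁ s ≠ 0 → κ ≤ ‖w₁ s‖ := by
    intro s hs
    by_contra h
    exact hs (max_eq_right (by linarith))
  have hβs : HasCompactSupport β₁ := by
    refine HasCompactSupport.intro (isCompact_closedBall (0 : Cfg ds) (L + 1)) fun s hs => ?_
    rw [Metric.mem_closedBall, dist_zero_right, not_le] at hs
    show max (‖w₁ s‖ - κ) 0 = 0
    rw [hw₁0 s hs.le, norm_zero]
    exact max_eq_right (by linarith)
  have hts : ∀ s ∈ tsupport β₁, κ ≤ ‖w₁ s‖ := by
    have hcl : IsClosed {s | κ ≤ ‖w₁ s‖} := isClosed_le continuous_const hw₁c.norm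
    exact fun s hs => closure_minimal (fun x hx => hβ0 x hx) hcl hs
  have hprod : ∀ s, ((β₁ s : ℝ) : ℂ) • om s = ((β₁ s / max ‖w₁ s‖ κ : ℝ) : ℂ) • w₁ s := by
    intro s
    show ((β₁ s : ℝ) : ℂ) • ((‖w₁ s‖⁻¹ : ℝ) : ℂ) • w₁ s = _
    rw [smul_smul, ← Complex.ofReal_mul]
    by_cases h : β₁ s = 0
    · rw [h]
      simp
    · rw [max_eq_left (hβ0 s h), div_eq_mul_inv]
  have hmax : ∀ s, 0 < max ‖w₁ s‖ κ := fun s => lt_of_lt_of_le hκ0 (le_max_right _ _)
  have hpc : Continuous (fun s => ((β₁ s : ℝ) : ℂ) • om s) := by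
    simp only [hprod]
    refine (Complex.continuous_ofReal.comp ?_).smul hw₁c
    exact hβc.div (hw₁c.norm.max continuous_const) fun s => (hmax s).ne'
  have hdiff : ∀ s, ‖w₁ s - ((β₁ s : ℝ) : ℂ) • om s‖ ≤ B.indicator (fun _ => κ) s := by
    intro s
    by_cases hs : s ∈ B
    · rw [Set.indicator_of_mem hs, hprod]
      have e1 : w₁ s - ((β₁ s / max ‖w₁ s‖ κ : ℝ) : ℂ) • w₁ s = ((1 - β₁ s / max ‖w₁ s‖ κ : ℝ) : ℂ) • w₁ s := by
        rw [Complex.ofReal_sub, Complex.ofReal_one, sub_smul, one_smul]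
      rw [e1, norm_smul, Complex.norm_real, Real.norm_eq_abs]
      have hβ' : β₁ s = max (‖w₁ s‖ - κ) 0 := rfl
      rcases le_total ‖w₁ s‖ κ with h | h
      · rw [hβ', max_eq_right (by linarith), zero_div, sub_zero, abs_one, one_mul]
        exact h
      · have hpos : 0 < ‖w₁ s‖ := lt_of_lt_of_le hκ0 h
        rw [hβ', max_eq_left (by linarith), max_eq_left h]
        have e2 : 1 - (‖w₁ s‖ - κ) / ‖w₁ s‖ = κ / ‖w₁ s‖ := by
          field_simp
          ring
        rw [e2, abs_of_pos (by positivity), div_mul_cancel₀ _ hpos.ne']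
    · have h1 : L + 1 ≤ ‖s‖ := by
        rw [hB, Metric.mem_closedBall, dist_zero_right, not_le] at hs
        exact hs.le
      rw [Set.indicator_of_notMem hs, hprod, hw₁0 s h1, smul_zero, sub_zero, norm_zero]
  have hn3 : nsq (fun s => w₁ s - ((β₁ s : ℝ) : ℂ) • om s) ≤ ε / 12 := by
    have hi : Integrable (B.indicator (fun _ => κ ^ 2)) (volume : Measure (Cfg ds)) :=
      (integrable_indicator_iff measurableSet_closedBall).2 (integrableOn_const measure_closedBall_lt_top.ne)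
    refine (integral_mono_of_nonneg (Filter.Eventually.of_forall fun s => by positivity) hi
      (Filter.Eventually.of_forall fun s => ?_)).trans ?_
    · have h1 := pow_le_pow_left₀ (norm_nonneg _) (hdiff s) 2
      refine h1.trans (le_of_eq ?_)
      by_cases hs : s ∈ B
      · rw [Set.indicator_of_mem hs, Set.indicator_of_mem hs]
      · rw [Set.indicator_of_notMem hs, Set.indicator_of_notMem hs]
        ring
    · rw [integral_indicator measurableSet_closedBall, setIntegral_const, smul_eq_mul, mul_comm]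
      exact hκ2
  have hpcs : HasCompactSupport (fun s => ((β₁ s : ℝ) : ℂ) • om s) := by
    refine HasCompactSupport.intro hβs fun s hs => ?_
    rw [image_eq_zero_of_notMem_tsupport hs]
    simp
  have hpL : MemLp (fun s => ((β₁ s : ℝ) : ℂ) • om s) 2 (volume : Measure (Cfg ds)) :=
    hpc.memLp_of_hasCompactSupport hpcs
  have hw₁s : HasCompactSupport w₁ := by
    refine HasCompactSupport.intro (isCompact_closedBall (0 : Cfg ds) (L + 1)) fun s hs => ?_
    rw [Metric.mem_closedBall, dist_zero_right, not_le] at hs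
    exact hw₁0 s hs.le
  have hw₁L : MemLp w₁ 2 (volume : Measure (Cfg ds)) := hw₁c.memLp_of_hasCompactSupport hw₁s
  refine ⟨β₁, om, hβc, hβs, fun s => le_max_right _ _, ?_, ?_, hpc, ?_, ?_⟩
  · refine ContinuousOn.smul ?_ hw₁c.continuousOn
    refine Complex.continuous_ofReal.comp_continuousOn ?_
    exact hw₁c.norm.continuousOn.inv₀ fun s hs => (lt_of_lt_of_le hκ0 (hts s hs)).ne'
  · intro s hs
    have h1 := lt_of_lt_of_le hκ0 (hts s hs)
    show ‖((‖w₁ s‖⁻¹ : ℝ) : ℂ) • w₁ s‖ = 1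
    rw [norm_smul, Complex.norm_real, norm_inv, norm_norm, inv_mul_cancel₀ h1.ne']
  · have e1 : (fun s => w₀ s - ((β₁ s : ℝ) : ℂ) • om s) = fun s => (w₀ s - w' s) +
        ((w' s - w₁ s) + (w₁ s - ((β₁ s : ℝ) : ℂ) • om s)) := by
      funext s
      abel
    have e2 : (∫ s, ‖w₀ s - ((β₁ s : ℝ) : ℂ) • om s‖ ^ 2) = nsq (fun s => w₀ s - ((β₁ s : ℝ) : ℂ) • om s) := rfl
    rw [e2, e1]
    have m1 : MemLp (fun s => w₀ s - w' s) 2 (volume : Measure (Cfg ds)) := hw.sub hw'L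
    have m2 : MemLp (fun s => w' s - w₁ s) 2 (volume : Measure (Cfg ds)) := hw'L.sub hw₁L
    have m3 : MemLp (fun s => w₁ s - ((β₁ s : ℝ) : ℂ) • om s) 2 (volume : Measure (Cfg ds)) := hw₁L.sub hpL
    have m4 : MemLp (fun s => (w' s - w₁ s) + (w₁ s - ((β₁ s : ℝ) : ℂ) • om s)) 2 (volume : Measure (Cfg ds)) := m2.add m3
    have h1 := nsq_add_two m1 m4
    have h2 := nsq_add_two m2 m3
    have h3 : nsq (fun s => w₀ s - w' s) = nsq (fun s => w' s - w₀ s) := by
      unfold nsq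
      refine integral_congr_ae (Filter.Eventually.of_forall fun x => ?_)
      simp only [norm_sub_rev]
    rw [h3] at h1
    linarith
  · intro T O hTn hT
    have hc : ∀ s, T (w₁ s) = w₁ (O s) := by
      intro s
      show T (((kk L s : ℝ) : ℂ) • w' s) = ((kk L (O s) : ℝ) : ℂ) • w' (O s)
      rw [map_smul, mo_cov hw hgm T O hT s, kk_iso]
    have hnn : ∀ s, ‖w₁ (O s)‖ = ‖w₁ s‖ := by
      intro s
      rw [← hc, hTn]
    refine ⟨fun s => ?_, fun s => ?_⟩
    · show max (‖w₁ (O s)‖ - κ) 0 = max (‖w₁ s‖ - κ) 0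
      rw [hnn]
    · show T (((‖w₁ s‖⁻¹ : ℝ) : ℂ) • w₁ s) = ((‖w₁ (O s)‖⁻¹ : ℝ) : ℂ) • w₁ (O s)
      rw [map_smul, hc, hnn]

end Vale.Agent.P353.Z.LowMolA
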