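import Vale.Agent.P353.AN.LOW.Stmt
import Vale.Agent.P353.AN.GL.Sup

/-! # P353, all `N`, block LOW: LOW6, the normaliser acts blockwise (helper535) -/

open MeasureTheory Filter Topology
open scoped ContDiff

namespace Vale.Agent.P353.AN.LW

open Vale.Agent.P353.Z Vale.Agent.P353.Z.U Vale.Agent.P353.Z.AN Vale.Agent.P353.AN.G

variable {N d dh dm r ds : ℕ} {F : Type*} [NormedAddCommGroup F] [InnerProductSpace ℂ F]

lemma mo_last (i : Fin 9) : Fin.lastCases (motive := fun _ => ℝ) 0 (fun _ : Fin 8 => (0 : ℝ)) i = 0 := by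
  refine Fin.lastCases ?_ (fun j => ?_) i
  · rw [Fin.lastCases_last]
  · rw [Fin.lastCases_castSucc]

lemma ezs_z (φ : Spl dh dm d) (ψ : Spz r ds dh) (η : Cfg r) (s : Cfg ds) (i : Fin 9) (a : Fin r) :
    ezs φ ψ η s (i, φ (Sum.inl (ψ (Sum.inl a)))) = η (i, a) := by
  simp [ezs, emb, cmb]

lemma ezs_s (φ : Spl dh dm d) (ψ : Spz r ds dh) (η : Cfg r) (s : Cfg ds) (i : Fin 9) (a : Fin ds) :
    ezs φ ψ η s (i, φ (Sum.inl (ψ (Sum.inr a)))) = s (i, a) := by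
  simp [ezs, emb, cmb]

lemma ezs_m (φ : Spl dh dm d) (ψ : Spz r ds dh) (η : Cfg r) (s : Cfg ds) (i : Fin 9) (a : Fin dm) :
    ezs φ ψ η s (i, φ (Sum.inr a)) = 0 := by
  have h1 : ezs φ ψ η s (i, φ (Sum.inr a)) =
      Fin.lastCases (motive := fun _ => ℝ) 0 (fun _ : Fin 8 => (0 : ℝ)) i := by
    simp [ezs, emb]
  rw [h1, mo_last]

/-- every colour index is of one of the three types -/
lemma bl_cases (φ : Spl dh dm d) (ψ : Spz r ds dh) (A : Fin d) :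
    (∃ a, A = φ (Sum.inl (ψ (Sum.inl a))) ∧ bl φ ψ A = 0) ∨ (∃ a, A = φ (Sum.inl (ψ (Sum.inr a))) ∧ bl φ ψ A = 1) ∨
      ∃ a, A = φ (Sum.inr a) ∧ bl φ ψ A = 2 := by
  obtain ⟨b, rfl⟩ := φ.surjective A
  rcases b with b | b
  · obtain ⟨c, rfl⟩ := ψ.surjective b
    rcases c with c | c
    · exact Or.inl ⟨c, rfl, by simp [bl]⟩
    · exact Or.inr (Or.inl ⟨c, rfl, by simp [bl]⟩)
  · exact Or.inr (Or.inr ⟨b, rfl, by simp [bl]⟩)

lemma hz_ezs (φ : Spl dh dm d) (ψ : Spz r ds dh) (η : Cfg r) (s : Cfg ds) : hz ψ (zy φ (ezs φ ψ η s)) = η := by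
  ext ⟨i, a⟩
  exact ezs_z φ ψ η s i a

lemma hs_ezs (φ : Spl dh dm d) (ψ : Spz r ds dh) (η : Cfg r) (s : Cfg ds) : hs ψ (zy φ (ezs φ ψ η s)) = s := by
  ext ⟨i, a⟩
  exact ezs_s φ ψ η s i a

lemma pm_ezs (φ : Spl dh dm d) (ψ : Spz r ds dh) (η : Cfg r) (s : Cfg ds) : pm φ (ezs φ ψ η s) = 0 := by
  ext ⟨i, a⟩
  exact ezs_m φ ψ η s i a

lemma norm_ezs (φ : Spl dh dm d) (ψ : Spz r ds dh) (η : Cfg r) (s : Cfg ds) :
    ‖ezs φ ψ η s‖ ^ 2 = ‖η‖ ^ 2 + ‖s‖ ^ 2 := by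
  rw [sup_norm_sq φ ψ, hz_ezs, hs_ezs, pm_ezs, norm_zero]
  ring

lemma ezs_add (φ : Spl dh dm d) (ψ : Spz r ds dh) (η η' : Cfg r) (s s' : Cfg ds) :
    ezs φ ψ (η + η') (s + s') = ezs φ ψ η s + ezs φ ψ η' s' := by
  ext ⟨i, A⟩
  rw [PiLp.add_apply]
  rcases bl_cases φ ψ A with ⟨a, rfl, -⟩ | ⟨a, rfl, -⟩ | ⟨a, rfl, -⟩
  · simp only [ezs_z, PiLp.add_apply]
  · simp only [ezs_s, PiLp.add_apply]
  · simp only [ezs_m, add_zero]

lemma ezs_smul (φ : Spl dh dm d) (ψ : Spz r ds dh) (c : ℝ) (η : Cfg r) (s : Cfg ds) :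
    ezs φ ψ (c • η) (c • s) = c • ezs φ ψ η s := by
  ext ⟨i, A⟩
  rw [PiLp.smul_apply]
  rcases bl_cases φ ψ A with ⟨a, rfl, -⟩ | ⟨a, rfl, -⟩ | ⟨a, rfl, -⟩
  · simp only [ezs_z, PiLp.smul_apply]
  · simp only [ezs_s, PiLp.smul_apply]
  · simp only [ezs_m, smul_zero]

/-- configurations in one block -/
def InBl (φ : Spl dh dm d) (ψ : Spz r ds dh) (b : Fin 3) (x : Cfg d) : Prop :=
  ∀ i A, bl φ ψ A ≠ b → x (i, A) = 0

lemma inBl_z (φ : Spl dh dm d) (ψ : Spz r ds dh) (η : Cfg r) : InBl φ ψ 0 (ezs φ ψ η 0) := by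
  intro i A hA
  rcases bl_cases φ ψ A with ⟨a, rfl, h⟩ | ⟨a, rfl, h⟩ | ⟨a, rfl, h⟩
  · exact absurd h hA
  · rw [ezs_s]; rfl
  · rw [ezs_m]

lemma inBl_s (φ : Spl dh dm d) (ψ : Spz r ds dh) (s : Cfg ds) : InBl φ ψ 1 (ezs φ ψ 0 s) := by
  intro i A hA
  rcases bl_cases φ ψ A with ⟨a, rfl, h⟩ | ⟨a, rfl, h⟩ | ⟨a, rfl, h⟩
  · rw [ezs_z]; rfl
  · exact absurd h hA
  · rw [ezs_m]

lemma act_inBl {M : BFSS.Model N d F} {φ : Spl dh dm d} {ψ : Spz r ds dh} {U : BFSS.SU N} (hU : Nrm M φ ψ U) {b : Fin 3}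
    {x : Cfg d} (hx : InBl φ ψ b x) : InBl φ ψ b (M.act U x) := by
  intro i B hB
  show ∑ A, BFSS.adCoeff M.T U B A * x (i, A) = 0
  refine Finset.sum_eq_zero fun A _ => ?_
  by_cases hA : bl φ ψ A = b
  · rw [hU B A (by rw [hA]; exact hB), zero_mul]
  · rw [hx i A hA, mul_zero]

lemma inBl_z_eq {φ : Spl dh dm d} {ψ : Spz r ds dh} {x : Cfg d} (hx : InBl φ ψ 0 x) :
    x = ezs φ ψ (hz ψ (zy φ x)) 0 := by
  ext ⟨i, A⟩
  rcases bl_cases φ ψ A with ⟨a, rfl, h⟩ | ⟨a, rfl, h⟩ | ⟨a, rfl, h⟩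
  · rw [ezs_z]; rfl
  · rw [ezs_s, hx i _ (by rw [h]; decide)]; rfl
  · rw [ezs_m, hx i _ (by rw [h]; decide)]

lemma inBl_s_eq {φ : Spl dh dm d} {ψ : Spz r ds dh} {x : Cfg d} (hx : InBl φ ψ 1 x) :
    x = ezs φ ψ 0 (hs ψ (zy φ x)) := by
  ext ⟨i, A⟩
  rcases bl_cases φ ψ A with ⟨a, rfl, h⟩ | ⟨a, rfl, h⟩ | ⟨a, rfl, h⟩
  · rw [ezs_z, hx i _ (by rw [h]; decide)]; rfl
  · rw [ezs_s]; rfl
  · rw [ezs_m, hx i _ (by rw [h]; decide)]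

/-- the action of the normaliser on the `s`-coordinates -/
noncomputable def Os (M : BFSS.Model N d F) (φ : Spl dh dm d) (ψ : Spz r ds dh) (U : BFSS.SU N) (s : Cfg ds) : Cfg ds :=
  hs ψ (zy φ (M.act U (ezs φ ψ 0 s)))

lemma act_s {M : BFSS.Model N d F} {φ : Spl dh dm d} {ψ : Spz r ds dh} {U : BFSS.SU N} (hU : Nrm M φ ψ U) (s : Cfg ds) :
    M.act U (ezs φ ψ 0 s) = ezs φ ψ 0 (Os M φ ψ U s) := inBl_s_eq (act_inBl hU (inBl_s φ ψ s))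

lemma act_z {M : BFSS.Model N d F} {φ : Spl dh dm d} {ψ : Spz r ds dh} {U : BFSS.SU N} (hU : Nrm M φ ψ U) (η : Cfg r) :
    M.act U (ezs φ ψ η 0) = ezs φ ψ (hz ψ (zy φ (M.act U (ezs φ ψ η 0)))) 0 :=
  inBl_z_eq (act_inBl hU (inBl_z φ ψ η))

/-- splitting of an orbit relation -/
lemma act_split {M : BFSS.Model N d F} (hA : ActStmt M) {φ : Spl dh dm d} {ψ : Spz r ds dh} {U : BFSS.SU N}
    (hU : Nrm M φ ψ U) {η η' : Cfg r} {s s' : Cfg ds} (h : M.act U (ezs φ ψ η s) = ezs φ ψ η' s') :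
    M.act U (ezs φ ψ η 0) = ezs φ ψ η' 0 ∧ Os M φ ψ U s = s' := by
  have h1 : ezs φ ψ η s = ezs φ ψ η 0 + ezs φ ψ 0 s := by
    rw [← ezs_add, add_zero, zero_add]
  rw [h1, hA.2.2.1, act_z hU η, act_s hU s, ← ezs_add, add_zero, zero_add] at h
  have h2 := congrArg (fun x => hz ψ (zy φ x)) h
  have h3 := congrArg (fun x => hs ψ (zy φ x)) h
  simp only [hz_ezs, hs_ezs] at h2 h3
  refine ⟨?_, h3⟩
  rw [act_z hU η, h2]

/-- `Os` as a linear isometry -/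
noncomputable def OsI {M : BFSS.Model N d F} (hA : ActStmt M) {φ : Spl dh dm d} {ψ : Spz r ds dh} {U : BFSS.SU N}
    (hU : Nrm M φ ψ U) : Cfg ds ≃ₗᵢ[ℝ] Cfg ds :=
  LinearIsometry.toLinearIsometryEquiv
    { toFun := Os M φ ψ U
      map_add' := by
        intro s s'
        have h : ezs φ ψ 0 (s + s') = ezs φ ψ 0 s + ezs φ ψ 0 s' := by
          rw [← ezs_add, add_zero]
        unfold Os
        rw [h, hA.2.2.1]
        rfl
      map_smul' := by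
        intro c s
        have h : ezs φ ψ 0 (c • s) = c • ezs φ ψ 0 s := by
          rw [← ezs_smul, smul_zero]
        unfold Os
        rw [h, hA.2.2.2.1]
        rfl
      norm_map' := by
        intro s
        have h1 : ‖ezs φ ψ 0 (Os M φ ψ U s)‖ = ‖ezs φ ψ 0 s‖ := by
          rw [← act_s hU s, hA.2.2.2.2.1]
        have h2 := norm_ezs φ ψ 0 (Os M φ ψ U s)
        have h3 := norm_ezs φ ψ 0 s
        rw [h1, h3, norm_zero] at h2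
        have h4 : ‖Os M φ ψ U s‖ ^ 2 = ‖s‖ ^ 2 := by linarith
        exact (pow_left_inj₀ (norm_nonneg _) (norm_nonneg _) two_ne_zero).1 h4 } rfl

lemma OsI_apply {M : BFSS.Model N d F} (hA : ActStmt M) {φ : Spl dh dm d} {ψ : Spz r ds dh} {U : BFSS.SU N}
    (hU : Nrm M φ ψ U) (s : Cfg ds) : OsI hA hU s = Os M φ ψ U s := rfl

end Vale.Agent.P353.AN.LW
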