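import Vale.Agent.P353.AN.LOW.Stmt

/-! # P353, all `N`, block LOW: LOW9, first half: the weighted error -/

open MeasureTheory Filter Topology
open scoped ContDiff ENNReal

namespace Vale.Agent.P353.AN.LW

open Vale.Agent.P353.Z Vale.Agent.P353.Z.U Vale.Agent.P353.Z.AN Vale.Agent.P353.AN.G

variable {r ds dm : ℕ} {F : Type*} [NormedAddCommGroup F] [InnerProductSpace ℂ F]

namespace OuteErr

omit [InnerProductSpace ℂ F] in
theorem eLpNorm_two_sq {α : Type*} [MeasurableSpace α] (μ : Measure α) (f : α → F) :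
    eLpNorm f 2 μ ^ 2 = ∫⁻ x, ‖f x‖ₑ ^ 2 ∂μ := by
  rw [eLpNorm_eq_lintegral_rpow_enorm_toReal (by norm_num) (by norm_num)]
  rw [← ENNReal.rpow_natCast, ← ENNReal.rpow_mul]
  norm_num

theorem gss_cont : Continuous (gss : Cfg r → ℝ) := by
  unfold gss
  fun_prop

theorem qX_cont (Om : Matrix (Fin dm) (Fin dm) ℝ) : Continuous fun X : Cfg dm => qX Om X := by
  unfold qX
  fun_prop

/-- elementary pointwise bound -/
theorem ptw (c : ℝ) (hc0 : 0 ≤ c) (hc1 : c ≤ 1) (u w : F) :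
    ‖(c : ℂ) • u - w‖ ^ 2 ≤ 2 * ‖w - u‖ ^ 2 + (1 - c) * (2 * ‖w‖ ^ 2) := by
  have h1 : (c : ℂ) • u - w = (c : ℂ) • (u - w) - ((1 - c : ℝ) : ℂ) • w := by
    rw [Complex.ofReal_sub, Complex.ofReal_one, sub_smul, one_smul, smul_sub]
    abel
  have h2 : ‖(c : ℂ) • u - w‖ ≤ c * ‖w - u‖ + (1 - c) * ‖w‖ := by
    rw [h1]
    refine (norm_sub_le _ _).trans ?_
    rw [norm_smul, norm_smul, Complex.norm_real, Complex.norm_real, Real.norm_of_nonneg hc0,
      Real.norm_of_nonneg (by linarith : (0 : ℝ) ≤ 1 - c), norm_sub_rev u w]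
  have h3 : ‖(c : ℂ) • u - w‖ ^ 2 ≤ (c * ‖w - u‖ + (1 - c) * ‖w‖) ^ 2 :=
    pow_le_pow_left₀ (norm_nonneg _) h2 2
  have hA := norm_nonneg (w - u)
  have hB := norm_nonneg w
  nlinarith [mul_nonneg hc0 (sub_nonneg.2 hc1), sq_nonneg (‖w - u‖ - ‖w‖), sq_nonneg ‖w - u‖, sq_nonneg ‖w‖,
    mul_nonneg (mul_nonneg hc0 (sub_nonneg.2 hc1)) (sq_nonneg (‖w - u‖ - ‖w‖)),
    mul_nonneg (sub_nonneg.2 hc1) (sq_nonneg ‖w - u‖), mul_nonneg (sub_nonneg.2 hc1) (sq_nonneg ‖w‖),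
    mul_nonneg (mul_nonneg hc0 (sub_nonneg.2 hc1)) (sq_nonneg ‖w‖),
    mul_nonneg (mul_nonneg hc0 (sub_nonneg.2 hc1)) (sq_nonneg ‖w - u‖)]

end OuteErr

open OuteErr in
/-- weighted error of the approximate Gaussian profile -/
theorem oute_err (κ : ℝ) (χ : Cfg r → ℝ) (V : Cfg r → F →L[ℂ] F) (w₀ g : Cfg ds → F)
    (Ωm : Cfg r → Matrix (Fin dm) (Fin dm) ℝ)
    (hV : ∀ η v, ‖V η v‖ = ‖v‖) (hw : MemLp w₀ 2 (volume : Measure (Cfg ds))) (hw1 : ∫ s, ‖w₀ s‖ ^ 2 = 1)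
    (hχ : Continuous χ) (hχs : HasCompactSupport χ) (hg : Continuous g) (hgs : HasCompactSupport g)
    (C ε₁ ε₂ L : ℝ) (hC0 : 0 ≤ C) (h2 : 0 ≤ ε₂)
    (hC : ∀ η ∈ tsupport χ, ∫⁻ X : Cfg dm, ENNReal.ofReal ((1 + ‖X‖ ^ 2) ^ (dm + 1) *
      (Nf κ (Ωm η) * Real.exp (-(1 / 2) * qX (Ωm η) X)) ^ 2) ≤ ENNReal.ofReal C)
    (hL : ∀ η ∈ tsupport χ, ∫⁻ X in {X : Cfg dm | L ≤ ‖X‖}, ENNReal.ofReal ((1 + ‖X‖ ^ 2) ^ (dm + 1) *
      (Nf κ (Ωm η) * Real.exp (-(1 / 2) * qX (Ωm η) X)) ^ 2) ≤ ENNReal.ofReal ε₂)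
    (ct : Cfg dm → ℝ) (hct : ∀ X, 0 ≤ ct X ∧ ct X ≤ 1) (hct1 : ∀ X, ‖X‖ ≤ L → ct X = 1)
    (he : ∫ s, ‖w₀ s - g s‖ ^ 2 ≤ ε₁) :
    eLpNorm (fun q : Cfg r × Cfg ds × Cfg dm =>
      ((χ q.1 * gss q.1 * (Nf κ (Ωm q.1) * Real.exp (-(1 / 2) * qX (Ωm q.1) q.2.2)) * ct q.2.2 : ℝ) : ℂ) •
        V q.1 (g q.2.1) - bG κ Ωm (fun η s => ((χ η * gss η : ℝ) : ℂ) • V η (w₀ s)) q) 2 (wM r ds dm) ^ 2 ≤
      ENNReal.ofReal (2 * (∫ η, (χ η * gss η) ^ 2) * (C * ε₁ + ε₂)) := by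
  have hgm : MemLp g 2 (volume : Measure (Cfg ds)) := hg.memLp_of_hasCompactSupport hgs
  have hint1 : Integrable (fun s => ‖w₀ s - g s‖ ^ 2) (volume : Measure (Cfg ds)) :=
    (hw.sub hgm).integrable_norm_pow (p := 2) (by norm_num)
  have hint0 : Integrable (fun s => ‖w₀ s‖ ^ 2) (volume : Measure (Cfg ds)) :=
    hw.integrable_norm_pow (p := 2) (by norm_num)
  have hint2 : Integrable (fun η : Cfg r => (χ η * gss η) ^ 2) := by
    have hc : Continuous fun η : Cfg r => (χ η * gss η) ^ 2 := (hχ.mul gss_cont).pow 2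
    refine hc.integrable_of_hasCompactSupport ?_
    have h1 : (fun η : Cfg r => (χ η * gss η) ^ 2) = fun η => χ η * (gss η * (χ η * gss η)) := by
      funext η
      ring
    rw [h1]
    exact hχs.mul_right
  -- abbreviations
  set G : Cfg r → Cfg dm → ℝ := fun η X => Nf κ (Ωm η) * Real.exp (-(1 / 2) * qX (Ωm η) X) with hG
  set h : Cfg r → Cfg dm → ℝ≥0∞ := fun η X => ENNReal.ofReal ((1 + ‖X‖ ^ 2) ^ (dm + 1) * (G η X) ^ 2) with hh
  set TL : Set (Cfg dm) := {X : Cfg dm | L ≤ ‖X‖} with hTL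
  set A : Cfg ds → ℝ≥0∞ := fun s => ENNReal.ofReal (2 * ‖w₀ s - g s‖ ^ 2) with hA
  set B : Cfg ds → ℝ≥0∞ := fun s => ENNReal.ofReal (2 * ‖w₀ s‖ ^ 2) with hB
  set D : Cfg r → ℝ≥0∞ := fun η => ENNReal.ofReal ((χ η * gss η) ^ 2) with hD
  have hTm : MeasurableSet TL := (isClosed_le continuous_const continuous_norm).measurableSet
  have hGc : ∀ η, Continuous (G η) := fun η =>
    continuous_const.mul (Real.continuous_exp.comp (continuous_const.mul (qX_cont (Ωm η))))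
  have hhm : ∀ η, Measurable (h η) := fun η => by
    have : Continuous fun X : Cfg dm => (1 + ‖X‖ ^ 2) ^ (dm + 1) * (G η X) ^ 2 := by
      have := hGc η
      fun_prop
    exact this.measurable.ennreal_ofReal
  have hAint : ∫⁻ s, A s ≤ ENNReal.ofReal (2 * ε₁) := by
    rw [hA, ← ofReal_integral_eq_lintegral_ofReal (hint1.const_mul 2) (Eventually.of_forall fun s => by positivity),
      integral_const_mul]
    exact ENNReal.ofReal_le_ofReal (by linarith)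
  have hBint : ∫⁻ s, B s ≤ ENNReal.ofReal 2 := by
    rw [hB, ← ofReal_integral_eq_lintegral_ofReal (hint0.const_mul 2) (Eventually.of_forall fun s => by positivity),
      integral_const_mul, hw1, mul_one]
  have hDint : ∫⁻ η, D η = ENNReal.ofReal (∫ η, (χ η * gss η) ^ 2) := by
    rw [hD, ← ofReal_integral_eq_lintegral_ofReal hint2 (Eventually.of_forall fun s => sq_nonneg _)]
  -- pointwise
  have hpt : ∀ q : Cfg r × Cfg ds × Cfg dm, ENNReal.ofReal ((1 + ‖q.2.2‖ ^ 2) ^ (dm + 1)) *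
      ‖((χ q.1 * gss q.1 * (Nf κ (Ωm q.1) * Real.exp (-(1 / 2) * qX (Ωm q.1) q.2.2)) * ct q.2.2 : ℝ) : ℂ) •
        V q.1 (g q.2.1) - bG κ Ωm (fun η s => ((χ η * gss η : ℝ) : ℂ) • V η (w₀ s)) q‖ₑ ^ 2 ≤
      D q.1 * (h q.1 q.2.2 * A q.2.1 + TL.indicator (h q.1) q.2.2 * B q.2.1) := by
    rintro ⟨η, s, X⟩
    have e1 : ((χ η * gss η * (Nf κ (Ωm η) * Real.exp (-(1 / 2) * qX (Ωm η) X)) * ct X : ℝ) : ℂ) •
        V η (g s) - bG κ Ωm (fun η s => ((χ η * gss η : ℝ) : ℂ) • V η (w₀ s)) (η, s, X) =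
        ((χ η * gss η * G η X : ℝ) : ℂ) • V η ((ct X : ℂ) • g s - w₀ s) := by
      simp only [bG, hG, map_sub, map_smul, smul_sub, smul_smul]
      push_cast
      congr 2
      ring
    have e2 : ‖((χ η * gss η * G η X : ℝ) : ℂ) • V η ((ct X : ℂ) • g s - w₀ s)‖ ^ 2 =
        (χ η * gss η) ^ 2 * (G η X ^ 2 * ‖(ct X : ℂ) • g s - w₀ s‖ ^ 2) := by
      rw [norm_smul, hV, Complex.norm_real, Real.norm_eq_abs, mul_pow, sq_abs]
      ring
    have e3 : (1 - ct X) * (2 * ‖w₀ s‖ ^ 2) ≤ TL.indicator (fun _ => (1 : ℝ)) X * (2 * ‖w₀ s‖ ^ 2) := by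
      refine mul_le_mul_of_nonneg_right ?_ (by positivity)
      by_cases hX : X ∈ TL
      · rw [Set.indicator_of_mem hX]
        linarith [(hct X).1]
      · rw [Set.indicator_of_notMem hX]
        have : ‖X‖ ≤ L := le_of_lt (not_le.1 hX)
        rw [hct1 X this]
        norm_num
    have e4 : ‖(ct X : ℂ) • g s - w₀ s‖ ^ 2 ≤
        2 * ‖w₀ s - g s‖ ^ 2 + TL.indicator (fun _ => (1 : ℝ)) X * (2 * ‖w₀ s‖ ^ 2) :=
      (ptw (ct X) (hct X).1 (hct X).2 (g s) (w₀ s)).trans (by linarith)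
    have hi0 : 0 ≤ TL.indicator (fun _ => (1 : ℝ)) X := Set.indicator_nonneg (fun _ _ => zero_le_one) X
    show ENNReal.ofReal ((1 + ‖X‖ ^ 2) ^ (dm + 1)) * ‖_‖ₑ ^ 2 ≤ _
    rw [e1, ← ofReal_norm, ← ENNReal.ofReal_pow (norm_nonneg _), ← ENNReal.ofReal_mul (by positivity), e2]
    have e5 : TL.indicator (h η) X = ENNReal.ofReal (TL.indicator (fun _ => (1 : ℝ)) X * ((1 + ‖X‖ ^ 2) ^ (dm + 1) * (G η X) ^ 2)) := by
      by_cases hX : X ∈ TL
      · rw [Set.indicator_of_mem hX, Set.indicator_of_mem hX, one_mul]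
      · rw [Set.indicator_of_notMem hX, Set.indicator_of_notMem hX, zero_mul, ENNReal.ofReal_zero]
    show _ ≤ D η * (h η X * A s + TL.indicator (h η) X * B s)
    rw [e5, hD, hh, hA, hB]
    simp only
    rw [← ENNReal.ofReal_mul (by positivity), ← ENNReal.ofReal_mul (by positivity),
      ← ENNReal.ofReal_add (by positivity) (by positivity), ← ENNReal.ofReal_mul (by positivity)]
    refine ENNReal.ofReal_le_ofReal ?_
    have e6 := mul_le_mul_of_nonneg_left e4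
      (by positivity : 0 ≤ (χ η * gss η) ^ 2 * ((1 + ‖X‖ ^ 2) ^ (dm + 1) * G η X ^ 2))
    nlinarith [e6]
  have hinner : ∀ η s, ∫⁻ X, D η * (h η X * A s + TL.indicator (h η) X * B s) ≤
      D η * (ENNReal.ofReal C * A s + ENNReal.ofReal ε₂ * B s) := by
    intro η s
    rw [lintegral_const_mul' _ _ (by rw [hD]; exact ENNReal.ofReal_ne_top)]
    by_cases hη : η ∈ tsupport χ
    · refine mul_le_mul_right ?_ _
      rw [lintegral_add_left ((hhm η).mul_const _), lintegral_mul_const' _ _ (by rw [hA]; exact ENNReal.ofReal_ne_top),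
        lintegral_mul_const' _ _ (by rw [hB]; exact ENNReal.ofReal_ne_top), lintegral_indicator hTm]
      exact add_le_add (mul_le_mul_left (hC η hη) _) (mul_le_mul_left (hL η hη) _)
    · have : D η = 0 := by
        rw [hD]
        simp only
        rw [image_eq_zero_of_notMem_tsupport hη, zero_mul]
        simp
      rw [this, zero_mul, zero_mul]
  have hAm : AEMeasurable A (volume : Measure (Cfg ds)) :=
    (hint1.const_mul 2).aestronglyMeasurable.aemeasurable.ennreal_ofReal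
  have hmid : ∀ η, ∫⁻ p : Cfg ds × Cfg dm, D η * (h η p.2 * A p.1 + TL.indicator (h η) p.2 * B p.1) ≤
      D η * ENNReal.ofReal (2 * (C * ε₁ + ε₂)) := by
    intro η
    have hDt : D η ≠ ⊤ := by
      rw [hD]
      exact ENNReal.ofReal_ne_top
    refine (lintegral_prod_le _).trans ((lintegral_mono fun s => hinner η s).trans ?_)
    rw [lintegral_const_mul' _ _ hDt, lintegral_add_left' (hAm.const_mul _), lintegral_const_mul' _ _ ENNReal.ofReal_ne_top,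
      lintegral_const_mul' _ _ ENNReal.ofReal_ne_top]
    refine mul_le_mul_right ?_ _
    have hε₁ : 0 ≤ ε₁ := le_trans (integral_nonneg fun s => by positivity) he
    calc (ENNReal.ofReal C * ∫⁻ s, A s) + (ENNReal.ofReal ε₂ * ∫⁻ s, B s) ≤
        ENNReal.ofReal C * ENNReal.ofReal (2 * ε₁) + ENNReal.ofReal ε₂ * ENNReal.ofReal 2 :=
          add_le_add (mul_le_mul_right hAint _) (mul_le_mul_right hBint _)
      _ = ENNReal.ofReal (2 * (C * ε₁ + ε₂)) := by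
          rw [← ENNReal.ofReal_mul hC0, ← ENNReal.ofReal_mul h2, ← ENNReal.ofReal_add (by positivity) (by positivity)]
          congr 1
          ring
  rw [eLpNorm_two_sq]
  unfold wM
  have hwm : Measurable fun q : Cfg r × Cfg ds × Cfg dm => ENNReal.ofReal ((1 + ‖q.2.2‖ ^ 2) ^ (dm + 1)) := by
    have : Continuous fun q : Cfg r × Cfg ds × Cfg dm => (1 + ‖q.2.2‖ ^ 2) ^ (dm + 1) := by fun_prop
    exact this.measurable.ennreal_ofReal
  refine (lintegral_withDensity_le_lintegral_mul _ hwm _).trans ?_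
  refine (lintegral_mono fun q => hpt q).trans ?_
  refine (lintegral_prod_le _).trans ((lintegral_mono fun η => hmid η).trans ?_)
  rw [lintegral_mul_const' _ _ ENNReal.ofReal_ne_top, hDint,
    ← ENNReal.ofReal_mul (integral_nonneg fun η => sq_nonneg _)]
  exact ENNReal.ofReal_le_ofReal (le_of_eq (by ring))

end Vale.Agent.P353.AN.LW
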