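import Vale.Agent.P353.AN.LOW.Defs
import Vale.Agent.P353.AN.G.Stmt

/-! # P353, all `N`, block LOW: lower bound for Haar averages of the trial functions — statements (helper858)

A prover delivers the theorem named in the task in `Vale/Agent/P353/AN/LOW/<File>.lean`, importing this file and landed files, with other
statements only as hypotheses. `ActStmt M` is proved (`AN/G/Act.lean`, `act_stmt`). Powers of `R` are real powers. The geometric input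
`GeoStmt`, `GoodStmt`, `GoodAStmt`, `SUniStmt` is in `AN/LOW/StmtH.lean` (helper847). -/

open MeasureTheory Filter Topology
open scoped ContDiff

namespace Vale.Agent.P353.AN.LW

open Vale.Agent.P353.Z Vale.Agent.P353.Z.U Vale.Agent.P353.Z.AN Vale.Agent.P353.AN.G

variable {N d dh dm r ds : ℕ} {F : Type*} [NormedAddCommGroup F] [InnerProductSpace ℂ F]

/-- **LOW1 POS** positivity of correlations. PROOF. Otherwise `R_n → ∞`, `U_n`, `x_n` violating it, `q_n = (sc x_n) ∈ K`, `q'_n = (sc (act U_n x_n)) ∈ K`. `GeoStmt` with the compact set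
`fst '' K` and `L' = max(L, bound of snd on K, 1)`: `U_n = UN_nV_n`, `Nrm UN_n`, `V_n → 1`, `‖act V_n x_n - x_n‖ ≤ C/√R_n`. Subsequence (`SU(N)`, `K` compact): `UN_n → U₀`, so `U_n → U₀`,
`q_n → q`, `q'_n → q'`; `Nrm U₀` (closed condition). `act V_nx_n` has scaled `(z,s)`-coordinates `→ q`, `UN_n` is block diagonal: `act UN_n (ezs (..)) = ezs (..)`, in the limit
`act U₀ (ezs q.1 q.2) = ezs q'.1 q'.2` (for the `z`-part divide by `R_n`). So `S(U₀)Om(q) = Om(q')` (`Dir.cov`) and `Re⟨Om(q'_n), S(U_n)Om(q_n)⟩ → ‖Om(q')‖² = 1` (joint continuity of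
`S`: `AvgG.S_cont`). -/
def PosStmt (M : BFSS.Model N d F) (S : Setup d F) (φ : Spl dh dm d) (ψ : Spz r ds dh) : Prop :=
  FiniteDimensional ℂ F → Rep M S → S.IsSub φ → IsZ S φ ψ → Less S φ ψ → ActStmt M → GeoStmt M →
  ∀ (K : Set (Cfg r × Cfg ds)) (Om : Cfg r × Cfg ds → F), Dir M φ ψ K Om → (∀ q ∈ K, q.1 ∈ Reg S φ ψ) →
  ∀ L : ℝ, ∃ R₀ : ℝ, 1 ≤ R₀ ∧ ∀ R : ℝ, R₀ ≤ R → ∀ (U : BFSS.SU N) (x : Cfg d),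
    ((sc φ ψ R x).1, (sc φ ψ R x).2.1) ∈ K → ((sc φ ψ R (M.act U x)).1, (sc φ ψ R (M.act U x)).2.1) ∈ K →
    ‖(sc φ ψ R x).2.2‖ ≤ L → ‖(sc φ ψ R (M.act U x)).2.2‖ ≤ L →
    1 / 2 ≤ (inner ℂ (Om ((sc φ ψ R (M.act U x)).1, (sc φ ψ R (M.act U x)).2.1))
      (M.S U (Om ((sc φ ψ R x).1, (sc φ ψ R x).2.1)))).re

/-- **LOW2 SCL** scaled coordinates. PROOF: permutation of the coordinates (measure preserving linear equivalence `Cfg d ≃ Cfg r × Cfg ds × Cfg dm`, cf. `AN/A/Coo.lean`) and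
scaling of the factors (`x ↦ c • x` on `Cfg r` and `Cfg dm`). -/
def SclStmt : Prop := ∀ (d dh dm r ds : ℕ) (φ : Spl dh dm d) (ψ : Spz r ds dh) (R : ℝ), 0 < R →
  (Continuous (sc φ ψ R : Cfg d → _)) ∧
  (∀ g : Cfg r × Cfg ds × Cfg dm → ENNReal, Measurable g →
    ∫⁻ x : Cfg d, g (sc φ ψ R x) = ENNReal.ofReal (R ^ (9 * (r : ℝ) - 9 * (dm : ℝ) / 2)) * ∫⁻ q, g q ∂(v3 r ds dm)) ∧
  ∃ e : Cfg d ≃ₜ Cfg r × Cfg ds × Cfg dm, ∀ x, e x = sc φ ψ R x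

/-- **LOW3 VOL** volume of the orbit of the box. PROOF. `GB` is closed: projection of a closed set along the compact `SU(N)`. Let `K = {‖η - z₀‖ ≤ r₁}`, `L = r₁` in `GoodAStmt` (`ρ`, `C`), `ρ' ≤ ρ`
as in `GoodStmt`, `δ = R^{-3/2}`, `E_R` the good set, `hm(E_R) ≥ cR^{-3dm/2}`. If `x ∈ GB`, `act U₀ x ∈ Box_R`, then `act (VU₀) x ∈ Box²_R` for `V ∈ E_R`, `Box² = bx z₀ r₂`, `r₂ = r₁ + 2C + C`
(for the `z`-part divide by `R ≥ 1`). So `hm{U : act U x ∈ Box²_R} ≥ hm(E_RU₀) = hm(E_R)` (right invariance) on `GB`; integrate: `|GB|·cR^{-3dm/2} ≤ ∫_x hm{U : act U x ∈ Box²_R} = ∫_U|{x : act U x ∈ Box²_R}|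
= |Box²_R| = R^{9r-9dm/2}·|bx z₀ r₂|` (Tonelli; `act U` preserves Lebesgue measure; SCL). -/
def VolStmt (M : BFSS.Model N d F) (S : Setup d F) (φ : Spl dh dm d) (ψ : Spz r ds dh) : Prop :=
  Rep M S → S.IsSub φ → IsZ S φ ψ → ActStmt M → GoodStmt M → GoodAStmt M → SclStmt →
  ∀ (z₀ : Cfg r) (r₁ : ℝ), 0 < r₁ → ∃ C : ℝ, 0 < C ∧ ∀ R : ℝ, 1 ≤ R →
    IsClosed (GB M φ ψ z₀ r₁ R) ∧ volume (GB M φ ψ z₀ r₁ R) ≤ ENNReal.ofReal (C * R ^ (9 * (r : ℝ) - 3 * (dm : ℝ)))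

/-- **LOW4 AVB** averages with a direction field. PROOF. `Z = φ₁Om`. Pointwise as `AvgBStmt` (2) (`AN/G/AvgB.lean`): if `φ₁(act U₀⁻¹x) ≠ 0` then `‖avg Z(x)‖ ≥
Re⟨S(U₀)Om(act U₀⁻¹x), avg Z(x)⟩ = ∫φ₁(act U⁻¹x)Re⟨Om(act U₀⁻¹x), S(U₀⁻¹U)Om(act U⁻¹x)⟩dU ≥ ½avs φ₁(x)`. Then `‖avg Z‖² ≥ ¼∫_G(avs φ₁)² ≥ ¼(∫_G avs φ₁)²/|G|` (Cauchy–Schwarz) and
`∫_G avs φ₁ = ∫_G φ₁` (`G` invariant, Fubini, `act U` preserves Lebesgue measure). -/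
def AvbStmt (M : BFSS.Model N d F) : Prop := FiniteDimensional ℂ F → ActStmt M →
  ∀ (φ₁ : Cfg d → ℝ) (Om : Cfg d → F), Continuous φ₁ → HasCompactSupport φ₁ → (∀ x, 0 ≤ φ₁ x) →
    Continuous (fun x => ((φ₁ x : ℝ) : ℂ) • Om x) → (∀ x, φ₁ x ≠ 0 → ‖Om x‖ = 1) →
    (∀ U x, φ₁ x ≠ 0 → φ₁ (M.act U x) ≠ 0 → 1 / 2 ≤ (inner ℂ (Om (M.act U x)) (M.S U (Om x))).re) →
    ∀ G : Set (Cfg d), MeasurableSet G → (∀ U x, x ∈ G ↔ M.act U x ∈ G) → volume G ≠ ⊤ →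
      (∫ x in G, φ₁ x) ^ 2 ≤ 4 * (volume G).toReal * nsq (avg M (fun x => ((φ₁ x : ℝ) : ℂ) • Om x))

/-- **LOW5 CORE** main estimate; `c` does not depend on `β`, `Om`, `K`. PROOF. `Z_R = Zb φ ψ b R = φ_R·Om_R`, `φ_R(x) = R^{3dm-9r/2}β(sc R x)`, `Om_R = Om ∘ sc`. LOW1 (`L` = bound of the support of `β`) and LOW4 with
`G = GB` (invariant, closed, LOW3; contains the box): `nsq(avg Z_R) ≥ (∫_Gφ_R)²/(4|G|) ≥ (∫_{Box_R}φ_R)²/(4CR^{9r-3dm})`, and by LOW2 `∫_{Box_R}φ_R = R^{3dm-9r/2}·R^{9r-9dm/2}·∫_{bx}β`; all powers of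
`R` cancel, `c = 1/(4C)`. -/
def CoreStmt (M : BFSS.Model N d F) (S : Setup d F) (φ : Spl dh dm d) (ψ : Spz r ds dh) : Prop :=
  FiniteDimensional ℂ F → Rep M S → S.IsSub φ → IsZ S φ ψ → Less S φ ψ → ActStmt M → GeoStmt M → GoodStmt M → GoodAStmt M →
  PosStmt M S φ ψ → VolStmt M S φ ψ → SclStmt → AvbStmt M →
  ∀ (z₀ : Cfg r) (r₁ : ℝ), 0 < r₁ → ∃ c : ℝ, 0 < c ∧
  ∀ (K : Set (Cfg r × Cfg ds)) (Om : Cfg r × Cfg ds → F), Dir M φ ψ K Om → (∀ q ∈ K, q.1 ∈ Reg S φ ψ) →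
  ∀ β : Cfg r × Cfg ds × Cfg dm → ℝ, Continuous β → HasCompactSupport β → (∀ q, 0 ≤ β q) →
    (∀ q, β q ≠ 0 → (q.1, q.2.1) ∈ K) → Continuous (fun q : Cfg r × Cfg ds × Cfg dm => ((β q : ℝ) : ℂ) • Om (q.1, q.2.1)) →
    ∃ R₀ : ℝ, 1 ≤ R₀ ∧ ∀ R : ℝ, R₀ ≤ R →
      c * (∫ q in bx ds dm z₀ r₁, β q ∂(v3 r ds dm)) ^ 2 ≤
        nsq (avg M (Zb φ ψ (fun q => ((β q : ℝ) : ℂ) • Om (q.1, q.2.1)) R))

/-- **LOW6 MOL** covariant regularisation of the ground state. PROOF. For `U` (`Nrm`), `η`, `η'` as in `cov`: `O s = hs(zy(act U (ezs 0 s)))` is a linear isometry of `Cfg ds` (block diagonal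
orthogonal matrix), and `T = V(η')⁻¹S(U)V(η)` (linear isometry) satisfies `T w₀(s) = w₀(Os)` a.e. Radial mollifier `ρ_δ` (`Z/U/MollRad.lean`, `Z/U/Moll.lean`): `T(ρ_δ*w₀)(s) = (ρ_δ*w₀)(Os)` for
ALL `s`; `w₁(s) = c(‖s‖²/L²)(ρ_δ*w₀)(s)` the same, continuous, compactly supported, close to `w₀` in `L²`. `β₁(s) = max(‖w₁(s)‖-κ,0)`, `om(s) = ‖w₁(s)‖⁻¹w₁(s)` (on `tsupport β₁ ⊆ {‖w₁‖ ≥ κ}`),
`‖w₁ - β₁om‖ ≤ κ`, supported in a fixed ball: `κ` small. Last part: `act U (ezs η s) = ezs η' s'` and `Nrm U` give `act U (ezs η 0) = ezs η' 0` and `s' = O s`. -/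
def MolStmt (M : BFSS.Model N d F) (S : Setup d F) (φ : Spl dh dm d) (ψ : Spz r ds dh) : Prop :=
  FiniteDimensional ℂ F → Rep M S → ActStmt M →
  ∀ (Lc : Finset (Fin r → ℝ)) (V : Cfg r → F →L[ℂ] F) (w₀ : Cfg ds → F) (Ωm : Cfg r → Matrix (Fin dm) (Fin dm) ℝ),
  Gsd M S φ ψ Lc V w₀ Ωm → ∀ ε : ℝ, 0 < ε → ∃ (β₁ : Cfg ds → ℝ) (om : Cfg ds → F), Continuous β₁ ∧ HasCompactSupport β₁ ∧
    (∀ s, 0 ≤ β₁ s) ∧ ContinuousOn om (tsupport β₁) ∧ (∀ s ∈ tsupport β₁, ‖om s‖ = 1) ∧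
    Continuous (fun s => ((β₁ s : ℝ) : ℂ) • om s) ∧ (∫ s, ‖w₀ s - ((β₁ s : ℝ) : ℂ) • om s‖ ^ 2) ≤ ε ∧
    ∀ U, Nrm M φ ψ U → ∀ η η', η ∉ Coll Lc → η' ∉ Coll Lc → ∀ s ∈ tsupport β₁, ∀ s' ∈ tsupport β₁,
      M.act U (ezs φ ψ η s) = ezs φ ψ η' s' → M.S U (V η (om s)) = V η' (om s')

/-- **LOW7 NRM** the Gaussian normalisation depends continuously on a positive definite matrix; uniform weighted moments. PROOF: as `MomStmt` (GL9, same proof; it uses only positivity and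
continuity of `Ωm` on a compact set): on the compact set the smallest eigenvalue of `Ωm(η)` is bounded below and `‖Ωm‖` above, Gaussian domination, `continuousOn_of_dominated`. -/
def NrmStmt : Prop := ∀ (r dm : ℕ) (κ : ℝ) (K : Set (Cfg r)) (Ωm : Cfg r → Matrix (Fin dm) (Fin dm) ℝ), 0 < κ → IsCompact K →
  (∀ η ∈ K, (Ωm η).transpose = Ωm η ∧ ∀ u : Fin dm → ℝ, u ≠ 0 → 0 < u ⬝ᵥ ((Ωm η).mulVec u)) → ContinuousOn Ωm K →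
  ContinuousOn (fun η => Nf κ (Ωm η)) K ∧ (∀ η ∈ K, 0 < Nf κ (Ωm η)) ∧
  ∀ ε : ℝ, 0 < ε → ∃ C L : ℝ, 0 < C ∧ 0 < L ∧ ∀ η ∈ K,
    ∫⁻ X : Cfg dm, ENNReal.ofReal ((1 + ‖X‖ ^ 2) ^ (dm + 1) * (Nf κ (Ωm η) * Real.exp (-(1 / 2) * qX (Ωm η) X)) ^ 2) ≤
      ENNReal.ofReal C ∧
    ∫⁻ X in {X : Cfg dm | L ≤ ‖X‖},
      ENNReal.ofReal ((1 + ‖X‖ ^ 2) ^ (dm + 1) * (Nf κ (Ωm η) * Real.exp (-(1 / 2) * qX (Ωm η) X)) ^ 2) ≤ ENNReal.ofReal ε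

/-- **LOW8 CHI** cutoffs in `η`. PROOF. `AF.CutStmt` (proved, `AN/F/Cut.lean`): `η_n ∈ [0,1]` smooth, `tsupport` disjoint from `Coll Lc`, `→ 1` off `Coll Lc` (a null set); `χ = η_n·c(‖η‖²/k²)`; dominated
convergence for `∫(1-χ)²gss²`; on the compact ball `{‖η - z₀‖ ≤ r₁}` (disjoint from `Coll Lc`) multiply out: replace `χ` by `1 - (1-χ)(1-χ₀)` with a bump `χ₀ = 1` on that ball, supported off `Coll Lc`. -/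
def ChiStmt (r : ℕ) : Prop := AF.CutStmt r → ∀ Lc : Finset (Fin r → ℝ), (∀ l ∈ Lc, l ≠ 0) → IsClosed (Coll Lc) →
  ∀ (z₀ : Cfg r) (r₁ : ℝ), 0 < r₁ → (∀ η, ‖η - z₀‖ ≤ r₁ → η ∉ Coll Lc) → ∀ ε : ℝ, 0 < ε → ∃ χ : Cfg r → ℝ, ContDiff ℝ ∞ χ ∧
    HasCompactSupport χ ∧ Disjoint (tsupport χ) (Coll Lc) ∧ (∀ η, 0 ≤ χ η ∧ χ η ≤ 1) ∧ (∀ η, ‖η - z₀‖ ≤ r₁ → χ η = 1) ∧
    (∫ η : Cfg r, (1 - χ η) ^ 2 * gss η ^ 2) ≤ ε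

/-- **LOW9 OUT** output. `χ gss V w₀` is the truncated ground state, `b` a compactly supported continuous approximation of its Gaussian profile in the weighted norm (`c₀` independent of `ε`,
`χ`, `ε'`). PROOF. `r₁` with `I₀ = ∫_{‖s‖ ≤ r₁}‖w₀‖ > 0`, `r₀ ≤ r₁` with `{‖η - z₀‖ ≤ r₀}` off `Coll Lc` (closed). LOW5 with `(z₀, r₁)` gives `c`; `A₀ = ∫_{‖η-z₀‖≤r₀,‖X‖≤r₁} gss(η)Nf(Ωm η)exp(-½qX) > 0`,
`c₀ = c(A₀I₀/2)²`. `χ` from LOW8 with `(z₀, r₀)`. `β = χ(η)gss(η)Nf(Ωm η)exp(-½qX(Ωm η)X)·cut(‖X‖²/L²)·β₁(s)` (`L ≥ r₁`, `cut = 1` on `[0,1]`), `Om(η,s) = V(η)om(s)`, `K = tsupport χ × tsupport β₁`,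
`b = β Om` (LOW6 and LOW7 on `tsupport χ`; `Dir.cov` from the last part of LOW6). Weighted error: `≤ C_χ(∫‖w₀ - β₁om‖² + tail_L)`. `∫_{bx}β ≥ A₀∫_{‖s‖≤r₁}β₁ ≥ A₀(I₀ - √(vol·∫‖w₀-β₁om‖²)) ≥ A₀I₀/2`. -/
def OutStmt (M : BFSS.Model N d F) (S : Setup d F) (φ : Spl dh dm d) (ψ : Spz r ds dh) : Prop :=
  FiniteDimensional ℂ F →
  (∀ (z₀ : Cfg r) (r₁ : ℝ), 0 < r₁ → ∃ c : ℝ, 0 < c ∧
    ∀ (K : Set (Cfg r × Cfg ds)) (Om : Cfg r × Cfg ds → F), Dir M φ ψ K Om → (∀ q ∈ K, q.1 ∈ Reg S φ ψ) →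
    ∀ β : Cfg r × Cfg ds × Cfg dm → ℝ, Continuous β → HasCompactSupport β → (∀ q, 0 ≤ β q) →
      (∀ q, β q ≠ 0 → (q.1, q.2.1) ∈ K) → Continuous (fun q : Cfg r × Cfg ds × Cfg dm => ((β q : ℝ) : ℂ) • Om (q.1, q.2.1)) →
      ∃ R₀ : ℝ, 1 ≤ R₀ ∧ ∀ R : ℝ, R₀ ≤ R →
        c * (∫ q in bx ds dm z₀ r₁, β q ∂(v3 r ds dm)) ^ 2 ≤
          nsq (avg M (Zb φ ψ (fun q => ((β q : ℝ) : ℂ) • Om (q.1, q.2.1)) R))) →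
  ∀ (Lc : Finset (Fin r → ℝ)) (V : Cfg r → F →L[ℂ] F) (w₀ : Cfg ds → F) (Ωm : Cfg r → Matrix (Fin dm) (Fin dm) ℝ),
  Gsd M S φ ψ Lc V w₀ Ωm →
  (∀ ε : ℝ, 0 < ε → ∃ (β₁ : Cfg ds → ℝ) (om : Cfg ds → F), Continuous β₁ ∧ HasCompactSupport β₁ ∧
    (∀ s, 0 ≤ β₁ s) ∧ ContinuousOn om (tsupport β₁) ∧ (∀ s ∈ tsupport β₁, ‖om s‖ = 1) ∧
    Continuous (fun s => ((β₁ s : ℝ) : ℂ) • om s) ∧ (∫ s, ‖w₀ s - ((β₁ s : ℝ) : ℂ) • om s‖ ^ 2) ≤ ε ∧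
    ∀ U, Nrm M φ ψ U → ∀ η η', η ∉ Coll Lc → η' ∉ Coll Lc → ∀ s ∈ tsupport β₁, ∀ s' ∈ tsupport β₁,
      M.act U (ezs φ ψ η s) = ezs φ ψ η' s' → M.S U (V η (om s)) = V η' (om s')) →
  NrmStmt → ChiStmt r → AF.CutStmt r → ∀ z₀ : Cfg r, z₀ ∉ Coll Lc →
  ∃ c₀ : ℝ, 0 < c₀ ∧ ∀ ε : ℝ, 0 < ε → ∃ χ : Cfg r → ℝ, ContDiff ℝ ∞ χ ∧ HasCompactSupport χ ∧ Disjoint (tsupport χ) (Coll Lc) ∧
    (∀ η, 0 ≤ χ η ∧ χ η ≤ 1) ∧ (∫ η : Cfg r, (1 - χ η) ^ 2 * gss η ^ 2) ≤ ε ∧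
    ∀ ε' : ℝ, 0 < ε' → ∃ b : Cfg r × Cfg ds × Cfg dm → F, Continuous b ∧ HasCompactSupport b ∧
      (∀ q, b q ≠ 0 → q.1 ∈ tsupport χ) ∧
      eLpNorm (fun q => b q - bG S.κ Ωm (fun η s => ((χ η * gss η : ℝ) : ℂ) • V η (w₀ s)) q) 2 (wM r ds dm) ≤ ENNReal.ofReal ε' ∧
      ∃ R₀ : ℝ, 1 ≤ R₀ ∧ ∀ R : ℝ, R₀ ≤ R → c₀ ≤ nsq (avg M (Zb φ ψ b R))

end Vale.Agent.P353.AN.LW
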