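import Vale.Agent.P353.AN.G.Defs
import Vale.Agent.P353.AN.GL.Stmt

/-! # P353, all `N`, block LOW, part H: Haar measure and geometry of `SU(N)` near the normaliser of `z` (helper847)

`x = R·E(η) + x^s + x^m`, `|x^s| ≤ L`, `|x^m| ≤ L R^{-1/2}` (`InB`). Result `GeoStmt`: if `x` and `U·x` are both of this form then
`U = U_N V` with `U_N` in the normaliser of the splitting and `|V - 1| ≤ C R^{-3/2}`; `GoodStmt`: the set of `U = exp(iξ)` with `|ξ| ≤ ρ`,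
`|ξ_m| ≤ δ` has Haar measure `≥ c δ^{dm}`. -/

open MeasureTheory Filter Topology
open scoped ContDiff

namespace Vale.Agent.P353.AN.LW

open Vale.Agent.P353.Z Vale.Agent.P353.Z.U Vale.Agent.P353.Z.AN Vale.Agent.P353.AN.G

variable {N d dh dm r ds : ℕ} {F : Type*} [NormedAddCommGroup F] [InnerProductSpace ℂ F]

/-- Frobenius norm -/
noncomputable def fn (X : Matrix (Fin N) (Fin N) ℂ) : ℝ := Real.sqrt (∑ j, ∑ k, ‖X j k‖ ^ 2)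

/-- `exp(i∑ξ_AT_A)` -/
noncomputable def eT (M : BFSS.Model N d F) (ξ : EuclideanSpace ℝ (Fin d)) : Matrix (Fin N) (Fin N) ℂ :=
  NormedSpace.exp (Complex.I • ∑ A, (ξ A : ℂ) • M.T A)

/-- block of a colour index: `0` = `z`, `1` = `s`, `2` = `m` -/
def bl (φ : Spl dh dm d) (ψ : Spz r ds dh) (A : Fin d) : Fin 3 :=
  Sum.elim (fun B => Sum.elim (fun _ => 0) (fun _ => 1) (ψ.symm B)) (fun _ => 2) (φ.symm A)

/-- `U` normalises the splitting `z ⊕ s ⊕ m` -/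
def Nrm (M : BFSS.Model N d F) (φ : Spl dh dm d) (ψ : Spz r ds dh) (U : BFSS.SU N) : Prop :=
  ∀ A B, bl φ ψ A ≠ bl φ ψ B → BFSS.adCoeff M.T U A B = 0

/-- the configuration with `z`-coordinates `η` -/
noncomputable def Ez (φ : Spl dh dm d) (ψ : Spz r ds dh) (η : Cfg r) : Cfg d := emb φ (cmb ψ η 0) 0

/-- `η` is regular: no direction of `m` commutes with it -/
def RegP (S : Setup d F) (φ : Spl dh dm d) (ψ : Spz r ds dh) (η : Cfg r) : Prop :=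
  ∀ v : Fin dm → ℝ, (∀ i, (Dz S φ ψ η i).mulVec v = 0) → v = 0

/-- `s` has no centre -/
def Less (S : Setup d F) (φ : Spl dh dm d) (ψ : Spz r ds dh) : Prop :=
  ∀ v : Fin ds → ℝ, (∀ B C, ∑ A, S.f (φ (Sum.inl (ψ (Sum.inr A)))) (φ (Sum.inl (ψ (Sum.inr B))))
    (φ (Sum.inl (ψ (Sum.inr C)))) * v A = 0) → v = 0

/-- `x = R·E(η) + O(L)` in `h`, `O(L R^{-1/2})` in `m`, `η ∈ K` -/
def InB (φ : Spl dh dm d) (ψ : Spz r ds dh) (K : Set (Cfg r)) (L R : ℝ) (x : Cfg d) : Prop :=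
  R⁻¹ • hz ψ (zy φ x) ∈ K ∧ ‖hs ψ (zy φ x)‖ ≤ L ∧ ‖Real.sqrt R • pm φ x‖ ≤ L

/-- **LH1 Log** logarithm near `1`. PROOF. `mad_log`: `U = exp(iK)`, `K` Hermitian with eigenvalues `arg` of the eigenvalues of `U`, so `|K|_F ≤ 2|U-1|_F`
(`|arg z| ≤ (π/2)|z-1|` for `|z| = 1`; work in an eigenbasis of `U`), `det U = 1` gives `tr K ∈ 2πℤ`, small, so `tr K = 0`, and `K = ∑ξ_AT_A` with `ξ_A = tr(T_AK)`
(`mad_complete`, `d > 0` or trivial), `|ξ| = |K|_F`. -/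
def LogStmt (M : BFSS.Model N d F) : Prop := ∃ δ C : ℝ, 0 < δ ∧ 0 < C ∧ ∀ U : BFSS.SU N, fn (U.val - 1) ≤ δ →
  ∃ ξ : EuclideanSpace ℝ (Fin d), U.val = eT M ξ ∧ ‖ξ‖ ≤ C * fn (U.val - 1)

/-- **LH2 ExpLip** the exponential is bi-Lipschitz near `0`, takes values in `SU(N)` and is continuous. PROOF. Power series / derivative `1` at `0`
(strict differentiability of `NormedSpace.exp` at `0`), `|∑ξ_AT_A|_F = |ξ|`; unitary as `iH` is skew-Hermitian, `det exp = exp tr = 1`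
(`Matrix.det_exp` or diagonalise). -/
def ExpLipStmt (M : BFSS.Model N d F) : Prop := (∀ ξ, eT M ξ ∈ Matrix.specialUnitaryGroup (Fin N) ℂ) ∧
  Continuous (eT M) ∧ eT M 0 = 1 ∧ ∃ ρ c C : ℝ, 0 < ρ ∧ 0 < c ∧ 0 < C ∧ ∀ ξ ζ, ‖ξ‖ ≤ ρ → ‖ζ‖ ≤ ρ →
    c * ‖ξ - ζ‖ ≤ fn (eT M ξ - eT M ζ) ∧ fn (eT M ξ - eT M ζ) ≤ C * ‖ξ - ζ‖

/-- **LH3 HL** Haar measure dominates Lebesgue measure in the exponential chart.
PROOF. `ρ` small. For measurable `E`, `f(U) = Leb{ξ : |ξ| ≤ 2ρ, U·exp(ξ) ∈ E}`: `∫f(U)dhm(U) = Leb(B_{2ρ})·hm(E)` (Tonelli, right invariance). For `U` in the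
neighbourhood `W = {fn(U-1) ≤ δ'}` of `1` (positive measure) and `ξ'` with `|ξ'| ≤ ρ`, `exp(ξ') ∈ E`: `U⁻¹exp(ξ') = exp(ξ)` with `|ξ| ≤ 2ρ` (LH1, `fn` bi-invariant),
so `ξ` is counted in `f(U)`; the map `{counted ξ} → ξ'` (`ξ'` = the logarithm of `U exp(ξ)` in the ball of radius `ρ`) is `C/c`-Lipschitz by LH2 (`fn(exp ξ₁' - exp ξ₂') = fn(exp ξ₁ - exp ξ₂)`),
so `Leb{ξ' : |ξ'| ≤ ρ, exp ξ' ∈ E} ≤ (C/c)^d f(U)` (`LipschitzOnWith` and Hausdorff/Lebesgue measure, e.g. `LipschitzOnWith.hausdorffMeasure_image_le`). Integrate over `W`. -/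
def HLStmt (M : BFSS.Model N d F) : Prop := ∃ ρ C : ℝ, 0 < ρ ∧ 0 < C ∧ ∀ E : Set (BFSS.SU N), MeasurableSet E →
  (volume : Measure (EuclideanSpace ℝ (Fin d))) {ξ | ‖ξ‖ ≤ ρ ∧ ∃ U ∈ E, U.val = eT M ξ} ≤ ENNReal.ofReal C * hm N E

/-- **LH4 Good** PROOF. The set is the image of the compact set `{|ξ| ≤ ρ', |ξ_m| ≤ δ}` under the continuous `eT`, so compact; HL; the Lebesgue measure of
`{|ξ| ≤ ρ', |ξ_m| ≤ δ}` is `≥` the product of a ball in `h` and a ball of radius `cδ` in `m` (`d = dh + dm`; permutation of coordinates preserves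
the volume), `= c'δ^{dm}`. -/
def GoodStmt (M : BFSS.Model N d F) : Prop := ∀ (dh dm : ℕ) (φ : Spl dh dm d), ∃ ρ : ℝ, 0 < ρ ∧ ∀ ρ' : ℝ, 0 < ρ' → ρ' ≤ ρ →
  ∃ c : ℝ, 0 < c ∧ ∀ δ : ℝ, 0 < δ → δ ≤ ρ' → c * δ ^ dm ≤ (hm N).real {U : BFSS.SU N |
    ∃ ξ : EuclideanSpace ℝ (Fin d), ‖ξ‖ ≤ ρ' ∧ (∀ B : Fin dm, |ξ (φ (Sum.inr B))| ≤ δ) ∧ U.val = eT M ξ} ∧
    MeasurableSet {U : BFSS.SU N |
    ∃ ξ : EuclideanSpace ℝ (Fin d), ‖ξ‖ ≤ ρ' ∧ (∀ B : Fin dm, |ξ (φ (Sum.inr B))| ≤ δ) ∧ U.val = eT M ξ}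

/-- **LH5 AdE** adjoint action of exponentials. PROOF: second half of `mad_exp` (`mad_conj`), with `K = ∑ξ_AT_A`. (`d = 0` trivial.) -/
def AdEStmt (M : BFSS.Model N d F) : Prop := ∀ S : Setup d F, Rep M S → ∀ (U : BFSS.SU N) (ξ : EuclideanSpace ℝ (Fin d)),
  U.val = eT M ξ → (Matrix.of fun B A => BFSS.adCoeff M.T U B A) = NormedSpace.exp ((-1 : ℝ) • S.adm ξ)

/-- **LH6 SUni** `S(U)` and `act U` are uniformly continuous: PROOF: `F` finite dimensional, `S` is a unitary representation, continuity at `1`, compactness;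
`‖act U x - x‖ ≤ C fn(U-1)‖x‖` from the formula of `adCoeff`. -/
def SUniStmt (M : BFSS.Model N d F) : Prop := FiniteDimensional ℂ F →
  (∀ ε : ℝ, 0 < ε → ∃ δ : ℝ, 0 < δ ∧ ∀ U V : BFSS.SU N, fn (U.val - V.val) ≤ δ → ∀ v, ‖M.S U v - M.S V v‖ ≤ ε * ‖v‖) ∧
  ∃ C : ℝ, 0 < C ∧ ∀ (U V : BFSS.SU N) (x : Cfg d), ‖M.act U x - M.act V x‖ ≤ C * fn (U.val - V.val) * ‖x‖

/-- **LH7 Near** elements that move a regular point of `K` close to another one are close to the normaliser.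
PROOF by contradiction: `U_n → U` (compactness of `SU(N)`), `η_n → η`, `η_n' → η'` in `K`, `act U (Ez η) = Ez η'`. `Ad U` is an automorphism of the Lie algebra
(`f` invariant), orthogonal, and maps the centraliser of `Ez η` onto that of `Ez η'`; both are `h` (`z` central in `h`: `⊇`; `RegP`: `⊆`, since the `m`-part of an
element commuting with `Ez η` also commutes, `h` and `m` being invariant under `ad (Ez η)_i`). So `Ad U` preserves `h`, its centre (which is `z` by `Less`), and by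
orthogonality `s = h ∩ z^⊥` and `m = h^⊥`: `Nrm U`; but `fn(U_n - U) → 0`. -/
def NearStmt (M : BFSS.Model N d F) : Prop := ∀ S : Setup d F, Rep M S → ∀ (dh dm r ds : ℕ) (φ : Spl dh dm d)
  (ψ : Spz r ds dh), S.IsSub φ → IsZ S φ ψ → Less S φ ψ → ∀ K : Set (Cfg r), IsCompact K → (∀ η ∈ K, RegP S φ ψ η) →
  ∀ ε : ℝ, 0 < ε → ∃ δ : ℝ, 0 < δ ∧ ∀ (U : BFSS.SU N) (η η' : Cfg r), η ∈ K → η' ∈ K →
    ‖M.act U (Ez φ ψ η) - Ez φ ψ η'‖ ≤ δ → ∃ U₀ : BFSS.SU N, Nrm M φ ψ U₀ ∧ fn (U.val - U₀.val) ≤ ε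

/-- **LH8 Geo** PROOF. `η = R⁻¹x^z`, `η' = R⁻¹(Ux)^z`: `|act U (Ez η) - Ez η'| ≤ 4(L+1)/R`, so by LH7 there is `U₀` normalising with `V₀ = U₀⁻¹U` close to `1`; LH1: `V₀ = exp(iξ)`, `ξ` small.
`act V₀ x = act U₀⁻¹(act U x)` is again `InB` (with the compact set `⋃_{U₀ ∈ Nrm}U₀⁻¹K`, same `L`): in particular `|(act V₀ x)^m| ≤ L R^{-1/2}`. With `A = -ad ξ` (LH5):
`exp(A)(R Ez η) = R Ez η + φ(A)[A(R Ez η)]`, `φ(t) = (e^t-1)/t = 1 + O(|ξ|)`, `A(Ez η)` depends only on `ξ_m` (as `[h,z] = 0`), lies in `m`, and has norm `≥ c|ξ_m|` (`RegP`, compactness);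
the `m`-component of `exp(A)x^s` is `O(|ξ_m|)L` (`exp` of the block diagonal `ad ξ_h` preserves `h`; difference `≤ C|ξ_m|`) and that of `exp(A)x^m` is `≤ L R^{-1/2}`:
`cR|ξ_m| ≤ 2L R^{-1/2} + C|ξ_m|L`, `|ξ_m| ≤ C'R^{-3/2}`. Put `U_N = U₀·exp(iξ_h)` (`exp(iξ_h)` is in `Nrm`), `V = exp(-iξ_h)exp(iξ)`: `fn(V-1) = fn(exp(iξ)-exp(iξ_h)) ≤ C|ξ_m|` (LH2),
`U = U_N V`. `‖act V x - x‖ ≤ C fn(V-1)‖x‖ ≤ C'R^{-3/2}·R` (LH6). -/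
def GeoStmt (M : BFSS.Model N d F) : Prop := ∀ S : Setup d F, Rep M S → ∀ (dh dm r ds : ℕ) (φ : Spl dh dm d)
  (ψ : Spz r ds dh), S.IsSub φ → IsZ S φ ψ → Less S φ ψ → ∀ K : Set (Cfg r), IsCompact K → (∀ η ∈ K, RegP S φ ψ η) →
  ∀ L : ℝ, 0 < L → ∃ R₀ C : ℝ, 1 ≤ R₀ ∧ 0 < C ∧ ∀ R : ℝ, R₀ ≤ R → ∀ (U : BFSS.SU N) (x : Cfg d),
    InB φ ψ K L R x → InB φ ψ K L R (M.act U x) →
    ∃ UN V : BFSS.SU N, U = UN * V ∧ Nrm M φ ψ UN ∧ fn (V.val - 1) ≤ C / (R * Real.sqrt R) ∧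
      ‖M.act V x - x‖ ≤ C / Real.sqrt R

/-- **LH9 GoodA** the good elements move points of `InB` only little. PROOF: as in LH8 (upper bounds): `exp(A)(R Ez η) - R Ez η = φ(A)A(R Ez η) = O(R|ξ_m|)`, its `h`-component is `O(|ξ|·R|ξ_m|)`;
`exp(A)x^s - x^s = O(|ξ|)L`, with `m`-component `O(|ξ_m|L)`; `exp(A)x^m = O(R^{-1/2})`. -/
def GoodAStmt (M : BFSS.Model N d F) : Prop := ∀ S : Setup d F, Rep M S → ∀ (dh dm r ds : ℕ) (φ : Spl dh dm d)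
  (ψ : Spz r ds dh), S.IsSub φ → IsZ S φ ψ → ∀ K : Set (Cfg r), IsCompact K → ∀ L : ℝ, 0 < L →
  ∃ ρ C : ℝ, 0 < ρ ∧ 0 < C ∧ ∀ R : ℝ, 1 ≤ R → ∀ (U : BFSS.SU N) (ξ : EuclideanSpace ℝ (Fin d)), ‖ξ‖ ≤ ρ →
    (∀ B : Fin dm, |ξ (φ (Sum.inr B))| ≤ (R * Real.sqrt R)⁻¹) → U.val = eT M ξ → ∀ x, InB φ ψ K L R x →
    ‖hz ψ (zy φ (M.act U x)) - hz ψ (zy φ x)‖ ≤ C * (‖ξ‖ + (Real.sqrt R)⁻¹) ∧
    ‖hs ψ (zy φ (M.act U x)) - hs ψ (zy φ x)‖ ≤ C * (‖ξ‖ + (Real.sqrt R)⁻¹) ∧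
    ‖Real.sqrt R • pm φ (M.act U x)‖ ≤ C

end Vale.Agent.P353.AN.LW
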